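import Vale.Agent.P309.Defs
import Vale.Agent.P226.PlanarAux
import Vale.Agent.P226.Lift

/-!
# P309, module Gauss : the slab inequality and the small ball estimate
-/

namespace P309

open MeasureTheory ProbabilityTheory P226
open scoped ENNReal RealInnerProductSpace

variable {V : Type*} [NormedAddCommGroup V] [InnerProductSpace ℝ V] [FiniteDimensional ℝ V]
  [MeasurableSpace V] [BorelSpace V]

theorem slab (W : Submodule ℝ V) {D D0 : V} (hD0 : D0 ∈ W) {S : Set V} (hS : MeasurableSet S)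
    (hSW : ∀ x y : V, (∀ w ∈ W, ⟪x, w⟫ = ⟪y, w⟫) → (x ∈ S ↔ y ∈ S)) {δ : ℝ} (hδ : 0 < δ) :
    stdGaussian V (S ∩ {x | |⟪x, D - D0⟫| ≤ 2 * δ}) ≤
      stdGaussian V S * (ENNReal.ofReal (4 * δ / √(2 * Real.pi)) *
        (ENNReal.ofReal (dst W D))⁻¹) := by
  have hpi := Real.pi_pos
  have hd0 : 0 ≤ dst W D := norm_nonneg _
  rcases hd0.eq_or_lt with h0 | h0
  · rw [← h0, ENNReal.ofReal_zero, ENNReal.inv_zero, ENNReal.mul_top]
    · rcases eq_or_ne (stdGaussian V S) 0 with hS0 | hS0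
      · rw [hS0, zero_mul]
        exact (measure_mono Set.inter_subset_left).trans hS0.le
      · rw [ENNReal.mul_top hS0]
        exact le_top
    · rw [ne_eq, ENNReal.ofReal_eq_zero, not_le]
      positivity
  · set p : V := Wᗮ.starProjection D with hp
    have hpn : ‖p‖ = dst W D := rfl
    set u : V := ‖p‖⁻¹ • p with hu
    have hp0 : 0 < ‖p‖ := by rw [hpn]; exact h0
    have hun : ‖u‖ = 1 := by rw [hu, norm_smul, norm_inv, norm_norm, inv_mul_cancel₀ hp0.ne']
    have hpmem : p ∈ Wᗮ := Submodule.starProjection_apply_mem _ _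
    have hpW : ∀ w ∈ W, ⟪p, w⟫ = 0 := fun w hw => by
      rw [real_inner_comm]
      exact (Submodule.mem_orthogonal W p).mp hpmem w hw
    have huW : ∀ w ∈ W, ⟪u, w⟫ = 0 := fun w hw => by
      rw [hu, real_inner_smul_left, hpW w hw, mul_zero]
    have hpD : ⟪p, D⟫ = ‖p‖ ^ 2 := by
      have h1 : ⟪D - p, p⟫ = 0 := by
        have h2 : D - p ∈ Wᗮᗮ := Submodule.sub_starProjection_mem_orthogonal D
        rw [real_inner_comm]
        exact (Submodule.mem_orthogonal _ _).mp h2 p hpmem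
      rw [inner_sub_left, real_inner_self_eq_norm_sq] at h1
      rw [real_inner_comm]
      linarith
    have huD : ⟪u, D - D0⟫ = dst W D := by
      rw [inner_sub_right, huW D0 hD0, sub_zero, hu, real_inner_smul_left, hpD, ← hpn]
      field_simp
    have hm2 : MeasurableSet {x : V | |⟪x, D - D0⟫| ≤ 2 * δ} :=
      measurableSet_le (by fun_prop) measurable_const
    rw [← lintegral_indicator_one (hS.inter hm2),
      lintegral_dis u hun (measurable_one.indicator (hS.inter hm2)),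
      ← lintegral_indicator_one hS, ← lintegral_mul_const _ (measurable_one.indicator hS)]
    refine lintegral_mono fun x => ?_
    have hmem : ∀ g : ℝ, (x - ⟪x, u⟫ • u + g • u ∈ S ↔ x ∈ S) := by
      intro g
      refine hSW _ _ fun w hw => ?_
      rw [sub_add_eq, inner_add_left, real_inner_smul_left, huW w hw, mul_zero, add_zero]
    by_cases hx : x ∈ S
    · rw [Set.indicator_of_mem hx, Pi.one_apply, one_mul]
      set ξ := ⟪x, D - D0⟫ - ⟪x, u⟫ * dst W D with hξ
      have h1 : ∀ g : ℝ, (S ∩ {x : V | |⟪x, D - D0⟫| ≤ 2 * δ}).indicator (1 : V → ℝ≥0∞)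
          (x - ⟪x, u⟫ • u + g • u) =
          {g : ℝ | -(2 * δ) ≤ ξ + dst W D * g ∧ ξ + dst W D * g ≤ 2 * δ}.indicator 1 g := by
        intro g
        have h2 : ⟪x - ⟪x, u⟫ • u + g • u, D - D0⟫ = ξ + dst W D * g := by
          rw [sub_add_eq, inner_add_left, real_inner_smul_left, huD, hξ]
          ring
        by_cases hg : -(2 * δ) ≤ ξ + dst W D * g ∧ ξ + dst W D * g ≤ 2 * δ
        · rw [Set.indicator_of_mem (show g ∈ {g : ℝ | -(2 * δ) ≤ ξ + dst W D * g ∧
            ξ + dst W D * g ≤ 2 * δ} from hg), Set.indicator_of_mem]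
          · rfl
          · refine ⟨(hmem g).mpr hx, ?_⟩
            show |⟪x - ⟪x, u⟫ • u + g • u, D - D0⟫| ≤ 2 * δ
            rw [h2, abs_le]
            exact hg
        · rw [Set.indicator_of_notMem (show g ∉ {g : ℝ | -(2 * δ) ≤ ξ + dst W D * g ∧
            ξ + dst W D * g ≤ 2 * δ} from hg), Set.indicator_of_notMem]
          rintro ⟨_, h3⟩
          have h4 : |⟪x - ⟪x, u⟫ • u + g • u, D - D0⟫| ≤ 2 * δ := h3
          rw [h2, abs_le] at h4
          exact hg h4
      simp_rw [h1]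
      have m1 : MeasurableSet {g : ℝ | -(2 * δ) ≤ ξ + dst W D * g} :=
        measurableSet_le measurable_const (by fun_prop)
      have m2 : MeasurableSet {g : ℝ | ξ + dst W D * g ≤ 2 * δ} :=
        measurableSet_le (by fun_prop) measurable_const
      have hmg : MeasurableSet {g : ℝ | -(2 * δ) ≤ ξ + dst W D * g ∧
          ξ + dst W D * g ≤ 2 * δ} := m1.inter m2
      refine (lintegral_gaussianReal_le (measurable_one.indicator hmg)).trans ?_
      rw [lintegral_indicator_one hmg]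
      refine (mul_le_mul_right (lint_interval h0 (-(2 * δ)) (2 * δ) ξ) _).trans (le_of_eq ?_)
      rw [← ENNReal.ofReal_inv_of_pos h0, ← ENNReal.ofReal_mul (by positivity),
        ← ENNReal.ofReal_mul (by positivity)]
      congr 1
      have : √(2 * Real.pi) ≠ 0 := by positivity
      field_simp
      ring
    · have h1 : ∀ g : ℝ, (S ∩ {x : V | |⟪x, D - D0⟫| ≤ 2 * δ}).indicator (1 : V → ℝ≥0∞)
          (x - ⟪x, u⟫ • u + g • u) = 0 := by
        intro g
        rw [Set.indicator_of_notMem]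
        rintro ⟨h2, _⟩
        exact hx ((hmem g).mp h2)
      simp_rw [h1]
      simp

lemma small_ball_full (b : V) {τ : ℝ} (hτ : 0 < τ) (hV : 0 < Module.finrank ℝ V) :
    stdGaussian V {y | ‖y - b‖ ≤ τ} ≤
      ENNReal.ofReal ((Real.exp 1 * τ ^ 2 / Module.finrank ℝ V) ^
        ((Module.finrank ℝ V : ℝ) / 2)) := by
  have hpi := Real.pi_pos
  set N : ℝ := (Module.finrank ℝ V : ℝ) with hN
  have hN0 : 0 < N := by rw [hN]; exact_mod_cast hV
  set lam : ℝ := N / (2 * τ ^ 2) with hlam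
  have hlam0 : 0 < lam := by positivity
  have hm : MeasurableSet {y : V | ‖y - b‖ ≤ τ} :=
    measurableSet_le (by fun_prop) measurable_const
  have hI : ∫ y : V, Real.exp (-lam * ‖y - b‖ ^ 2) = (Real.pi / lam) ^ (N / 2) := by
    rw [integral_sub_right_eq_self (fun y : V => Real.exp (-lam * ‖y‖ ^ 2)) b]
    exact GaussianFourier.integral_rexp_neg_mul_sq_norm hlam0
  have hne : (Real.pi / lam) ^ (N / 2) ≠ 0 := by positivity
  have hint : Integrable (fun y : V => Real.exp (-lam * ‖y - b‖ ^ 2)) := by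
    by_contra hcon
    rw [integral_undef hcon] at hI
    exact hne hI.symm
  set C : ℝ := (2 * Real.pi) ^ (-(N / 2)) * Real.exp (lam * τ ^ 2) with hC
  have hC0 : 0 ≤ C := by positivity
  have h1 : stdGaussian V {y | ‖y - b‖ ≤ τ} ≤
      ∫⁻ y, ENNReal.ofReal (C * Real.exp (-lam * ‖y - b‖ ^ 2)) := by
    rw [stdGaussian_eq_withDensity, withDensity_apply _ hm, ← lintegral_indicator hm]
    refine lintegral_mono fun y => ?_
    by_cases hy : y ∈ {y : V | ‖y - b‖ ≤ τ}
    · rw [Set.indicator_of_mem hy]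
      apply ENNReal.ofReal_le_ofReal
      have hy' : ‖y - b‖ ≤ τ := hy
      unfold gden
      rw [hC, mul_assoc, ← Real.exp_add]
      have h2 : Real.exp (-‖y‖ ^ 2 / 2) ≤ Real.exp (lam * τ ^ 2 + -lam * ‖y - b‖ ^ 2) := by
        apply Real.exp_le_exp.mpr
        have h3 : ‖y - b‖ ^ 2 ≤ τ ^ 2 := pow_le_pow_left₀ (norm_nonneg _) hy' 2
        have h4 : lam * ‖y - b‖ ^ 2 ≤ lam * τ ^ 2 := mul_le_mul_of_nonneg_left h3 hlam0.le
        nlinarith [sq_nonneg ‖y‖]
      rw [← hN]
      exact mul_le_mul_of_nonneg_left h2 (by positivity)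
    · rw [Set.indicator_of_notMem hy]
      exact zero_le
  refine h1.trans (le_of_eq ?_)
  rw [← ofReal_integral_eq_lintegral_ofReal (hint.const_mul C)
    (Filter.Eventually.of_forall fun y => by positivity), integral_const_mul, hI]
  congr 1
  have h5 : lam * τ ^ 2 = N / 2 := by rw [hlam]; field_simp
  have h6 : Real.pi / lam = 2 * Real.pi * (τ ^ 2 / N) := by rw [hlam]; field_simp
  have h7 : Real.exp 1 * τ ^ 2 / N = Real.exp 1 * (τ ^ 2 / N) := by ring
  have e1 : (2 * Real.pi * (τ ^ 2 / N)) ^ (N / 2) =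
      (2 * Real.pi) ^ (N / 2) * (τ ^ 2 / N) ^ (N / 2) :=
    Real.mul_rpow (by positivity) (by positivity)
  have e2 : (Real.exp 1 * (τ ^ 2 / N)) ^ (N / 2) = Real.exp (N / 2) * (τ ^ 2 / N) ^ (N / 2) := by
    rw [Real.mul_rpow (Real.exp_pos _).le (by positivity), ← Real.exp_mul, one_mul]
  rw [hC, h5, h6, h7, e1, e2, Real.rpow_neg (by positivity)]
  have h8 : (2 * Real.pi) ^ (N / 2) ≠ 0 := by positivity
  field_simp

theorem small_ball (W : Submodule ℝ V) (a : V) {τ : ℝ} (hτ : 0 < τ)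
    (hW : 0 < Module.finrank ℝ Wᗮ) :
    stdGaussian V {g | dst W (g - a) ≤ τ} ≤
      ENNReal.ofReal ((Real.exp 1 * τ ^ 2 / Module.finrank ℝ Wᗮ) ^
        ((Module.finrank ℝ Wᗮ : ℝ) / 2)) := by
  set J : Wᗮ →ₗᵢ[ℝ] V := Wᗮ.subtypeₗᵢ with hJ
  set T := ContinuousLinearMap.adjoint J.toContinuousLinearMap with hT
  have hTx : ∀ x : V, ((T x : Wᗮ) : V) = Wᗮ.starProjection x := by
    intro x
    rw [hT, hJ]
    have : ContinuousLinearMap.adjoint Wᗮ.subtypeₗᵢ.toContinuousLinearMap =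
        Wᗮ.orthogonalProjectionOnto := Submodule.adjoint_subtypeL Wᗮ
    rw [this]
    rfl
  have hmap := map_adjoint J
  rw [← hT] at hmap
  have hset : {g : V | dst W (g - a) ≤ τ} = T ⁻¹' {y | ‖y - T a‖ ≤ τ} := by
    ext g
    show dst W (g - a) ≤ τ ↔ ‖T g - T a‖ ≤ τ
    have h1 : dst W (g - a) = ‖T g - T a‖ := by
      rw [← map_sub]
      have h4 : ‖T (g - a)‖ = ‖((T (g - a) : Wᗮ) : V)‖ := rfl
      rw [h4, hTx]
      rfl
    rw [h1]
  have hm : MeasurableSet {y : Wᗮ | ‖y - T a‖ ≤ τ} :=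
    measurableSet_le (by fun_prop) measurable_const
  rw [hset, ← Measure.map_apply (by fun_prop) hm, hmap]
  exact small_ball_full (T a) hτ hW

end P309
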