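import Vale.Agent.P309.ProbeGeom
import Vale.Agent.P309.Gauss

/-! # P309: basic probability of the probe -/

namespace P309

open MeasureTheory ProbabilityTheory
open scoped ENNReal RealInnerProductSpace

namespace PB

/-- conditioning on all coordinates but one -/
theorem coord {ι : Type*} [Fintype ι] [DecidableEq ι] {X : ι → Type*}
    [∀ i, MeasurableSpace (X i)] (μ : ∀ i, Measure (X i)) [∀ i, IsProbabilityMeasure (μ i)]
    {A : Set (∀ i, X i)} (hA : MeasurableSet A) (i : ι) {c : ℝ≥0∞}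
    (h : ∀ x, μ i {a | Function.update x i a ∈ A} ≤ c) : Measure.pi μ A ≤ c := by
  have h1 : ∫⁻ x, A.indicator 1 x ∂(Measure.pi μ) ≤ ∫⁻ _, c ∂(Measure.pi μ) := by
    apply lintegral_le_of_lmarginal_le {i} (measurable_one.indicator hA) measurable_const
    rw [lmarginal_singleton, lmarginal_singleton]
    intro x
    have e : (fun a => A.indicator (1 : (∀ i, X i) → ℝ≥0∞) (Function.update x i a)) =
        (Function.update x i ⁻¹' A).indicator 1 := by
      funext a
      by_cases ha : Function.update x i a ∈ A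
      · rw [Set.indicator_of_mem ha, Set.indicator_of_mem (Set.mem_preimage.mpr ha)]
        rfl
      · rw [Set.indicator_of_notMem ha, Set.indicator_of_notMem]
        exact ha
    have hm : MeasurableSet (Function.update x i ⁻¹' A) := (measurable_update x) hA
    simp only [lintegral_const, measure_univ, mul_one]
    calc ∫⁻ a, A.indicator (1 : (∀ i, X i) → ℝ≥0∞) (Function.update x i a) ∂μ i
        = ∫⁻ a, (Function.update x i ⁻¹' A).indicator 1 a ∂μ i := by rw [e]
      _ = μ i (Function.update x i ⁻¹' A) := lintegral_indicator_one hm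
      _ ≤ c := h x
  rw [lintegral_indicator_one hA, lintegral_const, measure_univ, mul_one] at h1
  exact h1

theorem lintegral_sq_gaussianReal :
    ∫⁻ t, ENNReal.ofReal (t ^ 2) ∂(gaussianReal 0 1) = 1 := by
  have h1 : Integrable (fun t : ℝ => t ^ 2) (gaussianReal 0 1) :=
    (memLp_id_gaussianReal 2).integrable_sq
  rw [← ofReal_integral_eq_lintegral_ofReal h1 (ae_of_all _ fun t => sq_nonneg t)]
  have h2 : ∫ t, t ^ 2 ∂(gaussianReal 0 1) = 1 := by
    have h3 := variance_id_gaussianReal (μ := 0) (v := 1)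
    rw [variance_eq_integral aemeasurable_id] at h3
    simpa using h3
  rw [h2]
  simp

theorem lintegral_norm_sq (d : ℕ) :
    ∫⁻ x, ENNReal.ofReal (‖x‖ ^ 2) ∂(stdGaussian (Eu d)) = d := by
  have h1 : ∀ x : Eu d, ENNReal.ofReal (‖x‖ ^ 2) = ∑ i, ENNReal.ofReal ((x i) ^ 2) := by
    intro x
    rw [EuclideanSpace.real_norm_sq_eq, ENNReal.ofReal_sum_of_nonneg (fun i _ => sq_nonneg _)]
  simp_rw [h1]
  rw [lintegral_finsetSum _ (fun i _ => by fun_prop)]
  have h2 : ∀ i : Fin d, ∫⁻ x : Eu d, ENNReal.ofReal ((x i) ^ 2) ∂(stdGaussian (Eu d)) = 1 := by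
    intro i
    rw [← map_pi_eq_stdGaussian, lintegral_map (by fun_prop) (by fun_prop)]
    have h3 := (measurePreserving_eval (fun _ : Fin d => gaussianReal 0 1) i)
    have h4 := h3.lintegral_comp (f := fun t : ℝ => ENNReal.ofReal (t ^ 2)) (by fun_prop)
    rw [lintegral_sq_gaussianReal] at h4
    exact h4
  simp [h2]

theorem three_quarters_le (d : ℕ) :
    (3 / 4 : ℝ≥0∞) ≤ stdGaussian (Eu d) (Metric.closedBall 0 (2 * √d)) := by
  rcases Nat.eq_zero_or_pos d with hd | hd
  · subst hd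
    have : (Metric.closedBall 0 (2 * √((0 : ℕ) : ℝ)) : Set (Eu 0)) = Set.univ := by
      ext x
      have : x = 0 := Subsingleton.elim _ _
      simp [this]
    rw [this, measure_univ]
    exact ENNReal.div_le_of_le_mul (by norm_num)
  · have hd' : (0:ℝ) < d := by exact_mod_cast hd
    have h1 : stdGaussian (Eu d) (Metric.closedBall 0 (2 * √d))ᶜ ≤ 1 / 4 := by
      have h2 : (Metric.closedBall 0 (2 * √d) : Set (Eu d))ᶜ ⊆
          {x | ENNReal.ofReal (4 * d) ≤ ENNReal.ofReal (‖x‖ ^ 2)} := by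
        intro x hx
        simp only [Set.mem_compl_iff, Metric.mem_closedBall, dist_zero_right, not_le] at hx
        apply ENNReal.ofReal_le_ofReal
        have h3 : (2 * √d) ^ 2 = 4 * d := by
          rw [mul_pow, Real.sq_sqrt hd'.le]
          norm_num
        rw [← h3]
        exact pow_le_pow_left₀ (by positivity) hx.le 2
      refine (measure_mono h2).trans ?_
      refine (meas_ge_le_lintegral_div (by fun_prop) (by simpa using hd.ne') ENNReal.ofReal_ne_top).trans ?_
      rw [lintegral_norm_sq]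
      have h4 : ENNReal.ofReal (4 * d) = 4 * (d : ℝ≥0∞) := by
        rw [ENNReal.ofReal_mul (by norm_num), ENNReal.ofReal_natCast]
        norm_num
      rw [h4]
      have h5 : (d : ℝ≥0∞) ≠ 0 := by simpa using hd.ne'
      rw [ENNReal.div_le_iff (by simp [hd.ne']) (by finiteness)]
      rw [← mul_assoc]
      have h6 : (1 / 4 : ℝ≥0∞) * 4 = 1 := by
        rw [one_div]
        exact ENNReal.inv_mul_cancel (by norm_num) (by norm_num)
      rw [h6, one_mul]
    have h2 := prob_add_prob_compl (μ := stdGaussian (Eu d))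
      (Metric.isClosed_closedBall (x := (0 : Eu d)) (ε := 2 * √d)).measurableSet
    have h3 : (1 : ℝ≥0∞) ≤ stdGaussian (Eu d) (Metric.closedBall 0 (2 * √d)) + 1 / 4 :=
      calc (1 : ℝ≥0∞) = _ := h2.symm
        _ ≤ _ := by gcongr
    have h4 : (3 / 4 + 1 / 4 : ℝ≥0∞) = 1 := by
      rw [← ENNReal.add_div]
      have : (3 + 1 : ℝ≥0∞) = 4 := by norm_num
      rw [this, ENNReal.div_self (by norm_num) (by norm_num)]
    have h5 : (1 / 4 : ℝ≥0∞) ≠ ∞ := ENNReal.div_ne_top (by norm_num) (by norm_num)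
    exact (ENNReal.add_le_add_iff_right h5).mp (h4.trans_le h3)

end PB

instance (d : ℕ) : IsProbabilityMeasure (tg d) := by
  unfold tg
  apply cond_isProbabilityMeasure
  have h := PB.three_quarters_le d
  intro h0
  rw [h0] at h
  have : (0 : ℝ≥0∞) < 3 / 4 := by
    apply ENNReal.div_pos (by norm_num) (by norm_num)
  exact absurd h (not_le.mpr this)

instance (L N d : ℕ) : IsProbabilityMeasure (codeM L N d) := by
  unfold codeM
  infer_instance

theorem tg_le (d : ℕ) (A : Set (Eu d)) : tg d A ≤ 2 * stdGaussian (Eu d) A := by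
  unfold tg
  rw [cond_apply Metric.isClosed_closedBall.measurableSet]
  have h := PB.three_quarters_le d
  have h1 : (stdGaussian (Eu d) (Metric.closedBall 0 (2 * √d)))⁻¹ ≤ 2 := by
    rw [ENNReal.inv_le_iff_inv_le]
    refine le_trans ?_ h
    rw [ENNReal.le_div_iff_mul_le (by norm_num) (by norm_num)]
    have : (2:ℝ≥0∞)⁻¹ * 4 = 2 := by
      have : (4:ℝ≥0∞) = 2 * 2 := by norm_num
      rw [this, ← mul_assoc, ENNReal.inv_mul_cancel (by norm_num) (by norm_num), one_mul]
    rw [this]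
    norm_num
  exact mul_le_mul' h1 (measure_mono Set.inter_subset_right)

theorem shift_mp {L N d : ℕ} (z : Path L N) :
    MeasurePreserving (fun p : Code L N d × Eu d => (p.1, p.2 + shift p.1 z))
      ((codeM L N d).prod volume) ((codeM L N d).prod volume) := by
  have hm : Measurable (Function.uncurry fun (G : Code L N d) (t : Eu d) => t + shift G z) := by
    have := (continuous_shift (N := N) (d := d) z).measurable
    unfold Function.uncurry
    fun_prop
  exact (MeasurePreserving.id (codeM L N d)).skew_product hm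
    (ae_of_all _ fun G => (measurePreserving_add_right volume (shift G z)).map_eq)

theorem code_ae (L N d : ℕ) : ∀ᵐ G ∂(codeM L N d), ∀ i, ‖G i‖ ≤ 2 * √d := by
  rw [ae_all_iff]
  intro i
  have h1 : ∀ᵐ x ∂(tg d), ‖x‖ ≤ 2 * √d := by
    have h2 := ae_cond_mem (μ := stdGaussian (Eu d))
      (Metric.isClosed_closedBall (x := (0 : Eu d)) (ε := 2 * √d)).measurableSet
    unfold tg
    filter_upwards [h2] with x hx
    simpa using hx
  have h3 := (measurePreserving_eval (fun _ : Fin L × Fin N => tg d) i).quasiMeasurePreserving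
  exact h3.ae h1

theorem shift_update_self {L N d : ℕ} (G : Code L N d) {z : Path L N} (l : Fin L) (a : Eu d) :
    shift (Function.update G (l, z l) a) z =
      shift G z + ((1 / 4 : ℝ) ^ (l.val + 1) / √d) • (a - G (l, z l)) := by
  classical
  have h : shift (Function.update G (l, z l) a) z - shift G z =
      ((1 / 4 : ℝ) ^ (l.val + 1) / √d) • (a - G (l, z l)) := by
    unfold shift
    rw [← Finset.sum_sub_distrib]
    rw [Finset.sum_eq_single l]
    · rw [Function.update_self, smul_sub]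
    · intro i _ hi
      rw [Function.update_of_ne, sub_self]
      intro h
      exact hi (Prod.mk.inj h).1
    · intro h
      exact absurd (Finset.mem_univ l) h
  rw [← h]
  abel

theorem shift_update_other {L N d : ℕ} (G : Code L N d) {z z' : Path L N} {l : Fin L}
    (h : z l ≠ z' l) (a : Eu d) :
    shift (Function.update G (l, z l) a) z' = shift G z' := by
  classical
  unfold shift
  apply Finset.sum_congr rfl
  intro i _
  rw [Function.update_of_ne]
  intro he
  have h1 := (Prod.mk.inj he).1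
  have h2 := (Prod.mk.inj he).2
  subst h1
  exact h h2.symm

theorem one_path {L N d : ℕ} (hd : 1 ≤ d) {z' z : Path L N} {l : Fin L} (hz : z ∈ Lev z' l)
    (W : Submodule ℝ (Eu d)) (hW : 0 < Module.finrank ℝ Wᗮ) {τ : ℝ} (hτ : 0 < τ) :
    codeM L N d {G | dst W (shift G z - shift G z') ≤ (1 / 4 : ℝ) ^ (l.val + 1) / √d * τ} ≤
      2 * ENNReal.ofReal ((Real.exp 1 * τ ^ 2 / Module.finrank ℝ Wᗮ) ^
        ((Module.finrank ℝ Wᗮ : ℝ) / 2)) := by
  classical
  have hzl : z l ≠ z' l := (Finset.mem_filter.mp hz).2.2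
  have hd' : (0:ℝ) < √d := Real.sqrt_pos.mpr (by exact_mod_cast hd)
  set c : ℝ := (1 / 4 : ℝ) ^ (l.val + 1) / √d with hc
  have hc0 : 0 < c := by positivity
  have hA : MeasurableSet {G : Code L N d | dst W (shift G z - shift G z') ≤ c * τ} :=
    (isClosed_le ((PB.continuous_dst W).comp (measurable_shift_diff z z'))
      continuous_const).measurableSet
  unfold codeM
  refine PB.coord (fun _ => tg d) hA (l, z l) ?_
  intro G
  refine (tg_le d _).trans ?_
  refine mul_le_mul' le_rfl ?_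
  set r : Eu d := shift G z - shift G z' - c • G (l, z l) with hr
  have hset : {a | Function.update G (l, z l) a ∈
      {G : Code L N d | dst W (shift G z - shift G z') ≤ c * τ}} =
      {a | dst W (a - (-(c⁻¹ • r))) ≤ τ} := by
    ext a
    simp only [Set.mem_ofPred_eq]
    rw [shift_update_self, shift_update_other G hzl]
    have e : shift G z + c • (a - G (l, z l)) - shift G z' = c • (a - (-(c⁻¹ • r))) := by
      rw [sub_neg_eq_add, smul_add, smul_smul, mul_inv_cancel₀ hc0.ne', one_smul, hr, smul_sub]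
      abel
    rw [e, PB.dst_smul, abs_of_pos hc0]
    exact mul_le_mul_iff_right₀ hc0
  rw [hset]
  exact small_ball W _ hτ hW

namespace PB

theorem finrank_line_orth {d : ℕ} {t : Eu d} (ht : t ≠ 0) (hd : 1 ≤ d) :
    Module.finrank ℝ (⊥ ⊔ ℝ ∙ t : Submodule ℝ (Eu d))ᗮ = d - 1 := by
  have h1 := Submodule.finrank_add_finrank_orthogonal (⊥ ⊔ ℝ ∙ t : Submodule ℝ (Eu d))
  have h2 : Module.finrank ℝ (⊥ ⊔ ℝ ∙ t : Submodule ℝ (Eu d)) = 1 := by
    rw [bot_sup_eq]
    exact finrank_span_singleton ht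
  rw [h2, finrank_euclideanSpace_fin] at h1
  omega

theorem sq_rpow_half {x : ℝ} (hx : 0 ≤ x) (n : ℕ) : (x ^ 2) ^ ((n : ℝ) / 2) = x ^ n := by
  rw [← Real.rpow_natCast x 2, ← Real.rpow_mul hx]
  have : ((2 : ℕ) : ℝ) * ((n : ℝ) / 2) = (n : ℝ) := by
    push_cast
    ring
  rw [this, Real.rpow_natCast]

theorem event_le {q d L : ℕ} (hq : 1 ≤ q) (hqd : 4 * q ≤ d) {z' z : Path L (2 ^ q)}
    {l : Fin L} (hz : z ∈ Lev z' l)
    {t' : Eu d} (ht' : t' ∈ ann d) {ε : ℝ} (hε : ε ≤ 1 / 64 * (1 / 4) ^ L) :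
    codeM L (2 ^ q) d {G | t' + (shift G z - shift G z') ∈ ann d ∧
        ‖sg (t' + (shift G z - shift G z')) - sg t'‖ ≤ 2 * ε} ≤
      2 * ENNReal.ofReal ((1 / 8 * (1 / 4) ^ (L - 1 - l.val)) ^ (d - 1)) := by
  have hd : 1 ≤ d := by omega
  have hdR : (4:ℝ) ≤ d := by
    have : 4 ≤ d := by omega
    exact_mod_cast this
  have hs : 0 < √(d : ℝ) := Real.sqrt_pos.mpr (by linarith)
  have ht0 := ne_zero_of_ann ht'
  set j : ℕ := L - 1 - l.val with hj
  have hlL := l.isLt
  have hLj : L = l.val + 1 + j := by omega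
  set W : Submodule ℝ (Eu d) := ⊥ ⊔ ℝ ∙ t' with hW
  have hfin : Module.finrank ℝ Wᗮ = d - 1 := finrank_line_orth ht0 hd
  set τ : ℝ := 1 / 16 * √d * (1 / 4) ^ j with hτ
  have hτ0 : 0 < τ := by positivity
  have hsub : {G : Code L (2 ^ q) d | t' + (shift G z - shift G z') ∈ ann d ∧
        ‖sg (t' + (shift G z - shift G z')) - sg t'‖ ≤ 2 * ε} ⊆
      {G | dst W (shift G z - shift G z') ≤ (1 / 4 : ℝ) ^ (l.val + 1) / √d * τ} := by
    intro G hG
    obtain ⟨h1, h2⟩ := hG
    have h3 := dst_le_two_dst_sg ht' h1 (⊥ : Submodule ℝ (Eu d))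
    have h4 := PB.dst_le_norm (⊥ : Submodule ℝ (Eu d)) (sg (t' + (shift G z - shift G z')) - sg t')
    have e0 : (1 / 4 : ℝ) ^ L = (1 / 4) ^ (l.val + 1) * (1 / 4) ^ j := by
      rw [← pow_add]
      exact congrArg (fun m => (1 / 4 : ℝ) ^ m) hLj
    have e : (1 / 4 : ℝ) ^ (l.val + 1) / √d * τ = 1 / 16 * (1 / 4) ^ L := by
      rw [e0, hτ]
      field_simp
    show dst W (shift G z - shift G z') ≤ _
    rw [e]
    linarith
  refine (measure_mono hsub).trans ?_
  have hpos : 0 < Module.finrank ℝ Wᗮ := by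
    rw [hfin]
    omega
  refine (one_path hd hz W hpos hτ0).trans ?_
  refine mul_le_mul' le_rfl ?_
  apply ENNReal.ofReal_le_ofReal
  rw [hfin]
  have hd1 : ((d - 1 : ℕ) : ℝ) = (d : ℝ) - 1 := by
    rw [Nat.cast_sub hd]
    simp
  have hx : 0 ≤ 1 / 8 * (1 / 4 : ℝ) ^ j := by positivity
  rw [← sq_rpow_half hx (d - 1)]
  apply Real.rpow_le_rpow (by positivity)
  · have h1 : τ ^ 2 = 1 / 256 * d * ((1 / 4 : ℝ) ^ j) ^ 2 := by
      rw [hτ, mul_pow, mul_pow, Real.sq_sqrt (by positivity)]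
      norm_num
    rw [h1, hd1, div_le_iff₀ (by linarith), mul_pow]
    have h2 : Real.exp 1 < 3 := lt_trans Real.exp_one_lt_d9 (by norm_num)
    have h3 : 0 < ((1 / 4 : ℝ) ^ j) ^ 2 := by positivity
    have h4 : Real.exp 1 * (d : ℝ) ≤ 4 * ((d : ℝ) - 1) := by nlinarith
    have h5 := mul_le_mul_of_nonneg_right h4 h3.le
    nlinarith
  · positivity

theorem num_le {q d j : ℕ} (hq : 1 ≤ q) (hqd : 4 * q ≤ d) :
    ((2 : ℝ) ^ q) ^ (j + 1) * (2 * (1 / 8 * (1 / 4) ^ j) ^ (d - 1)) ≤ (1 / 2) ^ (j + 1) := by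
  have e1 : (1 / 8 * (1 / 4 : ℝ) ^ j) = (1 / 2) ^ (3 + 2 * j) := by
    rw [pow_add, pow_mul]
    norm_num
  have e2 : ((2 : ℝ) ^ q) ^ (j + 1) * 2 = 2 ^ (q * (j + 1) + 1) := by
    rw [pow_succ (2:ℝ) (q * (j + 1)), pow_mul]
  have hexp : (q * (j + 1) + 1) + (j + 1) ≤ (3 + 2 * j) * (d - 1) := by
    have h1 : 3 * q ≤ d - 1 := by omega
    calc (q * (j + 1) + 1) + (j + 1) ≤ (3 + 2 * j) * (3 * q) := by nlinarith
      _ ≤ (3 + 2 * j) * (d - 1) := Nat.mul_le_mul_left _ h1
  rw [e1, ← mul_assoc, e2, ← pow_mul]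
  calc (2:ℝ) ^ (q * (j + 1) + 1) * (1 / 2) ^ ((3 + 2 * j) * (d - 1))
      ≤ (2:ℝ) ^ (q * (j + 1) + 1) * (1 / 2) ^ ((q * (j + 1) + 1) + (j + 1)) := by
        apply mul_le_mul_of_nonneg_left _ (by positivity)
        exact pow_le_pow_of_le_one (by norm_num) (by norm_num) hexp
    _ = (1 / 2) ^ (j + 1) := by
        rw [pow_add (1 / 2 : ℝ) (q * (j + 1) + 1) (j + 1), ← mul_assoc, ← mul_pow]
        norm_num

theorem sum_half (L : ℕ) : ∑ l ∈ Finset.range L, (1 / 2 : ℝ) ^ (L - l) ≤ 1 := by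
  have key : ∑ l ∈ Finset.range L, (1 / 2 : ℝ) ^ (L - l) = 1 - (1 / 2) ^ L := by
    induction L with
    | zero => simp
    | succ L ih =>
      rw [Finset.sum_range_succ']
      simp only [Nat.add_sub_add_right, Nat.sub_zero]
      rw [ih]
      ring
  rw [key]
  have : 0 < (1 / 2 : ℝ) ^ L := by positivity
  linarith

end PB

open Classical in
theorem count_bound {q d L : ℕ} (hq : 1 ≤ q) (hqd : 4 * q ≤ d) (z' : Path L (2 ^ q))
    {t' : Eu d} (ht' : t' ∈ ann d) {ε : ℝ} (hε : ε ≤ 1 / 64 * (1 / 4) ^ L) :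
    ∫⁻ G, ∑ z ∈ Finset.univ.erase z', (if t' + (shift G z - shift G z') ∈ ann d ∧
        ‖sg (t' + (shift G z - shift G z')) - sg t'‖ ≤ 2 * ε then 1 else 0)
        ∂(codeM L (2 ^ q) d) ≤ 1 := by
  set E : Path L (2 ^ q) → Set (Code L (2 ^ q) d) := fun z =>
    {G | t' + (shift G z - shift G z') ∈ ann d ∧
        ‖sg (t' + (shift G z - shift G z')) - sg t'‖ ≤ 2 * ε} with hE
  have hEm : ∀ z, MeasurableSet (E z) := by
    intro z
    have h1 : Measurable fun G : Code L (2 ^ q) d => t' + (shift G z - shift G z') :=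
      measurable_const.add (measurable_shift_diff z z').measurable
    apply MeasurableSet.inter
    · exact h1 (measurableSet_ann d)
    · exact measurableSet_le ((measurable_sg.comp h1).sub_const _).norm measurable_const
  have hint : ∀ z, ∫⁻ G, (if t' + (shift G z - shift G z') ∈ ann d ∧
        ‖sg (t' + (shift G z - shift G z')) - sg t'‖ ≤ 2 * ε then (1 : ℝ≥0∞) else 0)
        ∂(codeM L (2 ^ q) d) = codeM L (2 ^ q) d (E z) := by
    intro z
    rw [← lintegral_indicator_one (hEm z)]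
    apply lintegral_congr
    intro G
    by_cases h : t' + (shift G z - shift G z') ∈ ann d ∧
        ‖sg (t' + (shift G z - shift G z')) - sg t'‖ ≤ 2 * ε
    · rw [if_pos h]
      rw [Set.indicator_of_mem (show G ∈ E z from h)]
      rfl
    · rw [if_neg h, Set.indicator_of_notMem (show G ∉ E z from h)]
  rw [lintegral_finsetSum _ (fun z _ => Measurable.ite (hEm z) measurable_const measurable_const)]
  simp_rw [hint]
  -- group by levels
  have hB : ∀ z ∈ Finset.univ.erase z', codeM L (2 ^ q) d (E z) ≤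
      ∑ l : Fin L, (if z ∈ Lev z' l then
        2 * ENNReal.ofReal ((1 / 8 * (1 / 4) ^ (L - 1 - l.val)) ^ (d - 1)) else 0) := by
    intro z hz
    obtain ⟨l, hl⟩ := exists_lev (Finset.ne_of_mem_erase hz)
    refine le_trans ?_ (Finset.single_le_sum (fun _ _ => bot_le) (Finset.mem_univ l))
    rw [if_pos hl]
    exact PB.event_le hq hqd hl ht' hε
  refine (Finset.sum_le_sum hB).trans ?_
  refine (Finset.sum_le_sum_of_subset (Finset.erase_subset _ _)).trans ?_
  rw [Finset.sum_comm]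
  have hl : ∀ l : Fin L, ∑ z : Path L (2 ^ q), (if z ∈ Lev z' l then
        2 * ENNReal.ofReal ((1 / 8 * (1 / 4) ^ (L - 1 - l.val)) ^ (d - 1)) else 0) ≤
      ENNReal.ofReal ((1 / 2) ^ (L - l.val)) := by
    intro l
    rw [← Finset.sum_filter, Finset.sum_const, nsmul_eq_mul]
    have hlL := l.isLt
    have hLj : L - l.val = (L - 1 - l.val) + 1 := by omega
    have hc : ((Finset.univ.filter fun z => z ∈ Lev z' l).card : ℝ≥0∞) ≤
        ENNReal.ofReal (((2 : ℝ) ^ q) ^ (L - 1 - l.val + 1)) := by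
      have h1 : (Finset.univ.filter fun z => z ∈ Lev z' l) = Lev z' l := by
        ext z
        simp
      rw [h1]
      have h2 := card_Lev_le z' l
      rw [hLj] at h2
      have h3 : (((Lev z' l).card : ℕ) : ℝ≥0∞) ≤ (((2 ^ q) ^ (L - 1 - l.val + 1) : ℕ) : ℝ≥0∞) := by
        exact_mod_cast h2
      refine h3.trans (le_of_eq ?_)
      rw [← ENNReal.ofReal_natCast]
      push_cast
      rfl
    refine (mul_le_mul' hc le_rfl).trans ?_
    have h2 : (2 : ℝ≥0∞) = ENNReal.ofReal 2 := by norm_num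
    rw [h2, ← ENNReal.ofReal_mul (by norm_num), ← ENNReal.ofReal_mul (by positivity), hLj]
    exact ENNReal.ofReal_le_ofReal (PB.num_le hq hqd)
  refine (Finset.sum_le_sum fun l _ => hl l).trans ?_
  rw [← ENNReal.ofReal_sum_of_nonneg (fun _ _ => by positivity),
    Fin.sum_univ_eq_sum_range (fun l => (1 / 2 : ℝ) ^ (L - l)) L]
  rw [← ENNReal.ofReal_one]
  exact ENNReal.ofReal_le_ofReal (PB.sum_half L)

end P309
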