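import Vale.Agent.P309.Ent
import Vale.Agent.P309.ProbeBasic
import Vale.Agent.P309.ProbeGeom

/-!
# P309, module Ends : initial and final bounds for the potential
-/

namespace P309

open MeasureTheory ProbabilityTheory
open scoped ENNReal RealInnerProductSpace

namespace Ends

variable {L N d : ℕ}

lemma int_snd {b : Eu d → ℝ} (hb : Integrable b) :
    Integrable (fun p : Code L N d × Eu d => b p.2) ((codeM L N d).prod volume) ∧
      ∫ p : Code L N d × Eu d, b p.2 ∂((codeM L N d).prod volume) = ∫ t, b t := by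
  refine ⟨hb.comp_snd _, ?_⟩
  rw [integral_prod _ (hb.comp_snd _)]
  simp

lemma int_shift {b : Eu d → ℝ} (hbm : Measurable b) (hb : Integrable b) (z : Path L N) :
    Integrable (fun p : Code L N d × Eu d => b (p.2 + shift p.1 z))
      ((codeM L N d).prod volume) ∧
      ∫ p : Code L N d × Eu d, b (p.2 + shift p.1 z) ∂((codeM L N d).prod volume) =
        ∫ t, b t := by
  have h := shift_mp (L := L) (N := N) (d := d) z
  obtain ⟨h1, h2⟩ := int_snd (L := L) (N := N) hb
  constructor
  · exact (h.integrable_comp (g := fun p : Code L N d × Eu d => b p.2)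
      (hbm.comp measurable_snd).aestronglyMeasurable).mpr h1
  · rw [← h2]
    conv_rhs => rw [← h.map_eq]
    rw [integral_map (f := fun p : Code L N d × Eu d => b p.2) h.measurable.aemeasurable
      (hbm.comp measurable_snd).aestronglyMeasurable]

lemma measurable_shift_pt (z : Path L N) :
    Measurable (fun p : Code L N d × Eu d => p.2 + shift p.1 z) :=
  (shift_mp (L := L) (N := N) (d := d) z).measurable.snd

lemma measurable_ent {Z Ω : Type*} [Fintype Z] [MeasurableSpace Ω] {α : Ω → Z → ℝ}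
    (hα : ∀ z, Measurable fun ω => α ω z) : Measurable fun ω => ent (α ω) := by
  unfold ent
  refine Measurable.sub ?_ ?_
  · exact Finset.measurable_sum _ fun z _ => Real.continuous_negMulLog.measurable.comp (hα z)
  · exact Real.continuous_negMulLog.measurable.comp
      (Finset.measurable_sum _ fun z _ => hα z)

lemma ent_le_card {Z : Type*} [Fintype Z] {α : Z → ℝ} (hα : ∀ z, 0 ≤ α z) :
    ent α ≤ (∑ z, α z) * Real.log (Fintype.card Z) := by
  classical
  have h := ent_le hα
  have hA : 0 ≤ ∑ z, α z := Finset.sum_nonneg fun z _ => hα z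
  rcases (Finset.univ.filter fun z => α z ≠ 0).eq_empty_or_nonempty with he | hne
  · have h0 : ∑ z, α z = 0 := by
      refine Finset.sum_eq_zero fun z _ => ?_
      by_contra hz
      have : z ∈ Finset.univ.filter fun z => α z ≠ 0 := by simp [hz]
      rw [he] at this
      simp at this
    rw [h0] at h ⊢
    simpa using h
  · refine h.trans (mul_le_mul_of_nonneg_left ?_ hA)
    refine Real.log_le_log ?_ ?_
    · exact_mod_cast Finset.card_pos.mpr hne
    · exact_mod_cast (Finset.card_filter_le _ _).trans (le_of_eq Finset.card_univ)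

lemma card_path : (Fintype.card (Path L N) : ℝ) = (N : ℝ) ^ L := by
  simp [Path]

lemma log_card_path : Real.log (Fintype.card (Path L N)) = L * Real.log N := by
  rw [card_path, Real.log_pow]

/-- the entropy at a point of the product space. -/
noncomputable def eF (L N : ℕ) {d : ℕ} (b : Eu d → ℝ) (p : Code L N d × Eu d) : ℝ :=
  ent (fun z : Path L N => b (p.2 + shift p.1 z))

/-- the mass at a point of the product space. -/
noncomputable def sF (L N : ℕ) {d : ℕ} (b : Eu d → ℝ) (p : Code L N d × Eu d) : ℝ :=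
  ∑ z : Path L N, b (p.2 + shift p.1 z)

lemma Pot_eq (b : Eu d → ℝ) : Pot L N b =
    ((N : ℝ) ^ L)⁻¹ * ∫ p, eF L N b p ∂((codeM L N d).prod volume) := rfl

lemma int_sF {b : Eu d → ℝ} (hbm : Measurable b) (hb : Integrable b) :
    Integrable (sF L N b) ((codeM L N d).prod volume) :=
  integrable_finsetSum _ fun z _ => (int_shift hbm hb z).1

lemma integral_sF {b : Eu d → ℝ} (hbm : Measurable b) (hb : Integrable b) :
    ∫ p, sF L N b p ∂((codeM L N d).prod volume) = (N : ℝ) ^ L * ∫ t, b t := by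
  unfold sF
  rw [integral_finsetSum _ fun z _ => (int_shift hbm hb z).1]
  rw [Finset.sum_congr rfl fun z _ => (int_shift hbm hb z).2]
  rw [Finset.sum_const, Finset.card_univ, nsmul_eq_mul, card_path]

lemma eF_nonneg {b : Eu d → ℝ} (hb0 : ∀ t, 0 ≤ b t) (p : Code L N d × Eu d) :
    0 ≤ eF L N b p := ent_nonneg fun _ => hb0 _

lemma sF_nonneg {b : Eu d → ℝ} (hb0 : ∀ t, 0 ≤ b t) (p : Code L N d × Eu d) :
    0 ≤ sF L N b p := Finset.sum_nonneg fun _ _ => hb0 _

lemma eF_le {b : Eu d → ℝ} (hb0 : ∀ t, 0 ≤ b t) (p : Code L N d × Eu d) :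
    eF L N b p ≤ sF L N b p * (L * Real.log N) := by
  have := ent_le_card (α := fun z : Path L N => b (p.2 + shift p.1 z)) fun z => hb0 _
  rwa [log_card_path] at this

lemma measurable_eF {b : Eu d → ℝ} (hbm : Measurable b) : Measurable (eF L N b) :=
  measurable_ent fun z => hbm.comp (measurable_shift_pt z)

lemma measurable_sF {b : Eu d → ℝ} (hbm : Measurable b) : Measurable (sF L N b) :=
  Finset.measurable_sum _ fun z _ => hbm.comp (measurable_shift_pt z)

lemma int_eF {b : Eu d → ℝ} (hb0 : ∀ t, 0 ≤ b t) (hbm : Measurable b) (hb : Integrable b) :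
    Integrable (eF L N b) ((codeM L N d).prod volume) := by
  refine ((int_sF hbm hb).mul_const (L * Real.log N)).mono'
    (measurable_eF hbm).aestronglyMeasurable (Filter.Eventually.of_forall fun p => ?_)
  rw [Real.norm_of_nonneg (eF_nonneg hb0 p)]
  exact eF_le hb0 p

/-! ### properties of the potential -/

lemma Pot_add_le {a b : Eu d → ℝ} (ha0 : ∀ t, 0 ≤ a t) (ham : Measurable a) (ha : Integrable a)
    (hb0 : ∀ t, 0 ≤ b t) (hbm : Measurable b) (hb : Integrable b) (hN : 0 < N) :
    Pot L N (fun t => a t + b t) ≤ Pot L N a + Pot L N b +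
      Real.log 2 * ((∫ t, a t) + ∫ t, b t) := by
  have hN' : (0 : ℝ) < (N : ℝ) ^ L := by positivity
  rw [Pot_eq, Pot_eq, Pot_eq]
  have h1 := integral_sF (L := L) (N := N) ham ha
  have h2 := integral_sF (L := L) (N := N) hbm hb
  have i1 := int_sF (L := L) (N := N) ham ha
  have i2 := int_sF (L := L) (N := N) hbm hb
  have j1 := int_eF (L := L) (N := N) ha0 ham ha
  have j2 := int_eF (L := L) (N := N) hb0 hbm hb
  have j3 := int_eF (L := L) (N := N) (b := fun t => a t + b t)
    (fun t => add_nonneg (ha0 t) (hb0 t)) (ham.add hbm) (ha.add hb)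
  have hpt : ∀ p, eF L N (fun t => a t + b t) p ≤ (eF L N a p + eF L N b p) +
      (sF L N a p + sF L N b p) * Real.log 2 := by
    intro p
    have := ent_add_le (α := fun z : Path L N => a (p.2 + shift p.1 z))
      (β := fun z : Path L N => b (p.2 + shift p.1 z)) (fun z => ha0 _) fun z => hb0 _
    rwa [Finset.sum_add_distrib] at this
  have k1 : Integrable (fun p => eF L N a p + eF L N b p) ((codeM L N d).prod volume) := j1.add j2
  have k2 : Integrable (fun p => (sF L N a p + sF L N b p) * Real.log 2)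
      ((codeM L N d).prod volume) := (i1.add i2).mul_const _
  have h3 := integral_mono j3 (k1.add k2) hpt
  simp only [Pi.add_apply] at h3
  rw [integral_add k1 k2, integral_mul_const, integral_add i1 i2, integral_add j1 j2, h1, h2] at h3
  have h4 := mul_le_mul_of_nonneg_left h3 (inv_nonneg.mpr hN'.le)
  refine h4.trans (le_of_eq ?_)
  field_simp

lemma Pot_le_all {b : Eu d → ℝ} (hb0 : ∀ t, 0 ≤ b t) (hbm : Measurable b) (hb : Integrable b)
    (hN : 0 < N) : Pot L N b ≤ (∫ t, b t) * (L * Real.log N) := by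
  have hN' : (0 : ℝ) < (N : ℝ) ^ L := by positivity
  rw [Pot_eq]
  have h3 := integral_mono (int_eF (L := L) (N := N) hb0 hbm hb)
    ((int_sF hbm hb).mul_const (L * Real.log N)) (eF_le hb0)
  rw [integral_mul_const, integral_sF hbm hb] at h3
  have h4 := mul_le_mul_of_nonneg_left h3 (inv_nonneg.mpr hN'.le)
  refine h4.trans (le_of_eq ?_)
  field_simp

/-! ### the annulus -/

lemma ann_eq : ann d = Metric.closedBall (0 : Eu d) 2 \ Metric.ball 0 1 := by
  ext t
  simp only [ann, Set.mem_ofPred_eq, Set.mem_sdiff, mem_closedBall_zero_iff, mem_ball_zero_iff,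
    not_lt]
  exact and_comm

lemma measurableSet_ann : MeasurableSet (ann d) := by
  rw [ann_eq]
  exact measurableSet_closedBall.diff measurableSet_ball

lemma ann_lt_top : volume (ann d) < ∞ := by
  rw [ann_eq]
  exact (measure_mono Set.sdiff_subset).trans_lt measure_closedBall_lt_top

lemma volume_ann (hd : 1 ≤ d) : volume.real (ann d) = ((2 : ℝ) ^ d - 1) *
    volume.real (Metric.ball (0 : Eu d) 1) := by
  have hne : Nonempty (Fin d) := ⟨⟨0, hd⟩⟩
  rw [ann_eq, measureReal_sdiff (by
    intro x hx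
    rw [mem_ball_zero_iff] at hx
    rw [mem_closedBall_zero_iff]
    linarith) measurableSet_ball measure_closedBall_lt_top.ne]
  have h2 : volume.real (Metric.closedBall (0 : Eu d) 2) =
      2 ^ d * volume.real (Metric.ball (0 : Eu d) 1) := by
    have := Measure.addHaar_closedBall (volume : Measure (Eu d)) 0 (r := 2) (by norm_num)
    rw [measureReal_def, this, ENNReal.toReal_mul, ENNReal.toReal_ofReal (by positivity)]
    simp [measureReal_def, finrank_euclideanSpace]
  rw [h2]
  ring

lemma volume_ball_pos : 0 < volume.real (Metric.ball (0 : Eu d) 1) := by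
  rw [measureReal_def]
  exact ENNReal.toReal_pos (Metric.measure_ball_pos _ _ one_pos).ne' measure_ball_lt_top.ne

lemma volume_ann_pos (hd : 1 ≤ d) : 0 < volume.real (ann d) := by
  rw [volume_ann hd]
  have h1 : (1 : ℝ) < 2 ^ d := one_lt_pow₀ (by norm_num) (by omega)
  have := volume_ball_pos (d := d)
  have h2 : 0 < (2 : ℝ) ^ d - 1 := by linarith
  positivity

/-- `vol(ball 8/3)/vol(ann) ≤ e^d`. -/
lemma ratio_le (hd : 1 ≤ d) : volume.real (Metric.closedBall (0 : Eu d) (8 / 3)) ≤
    Real.exp d * volume.real (ann d) := by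
  have hne : Nonempty (Fin d) := ⟨⟨0, hd⟩⟩
  have h2 : volume.real (Metric.closedBall (0 : Eu d) (8 / 3)) =
      (8 / 3) ^ d * volume.real (Metric.ball (0 : Eu d) 1) := by
    have := Measure.addHaar_closedBall (volume : Measure (Eu d)) 0 (r := 8 / 3) (by norm_num)
    rw [measureReal_def, this, ENNReal.toReal_mul, ENNReal.toReal_ofReal (by positivity)]
    simp [measureReal_def, finrank_euclideanSpace]
  rw [h2, volume_ann hd, ← mul_assoc]
  refine mul_le_mul_of_nonneg_right ?_ volume_ball_pos.le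
  -- (8/3)^d ≤ e^d (2^d - 1)
  have h3 : (2 : ℝ) ^ d ≤ 2 * (2 ^ d - 1) := by
    have : (2 : ℝ) ≤ 2 ^ d := by
      calc (2 : ℝ) = 2 ^ 1 := (pow_one _).symm
        _ ≤ 2 ^ d := pow_le_pow_right₀ (by norm_num) hd
    linarith
  have he : (2.7182 : ℝ) < Real.exp 1 := by
    have := Real.exp_one_gt_d9
    linarith
  have h4 : (2 : ℝ) * (4 / 3) ^ d ≤ Real.exp d := by
    have e1 : Real.exp d = (Real.exp 1) ^ d := by
      rw [← Real.exp_nat_mul, mul_one]
    rw [e1]
    obtain ⟨m, rfl⟩ : ∃ m, d = m + 1 := ⟨d - 1, by omega⟩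
    have e2 : (4 / 3 : ℝ) ^ m ≤ (Real.exp 1) ^ m := by
      refine pow_le_pow_left₀ (by norm_num) (by linarith) m
    calc (2 : ℝ) * (4 / 3) ^ (m + 1) = (8 / 3) * (4 / 3) ^ m := by ring
      _ ≤ Real.exp 1 * (Real.exp 1) ^ m := by
        refine mul_le_mul (by linarith) e2 (by positivity) (Real.exp_pos 1).le
      _ = (Real.exp 1) ^ (m + 1) := by ring
  have h5 : (8 / 3 : ℝ) ^ d = (4 / 3) ^ d * 2 ^ d := by
    rw [← mul_pow]; norm_num
  rw [h5]
  calc (4 / 3 : ℝ) ^ d * 2 ^ d ≤ (4 / 3 : ℝ) ^ d * (2 * (2 ^ d - 1)) := by gcongr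
    _ = (2 * (4 / 3 : ℝ) ^ d) * (2 ^ d - 1) := by ring
    _ ≤ Real.exp d * (2 ^ d - 1) := by
      refine mul_le_mul_of_nonneg_right h4 ?_
      have : (1 : ℝ) ≤ 2 ^ d := one_le_pow₀ (by norm_num)
      linarith

/-- the uniform density of the annulus. -/
noncomputable def a0 (d : ℕ) (t : Eu d) : ℝ :=
  (ann d).indicator (fun _ => (volume.real (ann d))⁻¹) t

lemma a0_nonneg (t : Eu d) : 0 ≤ a0 d t := by
  unfold a0
  exact Set.indicator_nonneg (fun _ _ => by positivity) t

lemma measurable_a0 : Measurable (a0 d) := by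
  unfold a0
  exact measurable_const.indicator measurableSet_ann

lemma integrable_a0 : Integrable (a0 d) := by
  have : a0 d = (ann d).indicator (fun _ => (volume.real (ann d))⁻¹) := rfl
  rw [this]
  exact (integrableOn_const ann_lt_top.ne).integrable_indicator measurableSet_ann

lemma integral_a0 (hd : 1 ≤ d) : ∫ t, a0 d t = 1 := by
  have : a0 d = (ann d).indicator (fun _ => (volume.real (ann d))⁻¹) := rfl
  rw [this, integral_indicator measurableSet_ann, setIntegral_const, smul_eq_mul,
    mul_inv_cancel₀ (volume_ann_pos hd).ne']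

/-- entropy of a vector with values in `{0, w}`. -/
lemma ent_const {Z : Type*} [Fintype Z] [DecidableEq Z] {w : ℝ} (hw : 0 < w) (s : Finset Z)
    {α : Z → ℝ} (hα : ∀ z, α z = if z ∈ s then w else 0) :
    ent α = (s.card : ℝ) * w * Real.log s.card := by
  have h1 : ∑ z, α z = s.card * w := by
    simp_rw [hα]
    rw [Finset.sum_ite_mem, Finset.univ_inter, Finset.sum_const, nsmul_eq_mul]
  have h2 : ∑ z, Real.negMulLog (α z) = s.card * Real.negMulLog w := by
    have : ∀ z, Real.negMulLog (α z) = if z ∈ s then Real.negMulLog w else 0 := by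
      intro z
      rw [hα]
      split_ifs <;> simp
    simp_rw [this]
    rw [Finset.sum_ite_mem, Finset.univ_inter, Finset.sum_const, nsmul_eq_mul]
  unfold ent
  rw [h1, h2]
  rcases Nat.eq_zero_or_pos s.card with h0 | hpos
  · rw [h0]; simp
  · have hc : (0 : ℝ) < s.card := by exact_mod_cast hpos
    unfold Real.negMulLog
    rw [Real.log_mul hc.ne' hw.ne']
    ring

/-- tangent-line bound of the entropy of the annulus. -/
lemma eF_a0_ge (hd : 1 ≤ d) (hN : 0 < N) {lam : ℝ} (hl : 0 < lam) (p : Code L N d × Eu d) :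
    sF L N (a0 d) p * (L * Real.log N - Real.log lam + 1) -
      (volume.real (ann d))⁻¹ * ((N : ℝ) ^ L / lam) *
        (if 0 < sF L N (a0 d) p then 1 else 0) ≤ eF L N (a0 d) p := by
  classical
  set w := (volume.real (ann d))⁻¹ with hw
  have hw0 : 0 < w := inv_pos.mpr (volume_ann_pos hd)
  set s : Finset (Path L N) := Finset.univ.filter fun z => p.2 + shift p.1 z ∈ ann d with hs
  have hα : ∀ z : Path L N, a0 d (p.2 + shift p.1 z) = if z ∈ s then w else 0 := by
    intro z
    unfold a0
    by_cases hz : p.2 + shift p.1 z ∈ ann d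
    · rw [Set.indicator_of_mem hz, if_pos (by simp [hs, hz])]
    · rw [Set.indicator_of_notMem hz, if_neg (by simp [hs, hz])]
  have h1 : sF L N (a0 d) p = s.card * w := by
    unfold sF
    simp_rw [hα]
    rw [Finset.sum_ite_mem, Finset.univ_inter, Finset.sum_const, nsmul_eq_mul]
  have h2 : eF L N (a0 d) p = (s.card : ℝ) * w * Real.log s.card := ent_const hw0 s hα
  rw [h1, h2]
  rcases Nat.eq_zero_or_pos s.card with h0 | hpos
  · rw [h0]; simp
  · have hc : (0 : ℝ) < s.card := by exact_mod_cast hpos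
    have hNL : (0 : ℝ) < (N : ℝ) ^ L := by positivity
    rw [if_pos (by positivity)]
    have h3 := Real.log_le_sub_one_of_pos (x := (N : ℝ) ^ L / (s.card * lam)) (by positivity)
    rw [Real.log_div hNL.ne' (by positivity), Real.log_mul hc.ne' hl.ne', Real.log_pow] at h3
    have h4 : (s.card : ℝ) * w * ((N : ℝ) ^ L / (s.card * lam)) = w * ((N : ℝ) ^ L / lam) := by
      field_simp
    have h5 : 0 ≤ (s.card : ℝ) * w := by positivity
    have h6 := mul_le_mul_of_nonneg_left h3 h5
    nlinarith

lemma sF_a0_supp : ∀ᵐ p ∂((codeM L N d).prod (volume : Measure (Eu d))),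
    0 < sF L N (a0 d) p → p.2 ∈ Metric.closedBall (0 : Eu d) (8 / 3) := by
  have h : ∀ᵐ p ∂((codeM L N d).prod (volume : Measure (Eu d))), ∀ i, ‖p.1 i‖ ≤ 2 * √d :=
    Measure.quasiMeasurePreserving_fst.ae (code_ae L N d)
  filter_upwards [h] with p hp hpos
  have hex : ∃ z : Path L N, p.2 + shift p.1 z ∈ ann d := by
    by_contra hcon
    push Not at hcon
    have : sF L N (a0 d) p = 0 := by
      unfold sF a0
      exact Finset.sum_eq_zero fun z _ => Set.indicator_of_notMem (hcon z) _
    linarith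
  obtain ⟨z, hz⟩ := hex
  rw [mem_closedBall_zero_iff]
  have h1 := norm_shift_le hp z
  have h2 : ‖p.2‖ ≤ ‖p.2 + shift p.1 z‖ + ‖shift p.1 z‖ := by
    calc ‖p.2‖ = ‖(p.2 + shift p.1 z) - shift p.1 z‖ := by rw [add_sub_cancel_right]
      _ ≤ _ := norm_sub_le _ _
  have h3 : ‖p.2 + shift p.1 z‖ ≤ 2 := hz.2
  linarith

end Ends

open Ends

theorem init_bound {q d L : ℕ} (hq : 1 ≤ q) (hqd : 4 * q ≤ d) :
    L * (q * Real.log 2) - d ≤
      Pot L (2 ^ q) (fun t => (ann d).indicator (fun _ => (volume.real (ann d))⁻¹) t) := by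
  have hd : 1 ≤ d := by omega
  have hN : 0 < 2 ^ q := by positivity
  set N := 2 ^ q with hNdef
  have hlogN : Real.log (N : ℝ) = q * Real.log 2 := by
    rw [hNdef]
    push_cast
    rw [Real.log_pow]
  have hNL : (0 : ℝ) < (N : ℝ) ^ L := by positivity
  change _ ≤ Pot L N (a0 d)
  rw [Pot_eq]
  have hv := volume_ann_pos hd
  set lam : ℝ := Real.exp d with hlam
  have hl : 0 < lam := Real.exp_pos _
  have hm := measurable_sF (L := L) (N := N) (measurable_a0 (d := d))
  have hS : MeasurableSet {p : Code L N d × Eu d | 0 < sF L N (a0 d) p} :=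
    measurableSet_lt measurable_const hm
  have hB : ((codeM L N d).prod (volume : Measure (Eu d)))
      (Prod.snd ⁻¹' Metric.closedBall (0 : Eu d) (8 / 3)) =
      volume (Metric.closedBall (0 : Eu d) (8 / 3)) := by
    have : (Prod.snd ⁻¹' Metric.closedBall (0 : Eu d) (8 / 3) : Set (Code L N d × Eu d)) =
        Set.univ ×ˢ Metric.closedBall (0 : Eu d) (8 / 3) := by
      ext p; simp
    rw [this, Measure.prod_prod, measure_univ, one_mul]
  have hSle : ((codeM L N d).prod (volume : Measure (Eu d)))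
      {p : Code L N d × Eu d | 0 < sF L N (a0 d) p} ≤
      volume (Metric.closedBall (0 : Eu d) (8 / 3)) := by
    rw [← hB]
    exact measure_mono_ae (sF_a0_supp (L := L) (N := N) (d := d))
  have hStop : ((codeM L N d).prod (volume : Measure (Eu d)))
      {p : Code L N d × Eu d | 0 < sF L N (a0 d) p} ≠ ∞ :=
    (hSle.trans_lt measure_closedBall_lt_top).ne
  have hind : (fun p : Code L N d × Eu d => if 0 < sF L N (a0 d) p then (1 : ℝ) else 0) =
      {p : Code L N d × Eu d | 0 < sF L N (a0 d) p}.indicator (fun _ => 1) := by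
    ext p
    by_cases hp : 0 < sF L N (a0 d) p
    · rw [if_pos hp, Set.indicator_of_mem (by exact hp)]
    · rw [if_neg hp, Set.indicator_of_notMem (by exact hp)]
  have i1 := int_sF (L := L) (N := N) (measurable_a0 (d := d)) integrable_a0
  have i2 : Integrable (fun p : Code L N d × Eu d =>
      if 0 < sF L N (a0 d) p then (1 : ℝ) else 0) ((codeM L N d).prod volume) := by
    rw [hind]
    exact (integrableOn_const hStop).integrable_indicator hS
  have e2 : ∫ p : Code L N d × Eu d, (if 0 < sF L N (a0 d) p then (1 : ℝ) else 0)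
      ∂((codeM L N d).prod volume) ≤ volume.real (Metric.closedBall (0 : Eu d) (8 / 3)) := by
    rw [hind, integral_indicator hS, setIntegral_const, smul_eq_mul, mul_one]
    exact ENNReal.toReal_mono measure_closedBall_lt_top.ne hSle
  have hint := integral_mono ((i1.mul_const _).sub (i2.const_mul _))
    (int_eF (L := L) (N := N) a0_nonneg measurable_a0 integrable_a0)
    (eF_a0_ge (L := L) (N := N) hd hN hl)
  simp only [Pi.sub_apply] at hint
  rw [integral_sub (i1.mul_const _) (i2.const_mul _), integral_mul_const, integral_const_mul,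
    integral_sF measurable_a0 integrable_a0, integral_a0 hd, mul_one] at hint
  have h7 := mul_le_mul_of_nonneg_left hint (inv_nonneg.mpr hNL.le)
  refine le_trans ?_ h7
  have h8 : (volume.real (ann d))⁻¹ * ((N : ℝ) ^ L / lam) *
      ∫ p : Code L N d × Eu d, (if 0 < sF L N (a0 d) p then (1 : ℝ) else 0)
      ∂((codeM L N d).prod volume) ≤ (N : ℝ) ^ L := by
    calc _ ≤ (volume.real (ann d))⁻¹ * ((N : ℝ) ^ L / lam) *
          volume.real (Metric.closedBall (0 : Eu d) (8 / 3)) := by gcongr
      _ ≤ (volume.real (ann d))⁻¹ * ((N : ℝ) ^ L / lam) * (lam * volume.real (ann d)) := by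
          have := ratio_le hd
          gcongr
      _ = (N : ℝ) ^ L := by field_simp
  rw [hlogN, hlam, Real.log_exp]
  have h9 : L * (q * Real.log 2) - d = ((N : ℝ) ^ L)⁻¹ *
      ((N : ℝ) ^ L * (L * (q * Real.log 2) - d + 1) - (N : ℝ) ^ L) := by
    field_simp
    ring
  refine h9.le.trans (mul_le_mul_of_nonneg_left ?_ (inv_nonneg.mpr hNL.le))
  linarith

/-! ### the final bound -/

namespace Ends

variable {L N d : ℕ}

lemma integrable_mul_of_le_one {b f : Eu d → ℝ} (hb : Integrable b) (hb0 : ∀ t, 0 ≤ b t)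
    (hf : Measurable f) (hf0 : ∀ t, 0 ≤ f t) (hf1 : ∀ t, f t ≤ 1) :
    Integrable fun t => b t * f t := by
  refine hb.mono' (hb.aestronglyMeasurable.mul hf.aestronglyMeasurable)
    (Filter.Eventually.of_forall fun t => ?_)
  rw [Real.norm_of_nonneg (mul_nonneg (hb0 t) (hf0 t))]
  exact mul_le_of_le_one_right (hb0 t) (hf1 t)

open Classical in
/-- the counting function: paths whose signal is `2ε`-close to the signal of `z'`. -/
noncomputable def cnt (L N : ℕ) {d : ℕ} (ε : ℝ) (z' : Path L N) (G : Code L N d) (t' : Eu d) :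
    ℝ≥0∞ :=
  ∑ z ∈ Finset.univ.erase z', (if t' + (shift G z - shift G z') ∈ ann d ∧
        ‖sg (t' + (shift G z - shift G z')) - sg t'‖ ≤ 2 * ε then 1 else 0)

lemma measurable_sg : Measurable (sg : Eu d → Eu d) := by
  unfold sg; fun_prop

lemma measurable_shift (z : Path L N) : Measurable fun G : Code L N d => shift G z := by
  unfold shift
  refine Finset.measurable_sum _ fun l _ => ?_
  exact (measurable_pi_apply (l, z l)).const_smul ((1 / 4 : ℝ) ^ (l.val + 1) / √d)

lemma measurable_cnt (ε : ℝ) (z' : Path L N) :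
    Measurable fun p : Code L N d × Eu d => cnt L N ε z' p.1 p.2 := by
  unfold cnt
  refine Finset.measurable_sum _ fun z _ => ?_
  have h1 : Measurable fun p : Code L N d × Eu d => p.2 + (shift p.1 z - shift p.1 z') :=
    measurable_snd.add (((measurable_shift z).comp measurable_fst).sub
      ((measurable_shift z').comp measurable_fst))
  refine Measurable.ite ?_ measurable_const measurable_const
  refine MeasurableSet.inter ?_ ?_
  · exact h1 measurableSet_ann
  · exact measurableSet_le (((measurable_sg.comp h1).sub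
      (measurable_sg.comp measurable_snd)).norm) measurable_const

/-- the entropy of the good part. -/
lemma ent_good {ε : ℝ} {b : Eu d → ℝ} (hb0 : ∀ t, 0 ≤ b t) {o : Eu d}
    (hb : ∀ t, b t ≠ 0 → t ∈ ann d ∧ ‖o - sg t‖ ≤ ε) (p : Code L N d × Eu d) :
    ENNReal.ofReal (eF L N b p) ≤
      ∑ z : Path L N, ENNReal.ofReal (b (p.2 + shift p.1 z)) *
        cnt L N ε z p.1 (p.2 + shift p.1 z) := by
  classical
  set α : Path L N → ℝ := fun z => b (p.2 + shift p.1 z) with hα
  set s : Finset (Path L N) := Finset.univ.filter fun z => α z ≠ 0 with hs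
  have h1 : eF L N b p ≤ (∑ z, α z) * Real.log s.card := by
    exact ent_le (α := α) fun z => hb0 _
  have h2 : (∑ z, α z) * Real.log s.card ≤ ∑ z, α z * ((s.erase z).card : ℝ) := by
    rw [Finset.sum_mul]
    refine Finset.sum_le_sum fun z _ => ?_
    by_cases hz : α z = 0
    · rw [hz]; simp
    · have hzs : z ∈ s := by simp [hs, hz]
      have h3 : ((s.erase z).card : ℝ) = s.card - 1 := by
        rw [Finset.card_erase_of_mem hzs, Nat.cast_sub (Finset.card_pos.mpr ⟨z, hzs⟩)]
        simp
      rw [h3]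
      have hc : (0 : ℝ) < s.card := by exact_mod_cast Finset.card_pos.mpr ⟨z, hzs⟩
      exact mul_le_mul_of_nonneg_left (Real.log_le_sub_one_of_pos hc) (hb0 _)
  refine (ENNReal.ofReal_le_ofReal (h1.trans h2)).trans ?_
  rw [ENNReal.ofReal_sum_of_nonneg fun z _ => mul_nonneg (hb0 _) (Nat.cast_nonneg _)]
  refine Finset.sum_le_sum fun z _ => ?_
  rw [ENNReal.ofReal_mul (hb0 _)]
  by_cases hz : α z = 0
  · have : b (p.2 + shift p.1 z) = 0 := hz
    rw [this]; simp
  refine mul_le_mul_right ?_ _
  rw [ENNReal.ofReal_natCast]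
  unfold cnt
  have h4 : ∀ z2 : Path L N, p.2 + shift p.1 z + (shift p.1 z2 - shift p.1 z) =
      p.2 + shift p.1 z2 := fun z2 => by abel
  simp_rw [h4]
  rw [Finset.card_eq_sum_ones]
  push_cast
  rw [← Finset.sum_filter]
  refine Finset.sum_le_sum_of_subset ?_
  intro z2 hz2
  rw [Finset.mem_erase] at hz2
  have hz2' : α z2 ≠ 0 := by simpa [hs] using hz2.2
  rw [Finset.mem_filter, Finset.mem_erase]
  obtain ⟨a1, a2⟩ := hb _ hz2'
  obtain ⟨a3, a4⟩ := hb _ hz
  refine ⟨⟨hz2.1, Finset.mem_univ _⟩, a1, ?_⟩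
  calc ‖sg (p.2 + shift p.1 z2) - sg (p.2 + shift p.1 z)‖
      = ‖(o - sg (p.2 + shift p.1 z)) - (o - sg (p.2 + shift p.1 z2))‖ := by
        congr 1; abel
    _ ≤ ‖o - sg (p.2 + shift p.1 z)‖ + ‖o - sg (p.2 + shift p.1 z2)‖ := norm_sub_le _ _
    _ ≤ 2 * ε := by linarith

lemma measurable_cnt_left (ε : ℝ) (z' : Path L N) (t : Eu d) :
    Measurable fun G : Code L N d => cnt L N ε z' G t := by
  unfold cnt
  refine Finset.measurable_sum _ fun z _ => ?_
  have h1 : Measurable fun G : Code L N d => t + (shift G z - shift G z') :=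
    measurable_const.add ((measurable_shift z).sub (measurable_shift z'))
  refine Measurable.ite ?_ measurable_const measurable_const
  refine MeasurableSet.inter ?_ ?_
  · exact h1 measurableSet_ann
  · exact measurableSet_le (((measurable_sg.comp h1).sub measurable_const).norm)
      measurable_const

lemma cnt_le_one {q L : ℕ} (hq : 1 ≤ q) (hqd : 4 * q ≤ d) {ε : ℝ}
    (hε : ε ≤ 1 / 64 * (1 / 4) ^ L) (z : Path L (2 ^ q)) (t : Eu d) :
    ∫⁻ G, ENNReal.ofReal (a0 d t) * cnt L (2 ^ q) ε z G t ∂(codeM L (2 ^ q) d) ≤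
      ENNReal.ofReal (a0 d t) := by
  rw [lintegral_const_mul _ (measurable_cnt_left ε z t)]
  by_cases ht : t ∈ ann d
  · have h2 : ∫⁻ G, cnt L (2 ^ q) ε z G t ∂(codeM L (2 ^ q) d) ≤ 1 := by
      unfold cnt
      exact count_bound (L := L) hq hqd z ht hε
    calc ENNReal.ofReal (a0 d t) * ∫⁻ G, cnt L (2 ^ q) ε z G t ∂(codeM L (2 ^ q) d)
        ≤ ENNReal.ofReal (a0 d t) * 1 := mul_le_mul_right h2 _
      _ = _ := mul_one _
  · have : a0 d t = 0 := Set.indicator_of_notMem ht _
    rw [this]; simp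

lemma cnt_total_le {q L : ℕ} (hq : 1 ≤ q) (hqd : 4 * q ≤ d) {ε : ℝ}
    (hε : ε ≤ 1 / 64 * (1 / 4) ^ L) (z : Path L (2 ^ q)) :
    ∫⁻ p : Code L (2 ^ q) d × Eu d, ENNReal.ofReal (a0 d p.2) * cnt L (2 ^ q) ε z p.1 p.2
      ∂((codeM L (2 ^ q) d).prod volume) ≤ 1 := by
  have hd : 1 ≤ d := by omega
  rw [lintegral_prod_symm (fun p : Code L (2 ^ q) d × Eu d =>
    ENNReal.ofReal (a0 d p.2) * cnt L (2 ^ q) ε z p.1 p.2)
    (((measurable_a0.comp measurable_snd).ennreal_ofReal.mul
    (measurable_cnt ε z))).aemeasurable]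
  refine (lintegral_mono (cnt_le_one hq hqd hε z)).trans ?_
  rw [← ofReal_integral_eq_lintegral_ofReal integrable_a0
    (Filter.Eventually.of_forall a0_nonneg), integral_a0 hd]
  simp

/-- total entropy of the good parts. -/
lemma good_total {q d L : ℕ} (hq : 1 ≤ q) (hqd : 4 * q ≤ d) {U : Type*} [Fintype U]
    {b : U → Eu d → ℝ} (hb0 : ∀ u t, 0 ≤ b u t) (hbm : ∀ u, Measurable (b u))
    (hbi : ∀ u, Integrable (b u)) (hsum : ∀ t, ∑ u, b u t ≤ a0 d t) (out : U → Eu d) {ε : ℝ}
    (hε : ε ≤ 1 / 64 * (1 / 4) ^ L)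
    (hb : ∀ u t, b u t ≠ 0 → t ∈ ann d ∧ ‖out u - sg t‖ ≤ ε) :
    ∑ u, Pot L (2 ^ q) (b u) ≤ 1 := by
  have hd : 1 ≤ d := by omega
  set N := 2 ^ q with hN
  have hNL : (0 : ℝ) < ((N : ℕ) : ℝ) ^ L := by positivity
  have key : ENNReal.ofReal (∑ u, ∫ p, eF L N (b u) p ∂((codeM L N d).prod volume)) ≤
      ENNReal.ofReal (((N : ℕ) : ℝ) ^ L) := by
    rw [ENNReal.ofReal_sum_of_nonneg fun u _ => integral_nonneg fun p => eF_nonneg (hb0 u) p]
    calc ∑ u, ENNReal.ofReal (∫ p, eF L N (b u) p ∂((codeM L N d).prod volume))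
        = ∑ u, ∫⁻ p, ENNReal.ofReal (eF L N (b u) p) ∂((codeM L N d).prod volume) := by
          refine Finset.sum_congr rfl fun u _ => ?_
          exact ofReal_integral_eq_lintegral_ofReal (int_eF (hb0 u) (hbm u) (hbi u))
            (Filter.Eventually.of_forall fun p => eF_nonneg (hb0 u) p)
      _ ≤ ∑ u, ∫⁻ p : Code L N d × Eu d, (∑ z : Path L N, ENNReal.ofReal
            (b u (p.2 + shift p.1 z)) * cnt L N ε z p.1 (p.2 + shift p.1 z))
            ∂((codeM L N d).prod volume) :=
          Finset.sum_le_sum fun u _ => lintegral_mono fun p => ent_good (hb0 u) (hb u) p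
      _ = ∑ u, ∑ z : Path L N, ∫⁻ p : Code L N d × Eu d, ENNReal.ofReal
            (b u (p.2 + shift p.1 z)) * cnt L N ε z p.1 (p.2 + shift p.1 z)
            ∂((codeM L N d).prod volume) := by
          refine Finset.sum_congr rfl fun u _ => ?_
          rw [lintegral_finsetSum']
          intro z _
          have h1 := (shift_mp (L := L) (N := N) (d := d) z).measurable
          exact ((((hbm u).comp measurable_snd).ennreal_ofReal.mul
            (measurable_cnt ε z)).comp h1).aemeasurable
      _ = ∑ u, ∑ z : Path L N, ∫⁻ p : Code L N d × Eu d, ENNReal.ofReal (b u p.2) *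
            cnt L N ε z p.1 p.2 ∂((codeM L N d).prod volume) := by
          refine Finset.sum_congr rfl fun u _ => Finset.sum_congr rfl fun z _ => ?_
          have h1 := shift_mp (L := L) (N := N) (d := d) z
          conv_rhs => rw [← h1.map_eq]
          exact (lintegral_map (f := fun p : Code L N d × Eu d =>
            ENNReal.ofReal (b u p.2) * cnt L N ε z p.1 p.2)
            (((hbm u).comp measurable_snd).ennreal_ofReal.mul
            (measurable_cnt ε z)) h1.measurable).symm
      _ = ∑ z : Path L N, ∫⁻ p : Code L N d × Eu d, (∑ u, ENNReal.ofReal (b u p.2)) *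
            cnt L N ε z p.1 p.2 ∂((codeM L N d).prod volume) := by
          rw [Finset.sum_comm]
          refine Finset.sum_congr rfl fun z _ => ?_
          rw [← lintegral_finsetSum']
          · simp_rw [Finset.sum_mul]
          · intro u _
            exact ((((hbm u).comp measurable_snd).ennreal_ofReal.mul
              (measurable_cnt ε z))).aemeasurable
      _ ≤ ∑ z : Path L N, ∫⁻ p : Code L N d × Eu d, ENNReal.ofReal (a0 d p.2) *
            cnt L N ε z p.1 p.2 ∂((codeM L N d).prod volume) := by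
          refine Finset.sum_le_sum fun z _ => lintegral_mono fun p => ?_
          rw [← ENNReal.ofReal_sum_of_nonneg fun u _ => hb0 u p.2]
          gcongr
          exact hsum _
      _ ≤ ∑ _z : Path L N, 1 := by
          exact Finset.sum_le_sum fun z _ => cnt_total_le hq hqd hε z
      _ = ENNReal.ofReal (((N : ℕ) : ℝ) ^ L) := by
          rw [Finset.sum_const, Finset.card_univ, nsmul_eq_mul, mul_one, ← card_path,
            ENNReal.ofReal_natCast]
  have key2 := (ENNReal.ofReal_le_ofReal_iff hNL.le).mp key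
  have : ∑ u, Pot L N (b u) = (((N : ℕ) : ℝ) ^ L)⁻¹ *
      ∑ u, ∫ p, eF L N (b u) p ∂((codeM L N d).prod volume) := by
    rw [Finset.mul_sum]
    rfl
  rw [this]
  calc _ ≤ (((N : ℕ) : ℝ) ^ L)⁻¹ * ((N : ℕ) : ℝ) ^ L := by gcongr
    _ = 1 := inv_mul_cancel₀ hNL.ne'

end Ends

open Classical in
theorem final_bound {q d L : ℕ} (hq : 1 ≤ q) (hqd : 4 * q ≤ d) {U : Type*} [Fintype U]
    {g : U → Eu d → ℝ} (hg0 : ∀ u t, 0 ≤ g u t) (hgm : ∀ u, Measurable (g u))
    (hg1 : ∀ t, ∑ u, g u t = 1) (out : U → Eu d) {ε : ℝ} (hε : ε ≤ 1 / 64 * (1 / 4) ^ L)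
    (hsucc : 2 / 3 * volume.real (ann d) ≤
      ∑ u, ∫ t in ann d, g u t * (if ‖out u - sg t‖ ≤ ε then 1 else 0)) :
    ∑ u, Pot L (2 ^ q) (fun t => (ann d).indicator (fun _ => (volume.real (ann d))⁻¹) t * g u t) ≤
      2 + 1 / 3 * (L * (q * Real.log 2)) := by
  have hd : 1 ≤ d := by omega
  have hv := volume_ann_pos hd
  have hN : 0 < 2 ^ q := by positivity
  set N := 2 ^ q with hNdef
  have hlogN : Real.log (N : ℝ) = q * Real.log 2 := by
    rw [hNdef]
    push_cast
    rw [Real.log_pow]
  have hg_le : ∀ u t, g u t ≤ 1 := fun u t => by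
    rw [← hg1 t]
    exact Finset.single_le_sum (f := fun u => g u t) (fun u _ => hg0 u t) (Finset.mem_univ u)
  -- the success indicator
  let f : U → Eu d → ℝ := fun u t => if ‖out u - sg t‖ ≤ ε then 1 else 0
  have hfm : ∀ u, Measurable (f u) := fun u =>
    Measurable.ite (measurableSet_le ((measurable_const.sub measurable_sg).norm)
      measurable_const) measurable_const measurable_const
  have hf0 : ∀ u t, 0 ≤ f u t := fun u t => by
    show 0 ≤ (if ‖out u - sg t‖ ≤ ε then (1 : ℝ) else 0)
    split_ifs <;> norm_num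
  have hf1 : ∀ u t, f u t ≤ 1 := fun u t => by
    show (if ‖out u - sg t‖ ≤ ε then (1 : ℝ) else 0) ≤ 1
    split_ifs <;> norm_num
  -- good and bad parts
  let G : U → Eu d → ℝ := fun u t => a0 d t * (g u t * f u t)
  let B : U → Eu d → ℝ := fun u t => a0 d t * (g u t * (1 - f u t))
  have hGm : ∀ u, Measurable (G u) := fun u => measurable_a0.mul ((hgm u).mul (hfm u))
  have hBm : ∀ u, Measurable (B u) := fun u =>
    measurable_a0.mul ((hgm u).mul (measurable_const.sub (hfm u)))
  have hG0 : ∀ u t, 0 ≤ G u t := fun u t => mul_nonneg (a0_nonneg t)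
    (mul_nonneg (hg0 u t) (hf0 u t))
  have hB0 : ∀ u t, 0 ≤ B u t := fun u t => mul_nonneg (a0_nonneg t)
    (mul_nonneg (hg0 u t) (sub_nonneg.mpr (hf1 u t)))
  have hGi : ∀ u, Integrable (G u) := fun u =>
    integrable_mul_of_le_one integrable_a0 a0_nonneg ((hgm u).mul (hfm u))
      (fun t => mul_nonneg (hg0 u t) (hf0 u t))
      (fun t => mul_le_one₀ (hg_le u t) (hf0 u t) (hf1 u t))
  have hBi : ∀ u, Integrable (B u) := fun u =>
    integrable_mul_of_le_one integrable_a0 a0_nonneg
      ((hgm u).mul (measurable_const.sub (hfm u)))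
      (fun t => mul_nonneg (hg0 u t) (sub_nonneg.mpr (hf1 u t)))
      (fun t => mul_le_one₀ (hg_le u t) (sub_nonneg.mpr (hf1 u t)) (by
        have := hf0 u t
        show 1 - f u t ≤ 1
        linarith))
  have hsplit : ∀ u, (fun t => (ann d).indicator (fun _ => (volume.real (ann d))⁻¹) t * g u t) =
      fun t => G u t + B u t := by
    intro u
    ext t
    show a0 d t * g u t = a0 d t * (g u t * f u t) + a0 d t * (g u t * (1 - f u t))
    ring
  have h1 : ∀ u, Pot L N (fun t => (ann d).indicator (fun _ => (volume.real (ann d))⁻¹) t *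
      g u t) ≤ Pot L N (G u) + Pot L N (B u) + Real.log 2 * ((∫ t, G u t) + ∫ t, B u t) := by
    intro u
    rw [hsplit u]
    exact Pot_add_le (hG0 u) (hGm u) (hGi u) (hB0 u) (hBm u) (hBi u) hN
  -- totals
  have htot : ∑ u, ((∫ t, G u t) + ∫ t, B u t) = 1 := by
    have e1 : ∀ u, (∫ t, G u t) + ∫ t, B u t = ∫ t, (G u t + B u t) := fun u =>
      (integral_add (hGi u) (hBi u)).symm
    simp_rw [e1]
    rw [← integral_finsetSum (f := fun u t => G u t + B u t) _ fun u _ => (hGi u).add (hBi u),
      ← integral_a0 hd]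
    refine integral_congr_ae (Filter.Eventually.of_forall fun t => ?_)
    show ∑ u, (a0 d t * (g u t * f u t) + a0 d t * (g u t * (1 - f u t))) = a0 d t
    have : ∀ u, a0 d t * (g u t * f u t) + a0 d t * (g u t * (1 - f u t)) = a0 d t * g u t :=
      fun u => by ring
    simp_rw [this]
    rw [← Finset.mul_sum, hg1, mul_one]
  have hgood : 2 / 3 ≤ ∑ u, ∫ t, G u t := by
    have e1 : ∀ u, ∫ t, G u t = (volume.real (ann d))⁻¹ *
        ∫ t in ann d, g u t * (if ‖out u - sg t‖ ≤ ε then 1 else 0) := by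
      intro u
      rw [← integral_indicator (P309.measurableSet_ann d), ← integral_const_mul]
      refine integral_congr_ae (Filter.Eventually.of_forall fun t => ?_)
      show a0 d t * (g u t * f u t) = _
      unfold a0
      by_cases ht : t ∈ ann d
      · simp only [Set.indicator_of_mem ht]
        rfl
      · simp only [Set.indicator_of_notMem ht]
        ring
    simp_rw [e1]
    rw [← Finset.mul_sum]
    calc (2 / 3 : ℝ) = (volume.real (ann d))⁻¹ * (2 / 3 * volume.real (ann d)) := by
          field_simp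
      _ ≤ _ := by gcongr
  have hbad : ∑ u, ∫ t, B u t ≤ 1 / 3 := by
    rw [Finset.sum_add_distrib] at htot
    linarith
  have hPB : ∑ u, Pot L N (B u) ≤ 1 / 3 * (L * (q * Real.log 2)) := by
    calc ∑ u, Pot L N (B u) ≤ ∑ u, (∫ t, B u t) * (L * Real.log N) :=
          Finset.sum_le_sum fun u _ => Pot_le_all (hB0 u) (hBm u) (hBi u) hN
      _ = (∑ u, ∫ t, B u t) * (L * (q * Real.log 2)) := by rw [Finset.sum_mul, hlogN]
      _ ≤ _ := by
          have : 0 ≤ Real.log 2 := Real.log_nonneg (by norm_num)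
          gcongr
  have hPG : ∑ u, Pot L N (G u) ≤ 1 := by
    refine good_total hq hqd hG0 hGm hGi (fun t => ?_) out hε fun u t hut => ?_
    · show ∑ u, a0 d t * (g u t * f u t) ≤ a0 d t
      rw [← Finset.mul_sum]
      refine mul_le_of_le_one_right (a0_nonneg t) ?_
      rw [← hg1 t]
      exact Finset.sum_le_sum fun u _ => mul_le_of_le_one_right (hg0 u t) (hf1 u t)
    · have h2 : a0 d t ≠ 0 := fun h => hut (by show a0 d t * _ = 0; rw [h, zero_mul])
      have h3 : f u t ≠ 0 := fun h => hut (by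
        show a0 d t * (g u t * f u t) = 0
        rw [h, mul_zero, mul_zero])
      constructor
      · by_contra hcon
        exact h2 (Set.indicator_of_notMem hcon _)
      · by_contra hcon
        exact h3 (if_neg hcon)
  have hlog2 : Real.log 2 ≤ 1 := by
    have := Real.log_two_lt_d9
    linarith
  calc _ ≤ ∑ u, (Pot L N (G u) + Pot L N (B u) + Real.log 2 * ((∫ t, G u t) + ∫ t, B u t)) :=
        Finset.sum_le_sum fun u _ => h1 u
    _ = ∑ u, Pot L N (G u) + ∑ u, Pot L N (B u) +
          Real.log 2 * ∑ u, ((∫ t, G u t) + ∫ t, B u t) := by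
        rw [Finset.sum_add_distrib, Finset.sum_add_distrib, Finset.mul_sum]
    _ ≤ 1 + 1 / 3 * (L * (q * Real.log 2)) + 1 * 1 := by
        rw [htot]
        gcongr
    _ = _ := by ring

end P309
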