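import Vale.Agent.P309.Gauss

/-!
# P309 : the key inequality
-/

namespace P309

open MeasureTheory ProbabilityTheory
open scoped ENNReal RealInnerProductSpace

namespace KeyAux

/-! ### the Gaussian density of label vectors -/

theorem pdf_inv (x : ℝ) :
    (gaussianPDF 0 1 x)⁻¹ = ENNReal.ofReal (√(2 * Real.pi) * Real.exp (x ^ 2 / 2)) := by
  have hpos : 0 < gaussianPDFReal 0 1 x := gaussianPDFReal_pos 0 1 x one_ne_zero
  rw [gaussianPDF, ← ENNReal.ofReal_inv_of_pos hpos]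
  congr 1
  rw [gaussianPDFReal, mul_inv, inv_inv, ← Real.exp_neg]
  simp only [NNReal.coe_one, mul_one, sub_zero]
  congr 2
  ring

theorem volume_eq_glab (n : ℕ) :
    (volume : Measure (Fin n → ℝ)) =
      (glab n).withDensity (fun y => ∏ i, (gaussianPDF 0 1 (y i))⁻¹) := by
  have hm : Measurable (fun x : ℝ => (gaussianPDF 0 1 x)⁻¹) := (measurable_gaussianPDF 0 1).inv
  rw [volume_pi]
  refine Measure.pi_eq fun s hs => ?_
  rw [withDensity_apply _ (MeasurableSet.univ_pi hs),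
    ← lintegral_indicator (MeasurableSet.univ_pi hs)]
  have h1 : ∀ y : Fin n → ℝ, (Set.univ.pi s).indicator
      (fun y => ∏ i, (gaussianPDF 0 1 (y i))⁻¹) y =
      ∏ i, (s i).indicator (fun x => (gaussianPDF 0 1 x)⁻¹) (y i) := by
    intro y
    by_cases hy : y ∈ Set.univ.pi s
    · rw [Set.indicator_of_mem hy]
      refine Finset.prod_congr rfl fun i _ => ?_
      rw [Set.indicator_of_mem (hy i (Set.mem_univ i))]
    · rw [Set.indicator_of_notMem hy]
      have : ∃ i, y i ∉ s i := by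
        by_contra hcon
        push Not at hcon
        exact hy fun i _ => hcon i
      obtain ⟨i, hi⟩ := this
      exact (Finset.prod_eq_zero (Finset.mem_univ i) (Set.indicator_of_notMem hi _)).symm
  simp_rw [h1]
  have hind : iIndepFun (fun i (y : Fin n → ℝ) =>
      (s i).indicator (fun x => (gaussianPDF 0 1 x)⁻¹) (y i)) (glab n) :=
    iIndepFun_pi (X := fun i => (s i).indicator (fun x => (gaussianPDF 0 1 x)⁻¹))
      (fun i => (hm.indicator (hs i)).aemeasurable)
  rw [lintegral_prod_eq_prod_lintegral_of_indepFun Finset.univ _ hind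
    (fun i => (hm.indicator (hs i)).comp (measurable_pi_apply i))]
  refine Finset.prod_congr rfl fun i _ => ?_
  have h2 : ∫⁻ y : Fin n → ℝ, (s i).indicator (fun x => (gaussianPDF 0 1 x)⁻¹) (y i) ∂(glab n) =
      ∫⁻ x, (s i).indicator (fun x => (gaussianPDF 0 1 x)⁻¹) x ∂(gaussianReal 0 1) :=
    (measurePreserving_eval (fun _ : Fin n => gaussianReal 0 1) i).lintegral_comp
      (hm.indicator (hs i))
  rw [h2, lintegral_indicator (hs i), ← withDensity_apply _ (hs i),
    gaussianReal_of_var_ne_zero 0 one_ne_zero]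
  have h3 := withDensity_inv_same (μ := (volume : Measure ℝ)) (measurable_gaussianPDF 0 1)
    (Filter.Eventually.of_forall fun x => (gaussianPDF_pos 0 one_ne_zero x).ne')
    (Filter.Eventually.of_forall fun x => gaussianPDF_ne_top)
  rw [h3]

/-- comparison of the two reference measures on a bounded set -/
theorem vol_le (n : ℕ) {V : Type*} [MeasurableSpace V] (μ : Measure (Fin n → V)) [SFinite μ]
    {T : Set ((Fin n → V) × (Fin n → ℝ))} (hT : MeasurableSet T) {r : ℝ}
    (hr : ∀ p ∈ T, ∑ i, p.2 i ^ 2 ≤ r) :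
    (μ.prod volume) T ≤
      ENNReal.ofReal (√(2 * Real.pi) ^ n * Real.exp (r / 2)) * (μ.prod (glab n)) T := by
  have : SFinite (glab n) := by unfold glab; infer_instance
  rw [Measure.prod_apply hT, Measure.prod_apply hT, ← lintegral_const_mul']
  · refine lintegral_mono fun X => ?_
    have hTX : MeasurableSet (Prod.mk X ⁻¹' T) := measurable_prodMk_left hT
    calc (volume : Measure (Fin n → ℝ)) (Prod.mk X ⁻¹' T)
        = ∫⁻ y in Prod.mk X ⁻¹' T, ∏ i, (gaussianPDF 0 1 (y i))⁻¹ ∂(glab n) := by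
          conv_lhs => rw [volume_eq_glab n]
          rw [withDensity_apply _ hTX]
      _ ≤ ∫⁻ y in Prod.mk X ⁻¹' T,
            ENNReal.ofReal (√(2 * Real.pi) ^ n * Real.exp (r / 2)) ∂(glab n) := by
          refine setLIntegral_mono' hTX fun y hy => ?_
          simp_rw [pdf_inv]
          rw [← ENNReal.ofReal_prod_of_nonneg (fun i _ => by positivity)]
          refine ENNReal.ofReal_le_ofReal ?_
          rw [Finset.prod_mul_distrib, ← Real.exp_sum]
          simp only [Finset.prod_const, Finset.card_univ, Fintype.card_fin]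
          refine mul_le_mul_of_nonneg_left (Real.exp_le_exp.2 ?_) (by positivity)
          rw [← Finset.sum_div]
          have := hr (X, y) hy
          simp only at this
          linarith
      _ = ENNReal.ofReal (√(2 * Real.pi) ^ n * Real.exp (r / 2)) *
            (glab n) (Prod.mk X ⁻¹' T) := by
          rw [setLIntegral_const]
  · exact ENNReal.ofReal_ne_top

/-! ### the sets -/

section Sets

variable {V : Type*} [NormedAddCommGroup V] [InnerProductSpace ℝ V] [FiniteDimensional ℝ V]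
  [MeasurableSpace V] [BorelSpace V]

/-- points whose labels are `δ`-close to the labels of every signal in the list -/
def A (n : ℕ) (δ : ℝ) (l : List V) : Set ((Fin n → V) × (Fin n → ℝ)) :=
  {p | ∀ D ∈ l, ∀ i, |p.2 i - ⟪p.1 i, D⟫| ≤ δ}

/-- the difference set of the list -/
def Sl (δ : ℝ) (l : List V) : Set V := {x | ∀ D ∈ l, ∀ D' ∈ l, |⟪x, D - D'⟫| ≤ 2 * δ}

/-- closeness indicator -/
noncomputable def ind {n : ℕ} (δ : ℝ) (p : (Fin n → V) × (Fin n → ℝ)) (D : V) : ℝ≥0∞ :=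
  {q : ((Fin n → V) × (Fin n → ℝ)) × V |
    ∀ i, |q.1.2 i - ⟪q.1.1 i, q.2⟫| ≤ δ}.indicator 1 (p, D)

/-- the smoothed mass -/
noncomputable def qh {n : ℕ} (Om : Measure V) (δ : ℝ) (p : (Fin n → V) × (Fin n → ℝ)) : ℝ≥0∞ :=
  ∫⁻ D, ind δ p D ∂Om

theorem meas_box (n : ℕ) (δ : ℝ) : MeasurableSet
    {q : ((Fin n → V) × (Fin n → ℝ)) × V | ∀ i, |q.1.2 i - ⟪q.1.1 i, q.2⟫| ≤ δ} := by
  have h : {q : ((Fin n → V) × (Fin n → ℝ)) × V | ∀ i, |q.1.2 i - ⟪q.1.1 i, q.2⟫| ≤ δ} =
      ⋂ i, {q | |q.1.2 i - ⟪q.1.1 i, q.2⟫| ≤ δ} := by ext; simp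
  rw [h]
  refine MeasurableSet.iInter fun i => ?_
  refine measurableSet_le ?_ measurable_const
  have h1 : Measurable fun q : ((Fin n → V) × (Fin n → ℝ)) × V => q.1.2 i :=
    (measurable_pi_apply i).comp (measurable_snd.comp measurable_fst)
  have h2 : Measurable fun q : ((Fin n → V) × (Fin n → ℝ)) × V => q.1.1 i :=
    (measurable_pi_apply i).comp (measurable_fst.comp measurable_fst)
  have h3 : Measurable fun q : ((Fin n → V) × (Fin n → ℝ)) × V => ⟪q.1.1 i, q.2⟫ :=
    h2.inner measurable_snd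
  exact (h1.sub h3).abs

theorem meas_ind {n : ℕ} (δ : ℝ) :
    Measurable (fun q : ((Fin n → V) × (Fin n → ℝ)) × V => ind δ q.1 q.2) := by
  have : (fun q : ((Fin n → V) × (Fin n → ℝ)) × V => ind δ q.1 q.2) =
      {q : ((Fin n → V) × (Fin n → ℝ)) × V |
    ∀ i, |q.1.2 i - ⟪q.1.1 i, q.2⟫| ≤ δ}.indicator 1 := by
    ext q; rfl
  rw [this]
  exact measurable_one.indicator (meas_box n δ)

theorem meas_qh {n : ℕ} (Om : Measure V) [SFinite Om] (δ : ℝ) :
    Measurable (fun p : (Fin n → V) × (Fin n → ℝ) => qh Om δ p) :=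
  (meas_ind δ).lintegral_prod_right'

theorem meas_A {n : ℕ} (δ : ℝ) (l : List V) : MeasurableSet (A n δ l) := by
  classical
  have h : A n δ l = ⋂ D ∈ l.toFinset, {p : (Fin n → V) × (Fin n → ℝ) | ∀ i,
      |p.2 i - ⟪p.1 i, D⟫| ≤ δ} := by
    ext p
    simp [A]
  rw [h]
  refine Finset.measurableSet_biInter _ fun D _ => ?_
  have := (measurable_prodMk_right (y := D) : Measurable fun p : (Fin n → V) × (Fin n → ℝ) =>
    (p, D)) (meas_box n δ)
  exact this

theorem meas_Sl (δ : ℝ) (l : List V) : MeasurableSet (Sl δ l) := by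
  classical
  have h : Sl δ l = ⋂ D ∈ l.toFinset, ⋂ D' ∈ l.toFinset,
      {x : V | |⟪x, D - D'⟫| ≤ 2 * δ} := by
    ext p
    simp [Sl]
  rw [h]
  refine Finset.measurableSet_biInter _ fun D _ => Finset.measurableSet_biInter _ fun D' _ => ?_
  refine measurableSet_le ?_ measurable_const
  exact (measurable_id.inner measurable_const).abs

theorem vol_box_le {n : ℕ} {δ : ℝ} (X : Fin n → V) (l : List V) (hl : l ≠ []) :
    (volume : Measure (Fin n → ℝ)) (Prod.mk X ⁻¹' A n δ l) ≤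
      (Set.univ.pi fun _ => Sl δ l).indicator (fun _ => ENNReal.ofReal (2 * δ) ^ n) X := by
  by_cases hX : X ∈ Set.univ.pi fun _ => Sl δ l
  · rw [Set.indicator_of_mem hX]
    obtain ⟨D0, hD0⟩ := List.exists_mem_of_ne_nil l hl
    have hsub : Prod.mk X ⁻¹' A n δ l ⊆
        Set.Icc (fun i => ⟪X i, D0⟫ - δ) (fun i => ⟪X i, D0⟫ + δ) := by
      intro z hz
      have hz' := hz D0 hD0
      refine ⟨fun i => ?_, fun i => ?_⟩
      · have := (abs_le.1 (hz' i)).1
        simp only at this ⊢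
        linarith
      · have := (abs_le.1 (hz' i)).2
        simp only at this ⊢
        linarith
    refine (measure_mono hsub).trans (le_of_eq ?_)
    rw [Real.volume_Icc_pi]
    simp only [add_sub_sub_cancel, Finset.prod_const, Finset.card_univ, Fintype.card_fin]
    congr 2
    ring
  · rw [Set.indicator_of_notMem hX]
    have hemp : Prod.mk X ⁻¹' A n δ l = ∅ := by
      rw [Set.eq_empty_iff_forall_notMem]
      intro z hz
      refine hX fun i _ D hD D' hD' => ?_
      have h1 := abs_le.1 (hz D hD i)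
      have h2 := abs_le.1 (hz D' hD' i)
      simp only at h1 h2
      rw [inner_sub_right, abs_le]
      constructor <;> linarith [h1.1, h1.2, h2.1, h2.2]
    rw [hemp, measure_empty]

theorem base {n : ℕ} {δ : ℝ} (l : List V) (hl : l ≠ []) :
    ((rows V n).prod (volume : Measure (Fin n → ℝ))) (A n δ l) ≤
      ENNReal.ofReal (2 * δ) ^ n * stdGaussian V (Sl δ l) ^ n := by
  have : SFinite (rows V n) := by unfold rows; infer_instance
  rw [Measure.prod_apply (meas_A δ l)]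
  refine (lintegral_mono fun X => vol_box_le X l hl).trans (le_of_eq ?_)
  rw [lintegral_indicator (MeasurableSet.univ_pi fun _ => meas_Sl δ l), setLIntegral_const,
    rows, Measure.pi_pi]
  simp

theorem ind_A {n : ℕ} (δ : ℝ) (l : List V) (D : V) (f : (Fin n → V) × (Fin n → ℝ) → ℝ≥0∞)
    (p : (Fin n → V) × (Fin n → ℝ)) :
    (A n δ (D :: l)).indicator f p = (A n δ l).indicator f p * ind δ p D := by
  by_cases h1 : ∀ i, |p.2 i - ⟪p.1 i, D⟫| ≤ δ
  · have h2 : ind δ p D = 1 := by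
      rw [ind, Set.indicator_of_mem]
      · rfl
      · exact h1
    rw [h2, mul_one]
    by_cases h3 : p ∈ A n δ l
    · rw [Set.indicator_of_mem h3, Set.indicator_of_mem]
      intro D' hD'
      rcases List.mem_cons.1 hD' with rfl | h
      · exact h1
      · exact h3 D' h
    · rw [Set.indicator_of_notMem h3, Set.indicator_of_notMem]
      intro h
      exact h3 fun D' hD' => h D' (List.mem_cons_of_mem _ hD')
  · have h2 : ind δ p D = 0 := by
      rw [ind, Set.indicator_of_notMem]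
      exact h1
    rw [h2, mul_zero, Set.indicator_of_notMem]
    intro h
    exact h1 (h D List.mem_cons_self)

theorem step {n : ℕ} (Om : Measure V) [SFinite Om] (δ : ℝ) (l : List V) (i : ℕ) :
    ∫⁻ p in A n δ l, qh Om δ p ^ (i + 1) ∂((rows V n).prod volume) =
      ∫⁻ D, ∫⁻ p in A n δ (D :: l), qh Om δ p ^ i ∂((rows V n).prod volume) ∂Om := by
  have : SFinite (rows V n) := by unfold rows; infer_instance
  have hm : Measurable ((A n δ l).indicator fun p => qh Om δ p ^ i) :=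
    ((meas_qh Om δ).pow_const i).indicator (meas_A δ l)
  rw [← lintegral_indicator (meas_A δ l)]
  have h1 : ∀ D, ∫⁻ p in A n δ (D :: l), qh Om δ p ^ i ∂((rows V n).prod volume) =
      ∫⁻ p, (A n δ l).indicator (fun p => qh Om δ p ^ i) p * ind δ p D
        ∂((rows V n).prod volume) := by
    intro D
    rw [← lintegral_indicator (meas_A δ _)]
    exact lintegral_congr fun p => ind_A δ l D _ p
  simp_rw [h1]
  rw [lintegral_lintegral_swap]
  · refine lintegral_congr fun p => ?_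
    rw [lintegral_const_mul]
    · by_cases hp : p ∈ A n δ l
      · rw [Set.indicator_of_mem hp, Set.indicator_of_mem hp, pow_succ]
        rfl
      · rw [Set.indicator_of_notMem hp, Set.indicator_of_notMem hp, zero_mul]
    · exact (meas_ind δ).comp measurable_prodMk_left
  · refine Measurable.aemeasurable ?_
    exact (hm.comp measurable_snd).mul ((meas_ind δ).comp measurable_swap)

omit [MeasurableSpace V] [BorelSpace V] in
theorem continuous_dst (W : Submodule ℝ V) : Continuous (dst W) :=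
  (Wᗮ.starProjection.continuous).norm

theorem claim {n k : ℕ} (Om : Measure V) [SFinite Om] {B1 : ℝ≥0∞}
    (hND : ∀ W : Submodule ℝ V, Module.finrank ℝ W < k →
      ∫⁻ D, (ENNReal.ofReal (dst W D))⁻¹ ^ n ∂Om ≤ B1) {δ : ℝ} (hδ : 0 < δ) (i : ℕ) :
    ∀ l : List V, l ≠ [] → l.length + i ≤ k →
    ∫⁻ p in A n δ l, qh Om δ p ^ i ∂((rows V n).prod volume) ≤
      ENNReal.ofReal (2 * δ) ^ n * stdGaussian V (Sl δ l) ^ n *
        (ENNReal.ofReal (4 * δ / √(2 * Real.pi)) ^ n * B1) ^ i := by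
  classical
  induction i with
  | zero =>
    intro l hl _
    simpa using base (n := n) (δ := δ) l hl
  | succ i ih =>
    intro l hl hlk
    obtain ⟨D0, hD0⟩ := List.exists_mem_of_ne_nil l hl
    rw [step]
    set W : Submodule ℝ V := Submodule.span ℝ (l.toFinset : Set V) with hWdef
    have hmem : ∀ D ∈ l, D ∈ W := fun D hD => Submodule.subset_span (by simpa using hD)
    have hW : Module.finrank ℝ W < k := by
      have h1 : Module.finrank ℝ W ≤ l.toFinset.card := finrank_span_finset_le_card _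
      have h2 := List.toFinset_card_le l
      omega
    have hSW : ∀ x y : V, (∀ w ∈ W, ⟪x, w⟫ = ⟪y, w⟫) → (x ∈ Sl δ l ↔ y ∈ Sl δ l) := by
      intro x y hxy
      refine forall₄_congr fun D hD D' hD' => ?_
      rw [hxy _ (W.sub_mem (hmem D hD) (hmem D' hD'))]
    set c : ℝ≥0∞ := ENNReal.ofReal (4 * δ / √(2 * Real.pi)) with hc
    have hstep : ∀ D : V, stdGaussian V (Sl δ (D :: l)) ≤
        stdGaussian V (Sl δ l) * (c * (ENNReal.ofReal (dst W D))⁻¹) := by
      intro D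
      refine (measure_mono ?_).trans (slab W (hmem D0 hD0) (meas_Sl δ l) hSW hδ)
      intro x hx
      refine ⟨fun E hE E' hE' => hx E (List.mem_cons_of_mem _ hE) E' (List.mem_cons_of_mem _ hE'),
        hx D List.mem_cons_self D0 (List.mem_cons_of_mem _ hD0)⟩
    calc ∫⁻ D, ∫⁻ p in A n δ (D :: l), qh Om δ p ^ i ∂((rows V n).prod volume) ∂Om
        ≤ ∫⁻ D, ENNReal.ofReal (2 * δ) ^ n * stdGaussian V (Sl δ (D :: l)) ^ n *
            (c ^ n * B1) ^ i ∂Om := by
          refine lintegral_mono fun D => ih (D :: l) (by simp) ?_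
          simp only [List.length_cons]
          omega
      _ ≤ ∫⁻ D, (ENNReal.ofReal (2 * δ) ^ n * stdGaussian V (Sl δ l) ^ n *
            (c ^ n * B1) ^ i * c ^ n) * (ENNReal.ofReal (dst W D))⁻¹ ^ n ∂Om := by
          refine lintegral_mono fun D => ?_
          calc ENNReal.ofReal (2 * δ) ^ n * stdGaussian V (Sl δ (D :: l)) ^ n *
                (c ^ n * B1) ^ i
              ≤ ENNReal.ofReal (2 * δ) ^ n *
                (stdGaussian V (Sl δ l) * (c * (ENNReal.ofReal (dst W D))⁻¹)) ^ n *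
                (c ^ n * B1) ^ i := by
                gcongr
                exact hstep D
            _ = (ENNReal.ofReal (2 * δ) ^ n * stdGaussian V (Sl δ l) ^ n *
                (c ^ n * B1) ^ i * c ^ n) * (ENNReal.ofReal (dst W D))⁻¹ ^ n := by
                rw [mul_pow, mul_pow]
                ring
      _ = (ENNReal.ofReal (2 * δ) ^ n * stdGaussian V (Sl δ l) ^ n *
            (c ^ n * B1) ^ i * c ^ n) * ∫⁻ D, (ENNReal.ofReal (dst W D))⁻¹ ^ n ∂Om := by
          rw [lintegral_const_mul]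
          exact ((continuous_dst W).measurable.ennreal_ofReal.inv).pow_const n
      _ ≤ (ENNReal.ofReal (2 * δ) ^ n * stdGaussian V (Sl δ l) ^ n *
            (c ^ n * B1) ^ i * c ^ n) * B1 := by
          gcongr
          exact hND W hW
      _ = ENNReal.ofReal (2 * δ) ^ n * stdGaussian V (Sl δ l) ^ n *
            (c ^ n * B1) ^ (i + 1) := by
          rw [pow_succ]
          ring

theorem total {n k : ℕ} (hk : 1 ≤ k) (Om : Measure V) [IsFiniteMeasure Om]
    (hmass : Om Set.univ ≤ 1) {B1 : ℝ≥0∞}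
    (hND : ∀ W : Submodule ℝ V, Module.finrank ℝ W < k →
      ∫⁻ D, (ENNReal.ofReal (dst W D))⁻¹ ^ n ∂Om ≤ B1) {δ : ℝ} (hδ : 0 < δ) :
    ∫⁻ p, qh Om δ p ^ k ∂((rows V n).prod volume) ≤
      ENNReal.ofReal (2 * δ) ^ n *
        (ENNReal.ofReal (4 * δ / √(2 * Real.pi)) ^ n * B1) ^ (k - 1) := by
  obtain ⟨j, rfl⟩ : ∃ j, k = j + 1 := ⟨k - 1, by omega⟩
  have hA : A n δ ([] : List V) = Set.univ := by
    ext p; simp [A]
  have h1 := step (n := n) Om δ [] j
  rw [hA, Measure.restrict_univ] at h1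
  rw [h1]
  simp only [add_tsub_cancel_right]
  calc ∫⁻ D, ∫⁻ p in A n δ [D], qh Om δ p ^ j ∂((rows V n).prod volume) ∂Om
      ≤ ∫⁻ _, ENNReal.ofReal (2 * δ) ^ n *
        (ENNReal.ofReal (4 * δ / √(2 * Real.pi)) ^ n * B1) ^ j ∂Om := by
        refine lintegral_mono fun D => (claim Om hND hδ j [D] (by simp) (by simp; omega)).trans ?_
        have h2 : stdGaussian V (Sl δ [D]) ^ n ≤ 1 := pow_le_one' prob_le_one n
        calc _ ≤ ENNReal.ofReal (2 * δ) ^ n * 1 *
              (ENNReal.ofReal (4 * δ / √(2 * Real.pi)) ^ n * B1) ^ j := by gcongr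
          _ = _ := by rw [mul_one]
    _ = ENNReal.ofReal (2 * δ) ^ n *
        (ENNReal.ofReal (4 * δ / √(2 * Real.pi)) ^ n * B1) ^ j * Om Set.univ := by
        rw [lintegral_const]
    _ ≤ ENNReal.ofReal (2 * δ) ^ n *
        (ENNReal.ofReal (4 * δ / √(2 * Real.pi)) ^ n * B1) ^ j * 1 := by gcongr
    _ = _ := mul_one _

/-- the power cancellation -/
theorem alg {n k : ℕ} (hk : 2 ≤ k) {δ : ℝ} (hδ : 0 < δ) (B1 M M' : ℝ≥0∞) (r : ℝ)
    (hM : M ≤ ENNReal.ofReal (√(2 * Real.pi) ^ n * Real.exp (r / 2)) * M') :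
    (ENNReal.ofReal (2 * δ) ^ n)⁻¹ * ((ENNReal.ofReal (2 * δ) ^ n *
        (ENNReal.ofReal (4 * δ / √(2 * Real.pi)) ^ n * B1) ^ (k - 1)) ^ ((k : ℝ)⁻¹) *
        M ^ (1 - (k : ℝ)⁻¹)) ≤
      (2 ^ n * ENNReal.ofReal (Real.exp (r / 2)) * B1 * M') ^ (1 - (k : ℝ)⁻¹) := by
  have hk0 : (0 : ℝ) < k := by positivity
  have hk1 : (k : ℝ)⁻¹ ≤ 1 := inv_le_one_of_one_le₀ (by exact_mod_cast (by omega : 1 ≤ k))
  have he : 0 ≤ 1 - (k : ℝ)⁻¹ := by linarith
  have hki : 0 ≤ (k : ℝ)⁻¹ := by positivity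
  set a : ℝ≥0∞ := ENNReal.ofReal (2 * δ) ^ n with ha
  have ha0 : a ≠ 0 := pow_ne_zero _ (ENNReal.ofReal_pos.2 (by positivity)).ne'
  have ha1 : a ≠ ∞ := ENNReal.pow_ne_top ENNReal.ofReal_ne_top
  set b : ℝ≥0∞ := ENNReal.ofReal (4 * δ / √(2 * Real.pi)) ^ n with hb
  have h1 : ((b * B1) ^ (k - 1)) ^ ((k : ℝ)⁻¹) = (b * B1) ^ (1 - (k : ℝ)⁻¹) := by
    rw [← ENNReal.rpow_natCast, ← ENNReal.rpow_mul]
    congr 1
    rw [Nat.cast_sub (by omega)]
    field_simp
    simp
  have h2 : a⁻¹ * a ^ ((k : ℝ)⁻¹) = (a⁻¹) ^ (1 - (k : ℝ)⁻¹) := by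
    rw [ENNReal.inv_rpow, ← ENNReal.rpow_neg, ← ENNReal.rpow_neg_one,
      ← ENNReal.rpow_add _ _ ha0 ha1]
    congr 1
    ring
  have h3 : a⁻¹ * b * ENNReal.ofReal (√(2 * Real.pi) ^ n * Real.exp (r / 2)) =
      2 ^ n * ENNReal.ofReal (Real.exp (r / 2)) := by
    have hs : 0 < √(2 * Real.pi) := by positivity
    rw [ha, hb, ← ENNReal.ofReal_pow (by positivity), ← ENNReal.ofReal_pow (by positivity),
      ← ENNReal.ofReal_inv_of_pos (by positivity), ← ENNReal.ofReal_mul (by positivity),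
      ← ENNReal.ofReal_mul (by positivity)]
    have h4 : (2 : ℝ≥0∞) ^ n = ENNReal.ofReal (2 ^ n) := by
      rw [ENNReal.ofReal_pow (by norm_num)]
      norm_num
    rw [h4, ← ENNReal.ofReal_mul (by positivity)]
    congr 1
    rw [div_pow, mul_pow, mul_pow]
    have h5 : (4 : ℝ) ^ n = 2 ^ n * 2 ^ n := by
      rw [← mul_pow]; norm_num
    rw [h5]
    field_simp
  calc a⁻¹ * ((a * (b * B1) ^ (k - 1)) ^ ((k : ℝ)⁻¹) * M ^ (1 - (k : ℝ)⁻¹))
      = (a⁻¹ * a ^ ((k : ℝ)⁻¹)) * (b * B1) ^ (1 - (k : ℝ)⁻¹) * M ^ (1 - (k : ℝ)⁻¹) := by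
        rw [ENNReal.mul_rpow_of_nonneg _ _ hki, h1]
        ring
    _ = (a⁻¹ * (b * B1) * M) ^ (1 - (k : ℝ)⁻¹) := by
        rw [h2, ENNReal.mul_rpow_of_nonneg (a⁻¹ * (b * B1)) M he,
          ENNReal.mul_rpow_of_nonneg a⁻¹ (b * B1) he]
    _ ≤ (a⁻¹ * (b * B1) *
          (ENNReal.ofReal (√(2 * Real.pi) ^ n * Real.exp (r / 2)) * M')) ^ (1 - (k : ℝ)⁻¹) := by
        gcongr
    _ = (2 ^ n * ENNReal.ofReal (Real.exp (r / 2)) * B1 * M') ^ (1 - (k : ℝ)⁻¹) := by
        congr 1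
        calc a⁻¹ * (b * B1) * (ENNReal.ofReal (√(2 * Real.pi) ^ n * Real.exp (r / 2)) * M')
            = (a⁻¹ * b * ENNReal.ofReal (√(2 * Real.pi) ^ n * Real.exp (r / 2))) * B1 * M' := by
              ring
          _ = _ := by rw [h3]

theorem hold {n k : ℕ} (hk : 2 ≤ k) (Om : Measure V) [IsFiniteMeasure Om]
    (hmass : Om Set.univ ≤ 1) {B1 : ℝ≥0∞}
    (hND : ∀ W : Submodule ℝ V, Module.finrank ℝ W < k →
      ∫⁻ D, (ENNReal.ofReal (dst W D))⁻¹ ^ n ∂Om ≤ B1) {δ : ℝ} (hδ : 0 < δ)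
    {U : Set ((Fin n → V) × (Fin n → ℝ))} (hU : MeasurableSet U) {r : ℝ}
    (hr : ∀ p ∈ U, ∑ i, p.2 i ^ 2 ≤ r) :
    (ENNReal.ofReal (2 * δ) ^ n)⁻¹ * ∫⁻ p in U, qh Om δ p ∂((rows V n).prod volume) ≤
      (2 ^ n * ENNReal.ofReal (Real.exp (r / 2)) * B1 *
        ((rows V n).prod (glab n)) U) ^ (1 - (k : ℝ)⁻¹) := by
  have : SFinite (rows V n) := by unfold rows; infer_instance
  have hk0 : (k : ℝ) ≠ 0 := by positivity
  have hk1 : (k : ℝ)⁻¹ < 1 := inv_lt_one_of_one_lt₀ (by exact_mod_cast (by omega : 1 < k))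
  have he : 0 < 1 - (k : ℝ)⁻¹ := by linarith
  refine le_trans ?_ (alg hk hδ B1 _ _ r (vol_le n (rows V n) hU hr))
  gcongr
  have hq := meas_qh (n := n) Om δ
  calc ∫⁻ p in U, qh Om δ p ∂((rows V n).prod volume)
      = ∫⁻ p, (qh Om δ p ^ k) ^ ((k : ℝ)⁻¹) *
          (U.indicator (fun _ => (1 : ℝ≥0∞)) p) ^ (1 - (k : ℝ)⁻¹)
          ∂((rows V n).prod volume) := by
        rw [← lintegral_indicator hU]
        refine lintegral_congr fun p => ?_
        by_cases hp : p ∈ U
        · rw [Set.indicator_of_mem hp, Set.indicator_of_mem hp, ENNReal.one_rpow, mul_one,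
            ← ENNReal.rpow_natCast, ← ENNReal.rpow_mul, mul_inv_cancel₀ hk0, ENNReal.rpow_one]
        · rw [Set.indicator_of_notMem hp, Set.indicator_of_notMem hp,
            ENNReal.zero_rpow_of_pos he, mul_zero]
    _ ≤ (∫⁻ p, qh Om δ p ^ k ∂((rows V n).prod volume)) ^ ((k : ℝ)⁻¹) *
          (∫⁻ p, U.indicator (fun _ => (1 : ℝ≥0∞)) p ∂((rows V n).prod volume)) ^
            (1 - (k : ℝ)⁻¹) :=
        ENNReal.lintegral_mul_norm_pow_le (hq.pow_const k).aemeasurable
          (measurable_const.indicator hU).aemeasurable (by positivity) he.le (by ring)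
    _ ≤ (ENNReal.ofReal (2 * δ) ^ n *
        (ENNReal.ofReal (4 * δ / √(2 * Real.pi)) ^ n * B1) ^ (k - 1)) ^ ((k : ℝ)⁻¹) *
          ((rows V n).prod volume) U ^ (1 - (k : ℝ)⁻¹) := by
        rw [lintegral_indicator_const hU, one_mul]
        gcongr
        exact total (by omega) Om hmass hND hδ

/-- the averaged indicator -/
noncomputable def G {n : ℕ} (U : Set ((Fin n → V) × (Fin n → ℝ))) (δ : ℝ)
    (q : V × (Fin n → V)) : ℝ≥0∞ :=
  (ENNReal.ofReal (2 * δ) ^ n)⁻¹ *
    ∫⁻ z : Fin n → ℝ, U.indicator (fun _ => (1 : ℝ≥0∞)) (q.2, z) * ind δ (q.2, z) q.1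

theorem meas_G0 {n : ℕ} {U : Set ((Fin n → V) × (Fin n → ℝ))} (hU : MeasurableSet U) (δ : ℝ) :
    Measurable fun w : (V × (Fin n → V)) × (Fin n → ℝ) =>
      U.indicator (fun _ => (1 : ℝ≥0∞)) (w.1.2, w.2) * ind δ (w.1.2, w.2) w.1.1 := by
  have h1 : Measurable fun w : (V × (Fin n → V)) × (Fin n → ℝ) => (w.1.2, w.2) :=
    (measurable_snd.comp measurable_fst).prodMk measurable_snd
  have h2 : Measurable fun w : (V × (Fin n → V)) × (Fin n → ℝ) => ((w.1.2, w.2), w.1.1) :=
    h1.prodMk (measurable_fst.comp measurable_fst)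
  exact ((measurable_const.indicator hU).comp h1).mul ((meas_ind δ).comp h2)

theorem meas_G {n : ℕ} {U : Set ((Fin n → V) × (Fin n → ℝ))} (hU : MeasurableSet U) (δ : ℝ) :
    Measurable (G (n := n) (V := V) U δ) :=
  ((meas_G0 hU δ).lintegral_prod_right').const_mul _

theorem int_G {n : ℕ} {U : Set ((Fin n → V) × (Fin n → ℝ))} (hU : MeasurableSet U)
    {δ : ℝ} (hδ : 0 < δ) (Om : Measure V) [IsFiniteMeasure Om] :
    ∫⁻ q, G U δ q ∂(Om.prod (rows V n)) =
      (ENNReal.ofReal (2 * δ) ^ n)⁻¹ * ∫⁻ p in U, qh Om δ p ∂((rows V n).prod volume) := by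
  have : SFinite (rows V n) := by unfold rows; infer_instance
  have hfin : (ENNReal.ofReal (2 * δ) ^ n)⁻¹ ≠ ∞ :=
    ENNReal.inv_ne_top.2 (pow_ne_zero _ (ENNReal.ofReal_pos.2 (by positivity)).ne')
  unfold G
  rw [lintegral_const_mul' _ _ hfin]
  congr 1
  rw [lintegral_prod _ ((meas_G0 hU δ).lintegral_prod_right').aemeasurable]
  have h1 : ∀ D : V, ∫⁻ X : Fin n → V, ∫⁻ z : Fin n → ℝ,
      U.indicator (fun _ => (1 : ℝ≥0∞)) (X, z) * ind δ (X, z) D ∂volume ∂(rows V n) =
      ∫⁻ p, U.indicator (fun _ => (1 : ℝ≥0∞)) p * ind δ p D ∂((rows V n).prod volume) := by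
    intro D
    rw [lintegral_prod]
    exact ((measurable_const.indicator hU).mul
      ((meas_ind δ).comp measurable_prodMk_right)).aemeasurable
  simp only
  simp_rw [h1]
  rw [lintegral_lintegral_swap, ← lintegral_indicator hU]
  · refine lintegral_congr fun p => ?_
    have hmp : Measurable fun D : V => ind δ p D := (meas_ind δ).comp measurable_prodMk_left
    rw [lintegral_const_mul _ hmp]
    by_cases hp : p ∈ U
    · rw [Set.indicator_of_mem hp, Set.indicator_of_mem hp, one_mul]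
      rfl
    · rw [Set.indicator_of_notMem hp, Set.indicator_of_notMem hp, zero_mul]
  · refine Measurable.aemeasurable ?_
    exact ((measurable_const.indicator hU).comp measurable_snd).mul
      ((meas_ind δ).comp measurable_swap)

theorem G_ge {n : ℕ} {U : Set ((Fin n → V) × (Fin n → ℝ))} (hU : IsOpen U) {D : V}
    {X : Fin n → V} (hX : (X, lab X D) ∈ U) : ∃ ε > 0, ∀ δ : ℝ, 0 < δ → δ < ε → 1 ≤ G U δ (D, X) := by
  obtain ⟨ε, hε, hball⟩ := Metric.isOpen_iff.1 hU _ hX
  refine ⟨ε, hε, fun δ hδ hδε => ?_⟩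
  have ha0 : ENNReal.ofReal (2 * δ) ^ n ≠ 0 :=
    pow_ne_zero _ (ENNReal.ofReal_pos.2 (by positivity)).ne'
  have ha1 : ENNReal.ofReal (2 * δ) ^ n ≠ ∞ := ENNReal.pow_ne_top ENNReal.ofReal_ne_top
  set I : Set (Fin n → ℝ) := Set.Icc (fun i => ⟪X i, D⟫ - δ) (fun i => ⟪X i, D⟫ + δ) with hI
  have hvol : (volume : Measure (Fin n → ℝ)) I = ENNReal.ofReal (2 * δ) ^ n := by
    rw [hI, Real.volume_Icc_pi]
    simp only [add_sub_sub_cancel, Finset.prod_const, Finset.card_univ, Fintype.card_fin]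
    congr 2
    ring
  have hle : ENNReal.ofReal (2 * δ) ^ n ≤ ∫⁻ z : Fin n → ℝ,
      U.indicator (fun _ => (1 : ℝ≥0∞)) (X, z) * ind δ (X, z) D := by
    rw [← hvol, ← lintegral_indicator_one measurableSet_Icc]
    refine lintegral_mono fun z => ?_
    by_cases hz : z ∈ I
    · have hz' : ∀ i, |z i - ⟪X i, D⟫| ≤ δ := by
        intro i
        rw [abs_le]
        constructor <;> linarith [hz.1 i, hz.2 i]
      have h1 : (X, z) ∈ U := by
        refine hball ?_
        rw [Metric.mem_ball, Prod.dist_eq, dist_self, max_lt_iff]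
        refine ⟨hε, lt_of_le_of_lt ((dist_pi_le_iff hδ.le).2 fun i => ?_) hδε⟩
        rw [Real.dist_eq]
        exact hz' i
      have h2 : ind δ (X, z) D = 1 := by
        rw [ind, Set.indicator_of_mem]
        · rfl
        · exact hz'
      rw [Set.indicator_of_mem hz, Set.indicator_of_mem h1, h2]
      simp
    · rw [Set.indicator_of_notMem hz]
      exact zero_le
  calc (1 : ℝ≥0∞) = (ENNReal.ofReal (2 * δ) ^ n)⁻¹ * ENNReal.ofReal (2 * δ) ^ n :=
        (ENNReal.inv_mul_cancel ha0 ha1).symm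
    _ ≤ G U δ (D, X) := by
        unfold G
        gcongr

theorem meas_lab {n : ℕ} : Measurable fun q : V × (Fin n → V) => (q.2, lab q.2 q.1) := by
  refine measurable_snd.prodMk (measurable_pi_lambda _ fun i => ?_)
  exact ((measurable_pi_apply i).comp measurable_snd).inner measurable_fst

theorem fatou {n : ℕ} (Om : Measure V) [IsFiniteMeasure Om]
    {U : Set ((Fin n → V) × (Fin n → ℝ))} (hU : IsOpen U) (hUm : MeasurableSet U)
    {H : Set ((Fin n → V) × (Fin n → ℝ))} (hH : MeasurableSet H) (hHU : H ⊆ U) {C : ℝ≥0∞}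
    (hC : ∀ δ : ℝ, 0 < δ →
      (ENNReal.ofReal (2 * δ) ^ n)⁻¹ * ∫⁻ p in U, qh Om δ p ∂((rows V n).prod volume) ≤ C) :
    ∫⁻ D, rows V n {X | (X, lab X D) ∈ H} ∂Om ≤ C := by
  have : SFinite (rows V n) := by unfold rows; infer_instance
  have hS : MeasurableSet {q : V × (Fin n → V) | (q.2, lab q.2 q.1) ∈ H} := meas_lab hH
  have h0 : ∫⁻ D, rows V n {X | (X, lab X D) ∈ H} ∂Om =
      (Om.prod (rows V n)) {q : V × (Fin n → V) | (q.2, lab q.2 q.1) ∈ H} := by
    rw [Measure.prod_apply hS]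
    rfl
  rw [h0, ← lintegral_indicator_one hS]
  set e : ℕ → ℝ := fun m => 1 / ((m : ℝ) + 1) with he
  have hepos : ∀ m, 0 < e m := fun m => by simp only [he]; positivity
  calc ∫⁻ q, {q : V × (Fin n → V) | (q.2, lab q.2 q.1) ∈ H}.indicator 1 q ∂(Om.prod (rows V n))
      ≤ ∫⁻ q, Filter.liminf (fun m => G U (e m) q) Filter.atTop ∂(Om.prod (rows V n)) := by
        refine lintegral_mono fun q => ?_
        by_cases hq : (q.2, lab q.2 q.1) ∈ H
        · obtain ⟨ε, hε, hG⟩ := G_ge hU (hHU hq)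
          rw [Set.indicator_of_mem (show q ∈ {q : V × (Fin n → V) | (q.2, lab q.2 q.1) ∈ H}
            from hq)]
          refine Filter.le_liminf_of_le (by isBoundedDefault) ?_
          have := (tendsto_one_div_add_atTop_nhds_zero_nat (𝕜 := ℝ)).eventually_lt_const hε
          filter_upwards [this] with m hm
          exact hG (e m) (hepos m) hm
        · rw [Set.indicator_of_notMem (show q ∉ {q : V × (Fin n → V) | (q.2, lab q.2 q.1) ∈ H}
            from hq)]
          exact zero_le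
    _ ≤ Filter.liminf (fun m => ∫⁻ q, G U (e m) q ∂(Om.prod (rows V n))) Filter.atTop :=
        lintegral_liminf_le fun m => meas_G hUm (e m)
    _ ≤ Filter.liminf (fun _ : ℕ => C) Filter.atTop := by
        refine Filter.liminf_le_liminf (Filter.Eventually.of_forall fun m => ?_)
        rw [int_G hUm (hepos m)]
        exact hC _ (hepos m)
    _ = C := Filter.liminf_const _

end Sets

end KeyAux

variable {V : Type*} [NormedAddCommGroup V] [InnerProductSpace ℝ V] [FiniteDimensional ℝ V]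
  [MeasurableSpace V] [BorelSpace V]

open KeyAux in
theorem key_ineq {n k : ℕ} (hk : 2 ≤ k) (Om : Measure V) (hmass : Om Set.univ ≤ 1)
    {B1 : ℝ≥0∞} (hB1 : B1 ≠ ∞)
    (hND : ∀ W : Submodule ℝ V, Module.finrank ℝ W < k →
      ∫⁻ D, (ENNReal.ofReal (dst W D))⁻¹ ^ n ∂Om ≤ B1)
    {R : ℝ} (H : Set ((Fin n → V) × (Fin n → ℝ))) (hH : MeasurableSet H)
    (hHR : ∀ p ∈ H, ∑ i, p.2 i ^ 2 ≤ R ^ 2) :
    ∫⁻ D, rows V n {X | (X, lab X D) ∈ H} ∂Om ≤
      (2 ^ n * ENNReal.ofReal (Real.exp ((R ^ 2 + 1) / 2)) * B1 *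
        ((rows V n).prod (glab n)) H) ^ (1 - (k : ℝ)⁻¹) := by
  have : IsFiniteMeasure Om := ⟨hmass.trans_lt ENNReal.one_lt_top⟩
  have : IsProbabilityMeasure (rows V n) := by unfold rows; infer_instance
  have : IsProbabilityMeasure (glab n) := by unfold glab; infer_instance
  have : ProperSpace V := FiniteDimensional.proper ℝ V
  have : SecondCountableTopology V := inferInstance
  have hk1 : (k : ℝ)⁻¹ < 1 := inv_lt_one_of_one_lt₀ (by exact_mod_cast (by omega : 1 < k))
  have he : 0 < 1 - (k : ℝ)⁻¹ := by linarith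
  set P := (rows V n).prod (glab n) with hP
  set c : ℝ≥0∞ := 2 ^ n * ENNReal.ofReal (Real.exp ((R ^ 2 + 1) / 2)) * B1 with hc
  have hcfin : c ≠ ∞ := ENNReal.mul_ne_top
    (ENNReal.mul_ne_top (ENNReal.pow_ne_top (by norm_num)) ENNReal.ofReal_ne_top) hB1
  have key : ∀ η : ℝ≥0∞, η ≠ 0 → ∫⁻ D, rows V n {X | (X, lab X D) ∈ H} ∂Om ≤
      (c * (P H + η)) ^ (1 - (k : ℝ)⁻¹) := by
    intro η hη
    obtain ⟨U, hHU, hUo, hUη⟩ := H.exists_isOpen_le_add P hη
    set Q : Set ((Fin n → V) × (Fin n → ℝ)) := {p | ∑ i, p.2 i ^ 2 < R ^ 2 + 1} with hQ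
    have hcont : Continuous fun p : (Fin n → V) × (Fin n → ℝ) => ∑ i, p.2 i ^ 2 :=
      continuous_finsetSum _ fun i _ => ((continuous_apply i).comp continuous_snd).pow 2
    have hQo : IsOpen Q := isOpen_lt hcont continuous_const
    have hUQ : IsOpen (U ∩ Q) := hUo.inter hQo
    refine fatou Om hUQ hUQ.measurableSet hH (fun p hp => ⟨hHU hp, ?_⟩) fun δ hδ => ?_
    · have := hHR p hp
      show ∑ i, p.2 i ^ 2 < R ^ 2 + 1
      linarith
    · refine (hold hk Om hmass hND hδ hUQ.measurableSet (r := R ^ 2 + 1)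
        fun p hp => le_of_lt hp.2).trans ?_
      gcongr
      exact (measure_mono Set.inter_subset_left).trans hUη
  have hlim : Filter.Tendsto (fun m : ℕ => (c * (P H + (m : ℝ≥0∞)⁻¹)) ^ (1 - (k : ℝ)⁻¹))
      Filter.atTop (nhds ((c * P H) ^ (1 - (k : ℝ)⁻¹))) := by
    refine (ENNReal.continuous_rpow_const.tendsto _).comp ?_
    refine ENNReal.Tendsto.const_mul ?_ (Or.inr hcfin)
    have := (tendsto_const_nhds (x := P H)).add ENNReal.tendsto_inv_nat_nhds_zero
    rwa [add_zero] at this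
  exact ge_of_tendsto' hlim fun m => key _ (ENNReal.inv_ne_zero.2 (ENNReal.natCast_ne_top m))

end P309
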