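import Vale.Agent.P309.ProbeBasic

/-!
# P309 : the nondegeneracy bound of the probe
-/

namespace P309

open MeasureTheory ProbabilityTheory
open scoped ENNReal RealInnerProductSpace

namespace ND

/-! ### Distance to a subspace -/

section Dst

variable {V : Type*} [NormedAddCommGroup V] [InnerProductSpace ℝ V] [FiniteDimensional ℝ V]

lemma dst_smul (W : Submodule ℝ V) (c : ℝ) (x : V) : dst W (c • x) = |c| * dst W x := by
  unfold dst
  rw [map_smul, norm_smul, Real.norm_eq_abs]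

lemma dst_add_mem (W : Submodule ℝ V) (x : V) {w : V} (hw : w ∈ W) : dst W (x + w) = dst W x := by
  unfold dst
  rw [map_add, Submodule.starProjection_orthogonal_apply_eq_zero hw, add_zero]

lemma dst_le_norm (W : Submodule ℝ V) (x : V) : dst W x ≤ ‖x‖ :=
  Submodule.norm_starProjection_apply_le _ _

lemma dst_add_le (W : Submodule ℝ V) (x y : V) : dst W (x + y) ≤ dst W x + ‖y‖ := by
  have h : dst W (x + y) ≤ dst W x + dst W y := by
    unfold dst
    rw [map_add]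
    exact norm_add_le _ _
  exact h.trans (add_le_add_right (dst_le_norm W y) _)

lemma dst_anti {W W' : Submodule ℝ V} (h : W ≤ W') (x : V) : dst W' x ≤ dst W x := by
  unfold dst
  have h1 : W'ᗮ ≤ Wᗮ := Submodule.orthogonal_le h
  have h2 : W'ᗮ.starProjection (Wᗮ.starProjection x) = W'ᗮ.starProjection x := by
    have := Submodule.starProjection_comp_starProjection_of_le h1
    exact DFunLike.congr_fun this x
  rw [← h2]
  exact Submodule.norm_starProjection_apply_le _ _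

lemma continuous_dst (W : Submodule ℝ V) : Continuous fun x : V => dst W x :=
  (ContinuousLinearMap.continuous _).norm

end Dst

/-! ### The pointwise inequality -/

lemma pointwise {q : ℕ} {y : ℝ} (hy : 0 ≤ y) :
    (ENNReal.ofReal y)⁻¹ ^ q ≤
      1 + ∑' i : ℕ, if y ≤ (1 / 4 : ℝ) ^ i then (4 : ℝ≥0∞) ^ ((i + 1) * q) else 0 := by
  rcases lt_or_ge 1 y with h1 | h1
  · have h2 : (ENNReal.ofReal y)⁻¹ ≤ 1 := by
      rw [ENNReal.inv_le_one]
      exact (ENNReal.one_le_ofReal).mpr h1.le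
    exact (pow_le_one' h2 q).trans le_self_add
  rcases hy.eq_or_lt with rfl | h0
  · have h2 : (∑' i : ℕ, if (0 : ℝ) ≤ (1 / 4 : ℝ) ^ i then (4 : ℝ≥0∞) ^ ((i + 1) * q) else 0)
        = ∞ := by
      rw [eq_top_iff, ← ENNReal.tsum_const_eq_top_of_ne_zero (α := ℕ) (c := 1) one_ne_zero]
      refine ENNReal.tsum_le_tsum fun i => ?_
      rw [if_pos (by positivity)]
      exact one_le_pow₀ (by norm_num)
    rw [h2, add_top]
    exact le_top
  · obtain ⟨i, hi1, hi2⟩ := exists_nat_pow_near_of_lt_one h0 h1 (by norm_num : (0 : ℝ) < 1 / 4)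
      (by norm_num)
    have h3 : (ENNReal.ofReal y)⁻¹ ≤ (4 : ℝ≥0∞) ^ (i + 1) := by
      rw [ENNReal.inv_le_iff_inv_le, ENNReal.inv_pow]
      have h4 : (4 : ℝ≥0∞)⁻¹ ^ (i + 1) = ENNReal.ofReal ((1 / 4 : ℝ) ^ (i + 1)) := by
        rw [ENNReal.ofReal_pow (by norm_num)]
        congr 1
        rw [one_div, ENNReal.ofReal_inv_of_pos (by norm_num)]
        norm_num
      rw [h4]
      exact ENNReal.ofReal_le_ofReal hi1.le
    calc (ENNReal.ofReal y)⁻¹ ^ q ≤ ((4 : ℝ≥0∞) ^ (i + 1)) ^ q := pow_le_pow_left' h3 q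
      _ = if y ≤ (1 / 4 : ℝ) ^ i then (4 : ℝ≥0∞) ^ ((i + 1) * q) else 0 := by
          rw [if_pos hi2, pow_mul]
      _ ≤ ∑' i : ℕ, if y ≤ (1 / 4 : ℝ) ^ i then (4 : ℝ≥0∞) ^ ((i + 1) * q) else 0 :=
          ENNReal.le_tsum i
      _ ≤ _ := le_add_self

/-! ### The signal difference and the code word difference -/

section Paths

variable {L N d : ℕ}

lemma dst_Dz_ge {z' z : Path L N} {l : Fin L} {t' : Eu d} {G : Code L N d} (ht' : t' ∈ ann d)
    (ht : t' + (shift G z - shift G z') ∈ ann d) (W : Submodule ℝ (Eu d)) :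
    dst (W ⊔ Submodule.span ℝ {t'}) (shift G z - shift G z') * 4 ^ (l.val + 1) / 2 ≤
      dst W (Dz z' l t' G z) := by
  set Δ := shift G z - shift G z' with hΔ
  set U := W ⊔ Submodule.span ℝ {t'} with hU
  have htpos : 0 < ‖t' + Δ‖ := lt_of_lt_of_le one_pos ht.1
  have h1 : sg (t' + Δ) - sg t' = ‖t' + Δ‖⁻¹ • Δ + (‖t' + Δ‖⁻¹ - ‖t'‖⁻¹) • t' := by
    unfold sg
    rw [smul_add, sub_smul]
    abel
  have hmem : (‖t' + Δ‖⁻¹ - ‖t'‖⁻¹) • t' ∈ U :=
    Submodule.smul_mem _ _ (Submodule.mem_sup_right (Submodule.mem_span_singleton_self t'))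
  have h2 : dst U (Dz z' l t' G z) = 4 ^ (l.val + 1) * (‖t' + Δ‖⁻¹ * dst U Δ) := by
    unfold Dz
    rw [← hΔ, h1, dst_smul, dst_add_mem U _ hmem, dst_smul, abs_of_pos (inv_pos.mpr htpos),
      abs_of_pos (by positivity)]
    congr 1
    rw [one_div, inv_pow, inv_inv]
  refine le_trans ?_ (dst_anti (le_sup_left : W ≤ U) _)
  rw [h2]
  have h3 : (2 : ℝ)⁻¹ ≤ ‖t' + Δ‖⁻¹ := by
    gcongr
    exact ht.2
  have h4 : 0 ≤ dst U Δ := norm_nonneg _
  have h5 : (2 : ℝ)⁻¹ * dst U Δ ≤ ‖t' + Δ‖⁻¹ * dst U Δ := mul_le_mul_of_nonneg_right h3 h4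
  calc dst U Δ * 4 ^ (l.val + 1) / 2 = 4 ^ (l.val + 1) * ((2 : ℝ)⁻¹ * dst U Δ) := by ring
    _ ≤ _ := mul_le_mul_of_nonneg_left h5 (by positivity)

/-- the path which agrees with `z` up to level `j` and with `z'` above -/
def trunc (z' z : Path L N) (j : ℕ) : Path L N := fun m => if m.val ≤ j then z m else z' m

lemma trunc_mem {z' z : Path L N} {l : Fin L} (hz : z ∈ Lev z' l) (i : ℕ) :
    trunc z' z (l.val + i) ∈ Lev z' l := by
  unfold Lev at hz ⊢
  rw [Finset.mem_filter] at hz ⊢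
  obtain ⟨-, h1, h2⟩ := hz
  refine ⟨Finset.mem_univ _, fun m hm => ?_, ?_⟩
  · unfold trunc
    have : m.val ≤ l.val + i := by
      have := Fin.lt_def.mp hm
      omega
    rw [if_pos this]
    exact h1 m hm
  · unfold trunc
    rw [if_pos (by omega)]
    exact h2

/-- the relevant paths at depth `i` below level `l` -/
def Sel (z' : Path L N) (l : Fin L) (i : ℕ) : Finset (Path L N) :=
  (Lev z' l).filter fun z => ∀ m : Fin L, l.val + i < m.val → z m = z' m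

lemma trunc_mem_Sel {z' z : Path L N} {l : Fin L} (hz : z ∈ Lev z' l) (i : ℕ) :
    trunc z' z (l.val + i) ∈ Sel z' l i := by
  unfold Sel
  rw [Finset.mem_filter]
  refine ⟨trunc_mem hz i, fun m hm => ?_⟩
  unfold trunc
  rw [if_neg (by omega)]

lemma card_Sel (z' : Path L N) (l : Fin L) (i : ℕ) : (Sel z' l i).card ≤ N ^ (i + 1) := by
  have h1 : (Finset.univ : Finset (Fin (i + 1) → Fin N)).card = N ^ (i + 1) := by
    rw [Finset.card_univ, Fintype.card_pi]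
    simp
  rw [← h1]
  refine Finset.card_le_card_of_injOn
    (fun z j => if h : l.val + j.val < L then z ⟨l.val + j.val, h⟩ else z' l)
    (fun _ _ => Finset.mem_coe.mpr (Finset.mem_univ _)) ?_
  intro z hz w hw hzw
  have hz' := Finset.mem_coe.mp hz
  have hw' := Finset.mem_coe.mp hw
  unfold Sel Lev at hz' hw'
  rw [Finset.mem_filter, Finset.mem_filter] at hz' hw'
  obtain ⟨⟨-, a1, -⟩, a3⟩ := hz'
  obtain ⟨⟨-, b1, -⟩, b3⟩ := hw'
  funext m
  rcases lt_or_ge m.val l.val with hm | hm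
  · rw [a1 m (Fin.lt_def.mpr hm), b1 m (Fin.lt_def.mpr hm)]
  rcases lt_or_ge (l.val + i) m.val with hm2 | hm2
  · rw [a3 m hm2, b3 m hm2]
  · have h2 := congr_fun hzw (⟨m.val - l.val, by omega⟩ : Fin (i + 1))
    have h3 : l.val + (m.val - l.val) < L := by
      have := m.isLt
      omega
    simp only [dif_pos h3] at h2
    have h4 : (⟨l.val + (m.val - l.val), h3⟩ : Fin L) = m := by
      apply Fin.ext
      simp only
      omega
    rwa [h4] at h2

lemma tail_sum (j L : ℕ) :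
    ∑ m ∈ Finset.range L, (if j < m then 4 * (1 / 4 : ℝ) ^ (m + 1) else 0) ≤
      4 / 3 * (1 / 4 : ℝ) ^ (j + 1) := by
  have key : ∑ m ∈ Finset.range L, (if j < m then 4 * (1 / 4 : ℝ) ^ (m + 1) else 0) ≤
      if L ≤ j + 1 then 0 else 4 / 3 * (1 / 4 : ℝ) ^ (j + 1) - 4 / 3 * (1 / 4 : ℝ) ^ L := by
    induction L with
    | zero => simp
    | succ L ih =>
      rw [Finset.sum_range_succ]
      rcases lt_trichotomy L (j + 1) with h | h | h
      · rw [if_pos (by omega)] at ih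
        rw [if_neg (by omega), if_pos (by omega)]
        linarith
      · subst h
        rw [if_pos (le_refl _)] at ih
        rw [if_pos (by omega), if_neg (by omega)]
        have : (1 / 4 : ℝ) ^ (j + 1 + 1) = 1 / 4 * (1 / 4 : ℝ) ^ (j + 1) := by ring
        rw [this]
        linarith
      · rw [if_neg (by omega)] at ih
        rw [if_pos (by omega), if_neg (by omega)]
        have : (1 / 4 : ℝ) ^ (L + 1) = 1 / 4 * (1 / 4 : ℝ) ^ L := by ring
        rw [this]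
        linarith
  refine key.trans ?_
  split_ifs
  · positivity
  · have : (0 : ℝ) ≤ 4 / 3 * (1 / 4 : ℝ) ^ L := by positivity
    linarith

lemma norm_tail_le {G : Code L N d} (hd : 1 ≤ d) (hG : ∀ i, ‖G i‖ ≤ 2 * √d) (z' z : Path L N)
    (j : ℕ) : ‖shift G z - shift G (trunc z' z j)‖ ≤ 4 / 3 * (1 / 4 : ℝ) ^ (j + 1) := by
  have hsd : (0 : ℝ) < √d := Real.sqrt_pos.mpr (by exact_mod_cast hd)
  unfold shift
  rw [← Finset.sum_sub_distrib]
  refine (norm_sum_le _ _).trans (le_trans ?_ (tail_sum j L))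
  rw [Finset.sum_range]
  refine Finset.sum_le_sum fun m _ => ?_
  rw [← smul_sub, norm_smul]
  split_ifs with hm
  · have h1 : ‖G (m, z m) - G (m, trunc z' z j m)‖ ≤ 4 * √d :=
      (norm_sub_le _ _).trans (by linarith [hG (m, z m), hG (m, trunc z' z j m)])
    have h2 : ‖((1 / 4 : ℝ) ^ (m.val + 1) / √d)‖ = (1 / 4 : ℝ) ^ (m.val + 1) / √d := by
      rw [Real.norm_eq_abs, abs_of_pos (by positivity)]
    rw [h2]
    calc (1 / 4 : ℝ) ^ (m.val + 1) / √d * ‖G (m, z m) - G (m, trunc z' z j m)‖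
        ≤ (1 / 4 : ℝ) ^ (m.val + 1) / √d * (4 * √d) :=
          mul_le_mul_of_nonneg_left h1 (by positivity)
      _ = 4 * (1 / 4 : ℝ) ^ (m.val + 1) := by
          field_simp
  · have h3 : trunc z' z j m = z m := by
      unfold trunc
      rw [if_pos (by omega)]
    rw [h3, sub_self, norm_zero, mul_zero]

lemma measurable_shift (z : Path L N) : Measurable fun G : Code L N d => shift G z := by
  unfold shift
  exact Finset.measurable_sum _ fun m _ =>
    (measurable_pi_apply (m, z m)).const_smul ((1 / 4 : ℝ) ^ (m.val + 1) / √d)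

/-- the event that the path `z` is bad at depth `i` -/
def Bad (U : Submodule ℝ (Eu d)) (z' z : Path L N) (l : Fin L) (i : ℕ) : Set (Code L N d) :=
  {G | dst U (shift G z - shift G z') ≤ 10 / 3 * (1 / 4 : ℝ) ^ (l.val + i + 1)}

lemma measurableSet_Bad (U : Submodule ℝ (Eu d)) (z' z : Path L N) (l : Fin L) (i : ℕ) :
    MeasurableSet (Bad U z' z l i) :=
  measurableSet_le ((continuous_dst U).measurable.comp
    ((measurable_shift z).sub (measurable_shift z'))) measurable_const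

/-- the union of the bad events -/
def BadU (U : Submodule ℝ (Eu d)) (z' : Path L N) (l : Fin L) (i : ℕ) : Set (Code L N d) :=
  ⋃ z ∈ Sel z' l i, Bad U z' z l i

lemma measurableSet_BadU (U : Submodule ℝ (Eu d)) (z' : Path L N) (l : Fin L) (i : ℕ) :
    MeasurableSet (BadU U z' l i) :=
  Finset.measurableSet_biUnion _ fun z _ => measurableSet_Bad U z' z l i

lemma mem_BadU {U : Submodule ℝ (Eu d)} {z' z : Path L N} {l : Fin L} {i : ℕ} {G : Code L N d}
    (hd : 1 ≤ d) (hG : ∀ i, ‖G i‖ ≤ 2 * √d) (hz : z ∈ Lev z' l)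
    (hy : dst U (shift G z - shift G z') * 4 ^ (l.val + 1) / 2 ≤ (1 / 4 : ℝ) ^ i) :
    G ∈ BadU U z' l i := by
  unfold BadU
  rw [Set.mem_iUnion₂]
  refine ⟨trunc z' z (l.val + i), trunc_mem_Sel hz i, ?_⟩
  unfold Bad
  rw [Set.mem_ofPred_eq]
  have h1 : shift G (trunc z' z (l.val + i)) - shift G z' =
      (shift G z - shift G z') + -(shift G z - shift G (trunc z' z (l.val + i))) := by abel
  rw [h1]
  refine (dst_add_le _ _ _).trans ?_
  rw [norm_neg]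
  have h2 := norm_tail_le hd hG z' z (l.val + i)
  have h3 : dst U (shift G z - shift G z') ≤ 2 * (1 / 4 : ℝ) ^ (l.val + i + 1) := by
    have h4 : (1 / 4 : ℝ) ^ (l.val + i + 1) = (1 / 4 : ℝ) ^ i * (1 / 4) ^ (l.val + 1) := by ring
    have h5 : (4 : ℝ) ^ (l.val + 1) * (1 / 4) ^ (l.val + 1) = 1 := by
      rw [← mul_pow]
      norm_num
    rw [h4]
    calc dst U (shift G z - shift G z')
        = 2 * (dst U (shift G z - shift G z') * 4 ^ (l.val + 1) / 2) *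
          (1 / 4) ^ (l.val + 1) := by
          rw [show 2 * (dst U (shift G z - shift G z') * 4 ^ (l.val + 1) / 2) *
            (1 / 4) ^ (l.val + 1) = dst U (shift G z - shift G z') *
            ((4 : ℝ) ^ (l.val + 1) * (1 / 4) ^ (l.val + 1)) by ring, h5, mul_one]
      _ ≤ 2 * ((1 / 4 : ℝ) ^ i) * (1 / 4) ^ (l.val + 1) := by gcongr
      _ = _ := by ring
  linarith

end Paths

/-! ### Probability of the bad events -/

lemma exp_one_lt : Real.exp 1 < 2.7182818286 := Real.exp_one_lt_d9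

lemma numeric_base {q d N' : ℕ} (hqd : 4 * q ≤ d) (hd : 1 ≤ d) (h1 : d - q ≤ N') (i : ℕ) :
    Real.exp 1 * (10 / 3 * √d * (1 / 4 : ℝ) ^ i) ^ 2 / N' ≤ (6.41 * (1 / 4 : ℝ) ^ i) ^ 2 := by
  have hN : (3 / 4 : ℝ) * d ≤ N' := by
    have h2 : 3 * d ≤ 4 * N' := by omega
    have h3 : (3 : ℝ) * d ≤ 4 * N' := by exact_mod_cast h2
    linarith
  have hd0 : (0 : ℝ) < d := by exact_mod_cast hd
  have hN0 : (0 : ℝ) < N' := lt_of_lt_of_le (by positivity) hN
  rw [div_le_iff₀ hN0]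
  have h4 : (10 / 3 * √d * (1 / 4 : ℝ) ^ i) ^ 2 = 100 / 9 * d * ((1 / 4 : ℝ) ^ i) ^ 2 := by
    rw [mul_pow, mul_pow, Real.sq_sqrt hd0.le]
    ring
  rw [h4]
  have h5 : 0 ≤ ((1 / 4 : ℝ) ^ i) ^ 2 := by positivity
  have h6 := exp_one_lt
  have h7 : Real.exp 1 * (100 / 9 * d) ≤ 6.41 ^ 2 * N' := by
    calc Real.exp 1 * (100 / 9 * d) ≤ 2.7182818286 * (100 / 9 * d) := by gcongr
      _ ≤ 6.41 ^ 2 * (3 / 4 * d) := by nlinarith
      _ ≤ 6.41 ^ 2 * N' := by gcongr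
  calc Real.exp 1 * (100 / 9 * d * ((1 / 4 : ℝ) ^ i) ^ 2)
      = (Real.exp 1 * (100 / 9 * d)) * ((1 / 4 : ℝ) ^ i) ^ 2 := by ring
    _ ≤ (6.41 ^ 2 * N') * ((1 / 4 : ℝ) ^ i) ^ 2 := mul_le_mul_of_nonneg_right h7 h5
    _ = _ := by ring

lemma numeric_pow {q d N' : ℕ} (hqd : 4 * q ≤ d) (hd : 1 ≤ d) (h1 : d - q ≤ N') (h2 : N' ≤ d)
    (i : ℕ) :
    (Real.exp 1 * (10 / 3 * √d * (1 / 4 : ℝ) ^ i) ^ 2 / N') ^ ((N' : ℝ) / 2) ≤
      6.41 ^ d * ((1 / 4 : ℝ) ^ i) ^ (d - q) := by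
  have h3 := numeric_base hqd hd h1 i
  have h4 : (0 : ℝ) ≤ Real.exp 1 * (10 / 3 * √d * (1 / 4 : ℝ) ^ i) ^ 2 / N' := by positivity
  have h5 : (0 : ℝ) ≤ 6.41 * (1 / 4 : ℝ) ^ i := by positivity
  calc (Real.exp 1 * (10 / 3 * √d * (1 / 4 : ℝ) ^ i) ^ 2 / N') ^ ((N' : ℝ) / 2)
      ≤ ((6.41 * (1 / 4 : ℝ) ^ i) ^ 2) ^ ((N' : ℝ) / 2) :=
        Real.rpow_le_rpow h4 h3 (by positivity)
    _ = (6.41 * (1 / 4 : ℝ) ^ i) ^ N' := by
        have e : ((2 : ℕ) : ℝ) * ((N' : ℝ) / 2) = (N' : ℝ) := by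
          push_cast
          ring
        rw [← Real.rpow_natCast (6.41 * (1 / 4 : ℝ) ^ i) 2, ← Real.rpow_mul h5, e,
          Real.rpow_natCast]
    _ = 6.41 ^ N' * ((1 / 4 : ℝ) ^ i) ^ N' := mul_pow _ _ _
    _ ≤ 6.41 ^ d * ((1 / 4 : ℝ) ^ i) ^ (d - q) := by
        have h6 : ((1 / 4 : ℝ) ^ i) ^ N' ≤ ((1 / 4 : ℝ) ^ i) ^ (d - q) :=
          pow_le_pow_of_le_one (by positivity)
            (pow_le_one₀ (by norm_num) (by norm_num)) h1
        have h7 : (6.41 : ℝ) ^ N' ≤ 6.41 ^ d := pow_le_pow_right₀ (by norm_num) h2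
        gcongr

lemma measure_Bad {q L N d : ℕ} (hqd : 4 * q ≤ d) (hq : 1 ≤ q) {z' z : Path L N} {l : Fin L}
    (hz : z ∈ Lev z' l) (U : Submodule ℝ (Eu d)) (hU : Module.finrank ℝ U ≤ q) (i : ℕ) :
    codeM L N d (Bad U z' z l i) ≤
      2 * ENNReal.ofReal (6.41 ^ d * ((1 / 4 : ℝ) ^ i) ^ (d - q)) := by
  have hd : 1 ≤ d := by omega
  have hsum : Module.finrank ℝ U + Module.finrank ℝ Uᗮ = d := by
    have := Submodule.finrank_add_finrank_orthogonal U
    rwa [finrank_euclideanSpace_fin] at this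
  have hsd : (0 : ℝ) < √d := Real.sqrt_pos.mpr (by exact_mod_cast hd)
  have h1 := one_path hd hz U (by omega) (τ := 10 / 3 * √d * (1 / 4 : ℝ) ^ i) (by positivity)
  have h2 : (1 / 4 : ℝ) ^ (l.val + 1) / √d * (10 / 3 * √d * (1 / 4 : ℝ) ^ i) =
      10 / 3 * (1 / 4 : ℝ) ^ (l.val + i + 1) := by
    have : (1 / 4 : ℝ) ^ (l.val + i + 1) = (1 / 4 : ℝ) ^ (l.val + 1) * (1 / 4) ^ i := by ring
    rw [this]
    field_simp
  rw [h2] at h1
  refine h1.trans ?_
  gcongr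
  exact numeric_pow hqd hd (by omega) (by omega) i

lemma measure_BadU {q L d : ℕ} (hqd : 4 * q ≤ d) (hq : 1 ≤ q) (z' : Path L (2 ^ q)) (l : Fin L)
    (U : Submodule ℝ (Eu d)) (hU : Module.finrank ℝ U ≤ q) (i : ℕ) :
    (4 : ℝ≥0∞) ^ ((i + 1) * q) * codeM L (2 ^ q) d (BadU U z' l i) ≤
      ENNReal.ofReal (2 * 6.41 ^ d * 8 ^ q * (1 / 8) ^ i) := by
  have h1 : codeM L (2 ^ q) d (BadU U z' l i) ≤
      ((2 ^ q : ℕ) ^ (i + 1) : ℕ) * (2 * ENNReal.ofReal (6.41 ^ d * ((1 / 4 : ℝ) ^ i) ^ (d - q))) := by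
    unfold BadU
    refine (measure_biUnion_finset_le _ _).trans ?_
    refine (Finset.sum_le_card_nsmul _ _
      (2 * ENNReal.ofReal (6.41 ^ d * ((1 / 4 : ℝ) ^ i) ^ (d - q))) fun z hz => ?_).trans ?_
    · exact measure_Bad hqd hq (Finset.mem_filter.mp hz).1 U hU i
    · rw [nsmul_eq_mul]
      gcongr
      exact card_Sel z' l i
  refine (mul_le_mul_right h1 _).trans ?_
  have e1 : (4 : ℝ≥0∞) ^ ((i + 1) * q) = ENNReal.ofReal (4 ^ ((i + 1) * q)) := by
    rw [ENNReal.ofReal_pow (by norm_num)]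
    norm_num
  have e2 : (((2 ^ q : ℕ) ^ (i + 1) : ℕ) : ℝ≥0∞) = ENNReal.ofReal (((2 : ℝ) ^ q) ^ (i + 1)) := by
    rw [ENNReal.ofReal_pow (by positivity), ENNReal.ofReal_pow (by norm_num)]
    push_cast
    norm_num
  have e3 : (2 : ℝ≥0∞) = ENNReal.ofReal 2 := by norm_num
  rw [e1, e2, e3, ← ENNReal.ofReal_mul (by norm_num), ← ENNReal.ofReal_mul (by positivity),
    ← ENNReal.ofReal_mul (by positivity)]
  refine ENNReal.ofReal_le_ofReal ?_
  have h2 : ((1 / 4 : ℝ) ^ i) ^ (d - q) ≤ ((1 / 4 : ℝ) ^ i) ^ (3 * q) :=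
    pow_le_pow_of_le_one (by positivity) (pow_le_one₀ (by norm_num) (by norm_num)) (by omega)
  have h3 : (4 : ℝ) ^ ((i + 1) * q) * (((2 : ℝ) ^ q) ^ (i + 1) * (2 * (6.41 ^ d *
      ((1 / 4 : ℝ) ^ i) ^ (3 * q)))) = 2 * 6.41 ^ d * 8 ^ q * ((1 / 8) ^ i) ^ q := by
    have a1 : (4 : ℝ) ^ ((i + 1) * q) = (4 ^ q) ^ i * 4 ^ q := by
      rw [add_mul, one_mul, pow_add, mul_comm i q, pow_mul]
    have a2 : ((2 : ℝ) ^ q) ^ (i + 1) = (2 ^ q) ^ i * 2 ^ q := pow_succ _ _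
    have a3 : ((1 / 4 : ℝ) ^ i) ^ (3 * q) = (((1 / 4 : ℝ) ^ 3) ^ q) ^ i := by
      rw [← pow_mul, ← pow_mul, ← pow_mul]
      congr 1
      ring
    have a4 : ((1 / 8 : ℝ) ^ i) ^ q = ((1 / 8 : ℝ) ^ q) ^ i := by
      rw [← pow_mul, ← pow_mul, mul_comm]
    have a5 : (8 : ℝ) ^ q = 4 ^ q * 2 ^ q := by
      rw [← mul_pow]
      norm_num
    have a6 : ((1 / 8 : ℝ) ^ q) = 4 ^ q * 2 ^ q * ((1 / 4 : ℝ) ^ 3) ^ q := by
      rw [← mul_pow, ← mul_pow]
      norm_num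
    rw [a1, a2, a3, a4, a5, a6]
    ring
  have h4 : ((1 / 8 : ℝ) ^ i) ^ q ≤ (1 / 8) ^ i :=
    pow_le_of_le_one (by positivity) (pow_le_one₀ (by norm_num) (by norm_num)) (by omega)
  calc (4 : ℝ) ^ ((i + 1) * q) * (((2 : ℝ) ^ q) ^ (i + 1) * (2 * (6.41 ^ d *
        ((1 / 4 : ℝ) ^ i) ^ (d - q))))
      ≤ (4 : ℝ) ^ ((i + 1) * q) * (((2 : ℝ) ^ q) ^ (i + 1) * (2 * (6.41 ^ d *
        ((1 / 4 : ℝ) ^ i) ^ (3 * q)))) := by gcongr
    _ = 2 * 6.41 ^ d * 8 ^ q * ((1 / 8) ^ i) ^ q := h3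
    _ ≤ _ := by gcongr

/-- the final numerical estimate -/
lemma final_numeric {q d : ℕ} (hqd : 4 * q ≤ d) (hq : 1 ≤ q) :
    1 + 2 * 6.41 ^ d * 8 ^ q * (8 / 7) ≤ Real.exp (4 * d) := by
  have h1 : (8 : ℝ) ^ q ≤ 1.7 ^ d := by
    calc (8 : ℝ) ^ q ≤ (1.7 ^ 4) ^ q := by gcongr; norm_num
      _ = 1.7 ^ (4 * q) := by rw [pow_mul]
      _ ≤ 1.7 ^ d := pow_le_pow_right₀ (by norm_num) hqd
  have h2 : (5 : ℝ) ≤ 4 ^ d := by
    calc (5 : ℝ) ≤ 4 ^ 4 := by norm_num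
      _ ≤ 4 ^ d := pow_le_pow_right₀ (by norm_num) (by omega)
  have h3 : (1 : ℝ) ≤ 10.897 ^ d := one_le_pow₀ (by norm_num)
  have h4 : (6.41 : ℝ) ^ d * 1.7 ^ d = 10.897 ^ d := by
    rw [← mul_pow]
    norm_num
  have h5 : (4 : ℝ) ^ d * 10.897 ^ d = 43.588 ^ d := by
    rw [← mul_pow]
    norm_num
  have h6 : (43.588 : ℝ) ≤ Real.exp 4 := by
    have h7 : Real.exp 4 = Real.exp 1 ^ 4 := by
      rw [← Real.exp_nat_mul]
      norm_num
    rw [h7]
    have h8 : (2.7 : ℝ) ≤ Real.exp 1 := by linarith [Real.exp_one_gt_d9]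
    calc (43.588 : ℝ) ≤ 2.7 ^ 4 := by norm_num
      _ ≤ _ := by gcongr
  calc 1 + 2 * 6.41 ^ d * 8 ^ q * (8 / 7)
      ≤ 1 + 2 * 6.41 ^ d * 1.7 ^ d * (8 / 7) := by gcongr
    _ = 1 + 16 / 7 * ((6.41 : ℝ) ^ d * 1.7 ^ d) := by ring
    _ = 1 + 16 / 7 * 10.897 ^ d := by rw [h4]
    _ ≤ 5 * 10.897 ^ d := by linarith
    _ ≤ 4 ^ d * 10.897 ^ d := by gcongr
    _ = 43.588 ^ d := h5
    _ ≤ Real.exp 4 ^ d := by gcongr
    _ = Real.exp (4 * d) := by
        rw [← Real.exp_nat_mul]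
        congr 1
        ring

/-- pointwise bound of the integrand -/
lemma integrand_le {q d L : ℕ} (hd : 1 ≤ d) (z' : Path L (2 ^ q)) (l : Fin L)
    {t' : Eu d} (ht' : t' ∈ ann d) (W : Submodule ℝ (Eu d))
    (ω : Path L (2 ^ q) → Code L (2 ^ q) d → ℝ≥0∞)
    (hsum : ∀ G, ∑ z, ω z G ≤ 1) {G : Code L (2 ^ q) d} (hG : ∀ i, ‖G i‖ ≤ 2 * √d)
    [DecidablePred fun t : Eu d => t ∈ ann d] :
    ∑ z ∈ Lev z' l, (if t' + (shift G z - shift G z') ∈ ann d then
        ω z G * (ENNReal.ofReal (dst W (Dz z' l t' G z)))⁻¹ ^ q else 0) ≤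
      1 + ∑' i : ℕ, (4 : ℝ≥0∞) ^ ((i + 1) * q) *
        (BadU (W ⊔ Submodule.span ℝ {t'}) z' l i).indicator 1 G := by
  set U := W ⊔ Submodule.span ℝ {t'} with hU
  set T : ℝ≥0∞ := 1 + ∑' i : ℕ, (4 : ℝ≥0∞) ^ ((i + 1) * q) * (BadU U z' l i).indicator 1 G with hT
  have key : ∀ z ∈ Lev z' l, (if t' + (shift G z - shift G z') ∈ ann d then
        ω z G * (ENNReal.ofReal (dst W (Dz z' l t' G z)))⁻¹ ^ q else 0) ≤ ω z G * T := by
    intro z hz
    split_ifs with h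
    · refine mul_le_mul_right ?_ _
      set y := dst U (shift G z - shift G z') * 4 ^ (l.val + 1) / 2 with hy
      have hy0 : 0 ≤ y := by
        rw [hy]
        have : 0 ≤ dst U (shift G z - shift G z') := norm_nonneg _
        positivity
      have h1 : (ENNReal.ofReal (dst W (Dz z' l t' G z)))⁻¹ ≤ (ENNReal.ofReal y)⁻¹ :=
        ENNReal.inv_le_inv.mpr (ENNReal.ofReal_le_ofReal (dst_Dz_ge ht' h W))
      refine (pow_le_pow_left' h1 q).trans ((pointwise hy0).trans ?_)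
      rw [hT]
      refine add_le_add_right (ENNReal.tsum_le_tsum fun i => ?_) _
      split_ifs with hi
      · rw [Set.indicator_of_mem (mem_BadU hd hG hz hi)]
        simp
      · exact zero_le
    · exact zero_le
  calc _ ≤ ∑ z ∈ Lev z' l, ω z G * T := Finset.sum_le_sum key
    _ = (∑ z ∈ Lev z' l, ω z G) * T := by rw [Finset.sum_mul]
    _ ≤ 1 * T := by
        gcongr
        exact (Finset.sum_le_sum_of_subset (Finset.subset_univ _)).trans (hsum G)
    _ = T := one_mul _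

end ND

open Classical in
theorem nd_bound {q d L : ℕ} (hq : 1 ≤ q) (hqd : 4 * q ≤ d) (z' : Path L (2 ^ q)) (l : Fin L)
    {t' : Eu d} (ht' : t' ∈ ann d) (W : Submodule ℝ (Eu d)) (hW : Module.finrank ℝ W < q)
    (ω : Path L (2 ^ q) → Code L (2 ^ q) d → ℝ≥0∞) (hω : ∀ z, Measurable (ω z))
    (hsum : ∀ G, ∑ z, ω z G ≤ 1) :
    ∫⁻ G, ∑ z ∈ Lev z' l, (if t' + (shift G z - shift G z') ∈ ann d then
        ω z G * (ENNReal.ofReal (dst W (Dz z' l t' G z)))⁻¹ ^ q else 0) ∂(codeM L (2 ^ q) d) ≤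
      ENNReal.ofReal (Real.exp (4 * d)) := by
  have hd : 1 ≤ d := by omega
  set U := W ⊔ Submodule.span ℝ {t'} with hU
  have hUq : Module.finrank ℝ U ≤ q := by
    have h1 := Submodule.finrank_add_le_finrank_add_finrank W (Submodule.span ℝ {t'})
    have h2 : Module.finrank ℝ (Submodule.span ℝ {t'}) ≤ 1 := by
      have := finrank_span_le_card (R := ℝ) ({t'} : Set (Eu d))
      simpa using this
    rw [hU]
    omega
  calc _ ≤ ∫⁻ G, (1 + ∑' i : ℕ, (4 : ℝ≥0∞) ^ ((i + 1) * q) *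
        (ND.BadU U z' l i).indicator 1 G) ∂(codeM L (2 ^ q) d) := by
        refine lintegral_mono_ae ?_
        filter_upwards [code_ae L (2 ^ q) d] with G hG
        exact ND.integrand_le hd z' l ht' W ω hsum hG
    _ = 1 + ∑' i : ℕ, (4 : ℝ≥0∞) ^ ((i + 1) * q) * codeM L (2 ^ q) d (ND.BadU U z' l i) := by
        have hm : ∀ i : ℕ, Measurable fun G : Code L (2 ^ q) d => (4 : ℝ≥0∞) ^ ((i + 1) * q) *
            (ND.BadU U z' l i).indicator 1 G := fun i =>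
          (measurable_one.indicator (ND.measurableSet_BadU U z' l i)).const_mul _
        rw [lintegral_add_left measurable_const, lintegral_one, measure_univ,
          lintegral_tsum fun i => (hm i).aemeasurable]
        congr 1
        refine tsum_congr fun i => ?_
        rw [lintegral_const_mul _ (measurable_one.indicator (ND.measurableSet_BadU U z' l i)),
          lintegral_indicator_one (ND.measurableSet_BadU U z' l i)]
    _ ≤ 1 + ∑' i : ℕ, ENNReal.ofReal (2 * 6.41 ^ d * 8 ^ q * (1 / 8) ^ i) := by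
        refine add_le_add_right (ENNReal.tsum_le_tsum fun i => ?_) _
        exact ND.measure_BadU hqd hq z' l U hUq i
    _ = ENNReal.ofReal (1 + 2 * 6.41 ^ d * 8 ^ q * (8 / 7)) := by
        have hs : Summable fun i : ℕ => 2 * 6.41 ^ d * 8 ^ q * (1 / 8 : ℝ) ^ i :=
          (summable_geometric_of_lt_one (by norm_num) (by norm_num)).mul_left _
        rw [← ENNReal.ofReal_tsum_of_nonneg (fun i => by positivity) hs, tsum_mul_left,
          tsum_geometric_of_lt_one (by norm_num) (by norm_num), ENNReal.ofReal_add one_pos.le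
            (by positivity), ENNReal.ofReal_one]
        norm_num
    _ ≤ ENNReal.ofReal (Real.exp (4 * d)) := ENNReal.ofReal_le_ofReal (ND.final_numeric hqd hq)

end P309
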