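import Vale.Agent.P309.Defs
import Vale.Agent.P309.ProbeGeom
import Vale.Agent.P309.ProbeBasic
import Vale.Agent.P309.ND
import Vale.Agent.P309.KeyIneq

/-!
# P309 : the bound at one level
-/

namespace P309

open MeasureTheory ProbabilityTheory
open scoped ENNReal RealInnerProductSpace

theorem measurable_lab {V : Type*} [NormedAddCommGroup V] [InnerProductSpace ℝ V]
    [FiniteDimensional ℝ V] [MeasurableSpace V] [BorelSpace V] {n : ℕ} (s : V) :
    Measurable (fun X : Fin n → V => lab X s) := by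
  unfold lab
  fun_prop

theorem measurable_Dz {L N d : ℕ} (z' : Path L N) (l : Fin L) (t' : Eu d) (z : Path L N) :
    Measurable (fun G : Code L N d => Dz z' l t' G z) := by
  unfold Dz
  have h1 := (continuous_shift (d := d) z).measurable
  have h2 := (continuous_shift (d := d) z').measurable
  have h3 : Measurable (fun G : Code L N d => sg (t' + (shift G z - shift G z'))) :=
    measurable_sg.comp (measurable_const.add (h1.sub h2))
  have h4 := h3.sub (measurable_const (a := sg t'))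
  exact h4.const_smul (c := ((1 / 4 : ℝ) ^ (l.val + 1))⁻¹)

theorem lab_add {V : Type*} [NormedAddCommGroup V] [InnerProductSpace ℝ V] {n : ℕ}
    (X : Fin n → V) (s t : V) : lab X (s + t) = lab X s + lab X t := by
  funext i; simp [lab, inner_add_right]

theorem lab_smul {V : Type*} [NormedAddCommGroup V] [InnerProductSpace ℝ V] {n : ℕ}
    (X : Fin n → V) (c : ℝ) (t : V) : lab X (c • t) = c • lab X t := by
  funext i; simp [lab, inner_smul_right]

instance {V : Type*} [NormedAddCommGroup V] [InnerProductSpace ℝ V]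
    [FiniteDimensional ℝ V] [MeasurableSpace V] [BorelSpace V] {n : ℕ} :
    IsProbabilityMeasure (rows V n) := by
  unfold rows; infer_instance

instance {n : ℕ} : IsProbabilityMeasure (glab n) := by
  unfold glab; infer_instance

theorem measurable_joint {V : Type*} [NormedAddCommGroup V] [InnerProductSpace ℝ V]
    [FiniteDimensional ℝ V] [MeasurableSpace V] [BorelSpace V] {n : ℕ} :
    Measurable (fun p : (Fin n → V) × V => (p.1, lab p.1 p.2)) := by
  unfold lab
  refine measurable_fst.prodMk ?_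
  rw [measurable_pi_iff]
  intro i
  exact ((measurable_pi_apply i).comp measurable_fst).inner measurable_snd

theorem level_incl {q d L N : ℕ} {z' z : Path L N} {l : Fin L} (hz : z ∈ Lev z' l)
    {t' : Eu d} (ht' : t' ∈ ann d) {H : Set ((Fin q → Eu d) × (Fin q → ℝ))}
    (hgood : ∀ p ∈ H, p.1 ∈ goodX q (Eu d)) {G : Code L N d} (hG : ∀ i, ‖G i‖ ≤ 2 * √d)
    (h : t' + (shift G z - shift G z') ∈ ann d) {X : Fin q → Eu d}
    (hX : (X, lab X (sg (t' + (shift G z - shift G z')))) ∈ H) :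
    ∑ i, (lab X (Dz z' l t' G z) i) ^ 2 ≤ 7744 * d ∧
      (X, lab X (sg t') + ((1 / 4 : ℝ) ^ (l.val + 1)) • lab X (Dz z' l t' G z)) ∈ H := by
  have hrpos : 0 < (1 / 4 : ℝ) ^ (l.val + 1) := by positivity
  have hD := norm_Dz_le hG hz ht' h
  have hsum2 : sg (t' + (shift G z - shift G z')) =
      sg t' + ((1 / 4 : ℝ) ^ (l.val + 1)) • Dz z' l t' G z := by
    unfold Dz
    rw [smul_smul, mul_inv_cancel₀ hrpos.ne', one_smul]
    abel
  refine ⟨?_, ?_⟩
  · have h2 := hgood _ hX
    simp only at h2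
    have h3 : ∑ i, ⟪X i, Dz z' l t' G z⟫ ^ 2 ≤
        64 * (Module.finrank ℝ (Eu d) : ℝ) * ‖Dz z' l t' G z‖ ^ 2 := h2 (Dz z' l t' G z)
    have hfr : Module.finrank ℝ (Eu d) = d := by simp
    rw [hfr] at h3
    have h4 : ‖Dz z' l t' G z‖ ^ 2 ≤ 121 := by
      nlinarith [norm_nonneg (Dz z' l t' G z)]
    have hd0 : (0 : ℝ) ≤ d := Nat.cast_nonneg d
    calc ∑ i, (lab X (Dz z' l t' G z) i) ^ 2 ≤ 64 * (d : ℝ) * ‖Dz z' l t' G z‖ ^ 2 := h3
      _ ≤ 64 * (d : ℝ) * 121 := by gcongr
      _ = 7744 * d := by ring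
  · rw [← lab_smul, ← lab_add, ← hsum2]
    exact hX

theorem level_const {q d : ℕ} (hqd : 4 * q ≤ d) (hd1 : 4 ≤ d) {R : ℝ} (hR2 : R ^ 2 = 7744 * d)
    {θ : ℝ} (hth : 0 ≤ θ) (hth1 : θ ≤ 1) :
    ((2 : ℝ≥0∞) ^ q * ENNReal.ofReal (Real.exp ((R ^ 2 + 1) / 2)) *
      ENNReal.ofReal (Real.exp (4 * d))) ^ θ ≤ ENNReal.ofReal (Real.exp (4000 * d)) := by
  have hd1' : (4 : ℝ) ≤ d := by exact_mod_cast hd1
  have hE : (2 : ℝ≥0∞) ^ q * ENNReal.ofReal (Real.exp ((R ^ 2 + 1) / 2)) *
      ENNReal.ofReal (Real.exp (4 * d)) =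
      ENNReal.ofReal (2 ^ q * Real.exp ((R ^ 2 + 1) / 2) * Real.exp (4 * d)) := by
    rw [ENNReal.ofReal_mul (by positivity), ENNReal.ofReal_mul (by positivity),
      ENNReal.ofReal_pow (by norm_num)]
    norm_num
  rw [hE]
  have h1 : (2 : ℝ) ^ q * Real.exp ((R ^ 2 + 1) / 2) * Real.exp (4 * d) ≤
      Real.exp (4000 * d) := by
    have h2 : (2 : ℝ) ^ q ≤ Real.exp d := by
      have h3 : (2 : ℝ) ≤ Real.exp 1 := by
        have := Real.add_one_le_exp (1 : ℝ); linarith
      calc (2 : ℝ) ^ q ≤ Real.exp 1 ^ q := pow_le_pow_left₀ (by norm_num) h3 q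
        _ = Real.exp q := by rw [← Real.exp_nat_mul]; simp
        _ ≤ Real.exp d := by
          apply Real.exp_le_exp.mpr
          exact_mod_cast (by omega : q ≤ d)
    calc (2 : ℝ) ^ q * Real.exp ((R ^ 2 + 1) / 2) * Real.exp (4 * d)
        ≤ Real.exp d * Real.exp ((R ^ 2 + 1) / 2) * Real.exp (4 * d) := by
          gcongr
      _ = Real.exp (d + (R ^ 2 + 1) / 2 + 4 * d) := by
          rw [Real.exp_add, Real.exp_add]
      _ ≤ Real.exp (4000 * d) := by
          apply Real.exp_le_exp.mpr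
          rw [hR2]
          nlinarith
  have h0 : (1 : ℝ≥0∞) ≤ ENNReal.ofReal (Real.exp (4000 * d)) := by
    rw [← ENNReal.ofReal_one]
    exact ENNReal.ofReal_le_ofReal (Real.one_le_exp (by positivity))
  calc (ENNReal.ofReal (2 ^ q * Real.exp ((R ^ 2 + 1) / 2) * Real.exp (4 * d))) ^ θ
      ≤ (ENNReal.ofReal (Real.exp (4000 * d))) ^ θ :=
        ENNReal.rpow_le_rpow (ENNReal.ofReal_le_ofReal h1) hth
    _ ≤ (ENNReal.ofReal (Real.exp (4000 * d))) ^ (1 : ℝ) :=
        ENNReal.rpow_le_rpow_of_exponent_le h0 hth1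
    _ = ENNReal.ofReal (Real.exp (4000 * d)) := ENNReal.rpow_one _

open Classical in
theorem level_bound {q d L : ℕ} (hq : 2 ≤ q) (hqd : 4 * q ≤ d) (z' : Path L (2 ^ q)) (l : Fin L)
    {t' : Eu d} (ht' : t' ∈ ann d) {H : Set ((Fin q → Eu d) × (Fin q → ℝ))}
    (hH : MeasurableSet H) (hgood : ∀ p ∈ H, p.1 ∈ goodX q (Eu d))
    (ω : Path L (2 ^ q) → Code L (2 ^ q) d → ℝ≥0∞) (hω : ∀ z, Measurable (ω z))
    (hsum : ∀ G, ∑ z, ω z G ≤ 1) :
    ∫⁻ G, ∑ z ∈ Lev z' l, (if t' + (shift G z - shift G z') ∈ ann d then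
        ω z G * ENNReal.ofReal (msg H (t' + (shift G z - shift G z'))) else 0)
        ∂(codeM L (2 ^ q) d) ≤
      ENNReal.ofReal (Real.exp (4000 * d)) * (ENNReal.ofReal (refP l t' H)) ^ (1 - (q : ℝ)⁻¹) := by
  set r : ℝ := (1 / 4 : ℝ) ^ (l.val + 1) with hr
  have hrpos : 0 < r := by positivity
  have hd1 : (4 : ℕ) ≤ d := by omega
  have hd1' : (4 : ℝ) ≤ d := by exact_mod_cast hd1
  set R : ℝ := 88 * √d with hR
  have hR2 : R ^ 2 = 7744 * d := by
    rw [hR, mul_pow, Real.sq_sqrt (by positivity)]; norm_num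
  -- density
  set dens : Path L (2 ^ q) → Code L (2 ^ q) d → ℝ≥0∞ := fun z G =>
    if t' + (shift G z - shift G z') ∈ ann d then ω z G else 0 with hdens
  have hmeasT : ∀ z : Path L (2 ^ q), Measurable
      (fun G : Code L (2 ^ q) d => t' + (shift G z - shift G z')) := fun z =>
    measurable_const.add ((continuous_shift z).measurable.sub (continuous_shift z').measurable)
  have hdm : ∀ z, Measurable (dens z) := by
    intro z
    exact Measurable.ite ((measurableSet_ann d).preimage (hmeasT z)) (hω z) measurable_const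
  set Om : Measure (Eu d) := ∑ z ∈ Lev z' l,
    Measure.map (fun G => Dz z' l t' G z) ((codeM L (2 ^ q) d).withDensity (dens z)) with hOm
  have hint : ∀ f : Eu d → ℝ≥0∞, Measurable f → ∫⁻ D, f D ∂Om =
      ∫⁻ G, ∑ z ∈ Lev z' l, dens z G * f (Dz z' l t' G z) ∂(codeM L (2 ^ q) d) := by
    intro f hf
    rw [hOm, lintegral_finsetSum_measure, lintegral_finsetSum]
    · refine Finset.sum_congr rfl fun z _ => ?_
      rw [lintegral_map hf (measurable_Dz z' l t' z),
        lintegral_withDensity_eq_lintegral_mul _ (hdm z)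
          (g := fun G => f (Dz z' l t' G z)) (hf.comp (measurable_Dz z' l t' z))]
      rfl
    · intro z _
      exact (hdm z).mul (hf.comp (measurable_Dz z' l t' z))
  have hdle : ∀ G, ∑ z ∈ Lev z' l, dens z G ≤ 1 := by
    intro G
    calc ∑ z ∈ Lev z' l, dens z G ≤ ∑ z ∈ Lev z' l, ω z G := by
          refine Finset.sum_le_sum fun z _ => ?_
          simp only [hdens]
          split_ifs
          · exact le_rfl
          · exact bot_le
      _ ≤ ∑ z, ω z G := Finset.sum_le_univ_sum_of_nonneg fun _ => bot_le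
      _ ≤ 1 := hsum G
  have hmass : Om Set.univ ≤ 1 := by
    have h := hint (fun _ => 1) measurable_const
    rw [lintegral_one] at h
    rw [h]
    calc ∫⁻ G, ∑ z ∈ Lev z' l, dens z G * 1 ∂(codeM L (2 ^ q) d)
        ≤ ∫⁻ G, 1 ∂(codeM L (2 ^ q) d) := by
          refine lintegral_mono fun G => ?_
          simpa using hdle G
      _ = 1 := by simp
  have hdstm : ∀ W : Submodule ℝ (Eu d), Measurable (fun D : Eu d =>
      (ENNReal.ofReal (dst W D))⁻¹ ^ q) := by
    intro W
    have : Measurable (fun D : Eu d => dst W D) := by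
      unfold dst
      exact (Wᗮ.starProjection.continuous.norm).measurable
    exact (this.ennreal_ofReal.inv).pow_const q
  have hND : ∀ W : Submodule ℝ (Eu d), Module.finrank ℝ W < q →
      ∫⁻ D, (ENNReal.ofReal (dst W D))⁻¹ ^ q ∂Om ≤ ENNReal.ofReal (Real.exp (4 * d)) := by
    intro W hW
    rw [hint _ (hdstm W)]
    refine le_trans (lintegral_mono fun G => ?_)
      (nd_bound (by omega) hqd z' l ht' W hW ω hω hsum)
    refine Finset.sum_le_sum fun z _ => ?_
    simp only [hdens]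
    split_ifs
    · exact le_rfl
    · simp
  -- the acceptance set of the normalised problem
  set H' : Set ((Fin q → Eu d) × (Fin q → ℝ)) :=
    {p | ∑ i, p.2 i ^ 2 ≤ R ^ 2 ∧ (p.1, lab p.1 (sg t') + r • p.2) ∈ H} with hH'
  have hmap : Measurable (fun p : (Fin q → Eu d) × (Fin q → ℝ) =>
      (p.1, lab p.1 (sg t') + r • p.2)) := by
    refine measurable_fst.prodMk ?_
    exact ((measurable_lab (sg t')).comp measurable_fst).add (measurable_snd.const_smul r)
  have hH'm : MeasurableSet H' := by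
    refine MeasurableSet.inter (s₁ := {p : (Fin q → Eu d) × (Fin q → ℝ) |
      ∑ i, p.2 i ^ 2 ≤ R ^ 2}) ?_ (hmap hH)
    refine measurableSet_le ?_ measurable_const
    exact Finset.measurable_sum _ fun i _ =>
      ((measurable_pi_apply i).comp measurable_snd).pow_const 2
  have key := key_ineq hq Om hmass ENNReal.ofReal_ne_top hND (R := R) H' hH'm (fun p hp => hp.1)
  have hmm : Measurable (fun D : Eu d => rows (Eu d) q {X | (X, lab X D) ∈ H'}) := by
    have h1 : Measurable (fun p : Eu d × (Fin q → Eu d) => (p.2, lab p.2 p.1)) :=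
      measurable_joint.comp measurable_swap
    exact measurable_measure_prodMk_left (h1 hH'm)
  rw [hint _ hmm] at key
  have hae : ∀ᵐ G ∂(codeM L (2 ^ q) d),
      (∑ z ∈ Lev z' l, (if t' + (shift G z - shift G z') ∈ ann d then
        ω z G * ENNReal.ofReal (msg H (t' + (shift G z - shift G z'))) else 0)) ≤
      ∑ z ∈ Lev z' l, dens z G * rows (Eu d) q {X | (X, lab X (Dz z' l t' G z)) ∈ H'} := by
    filter_upwards [code_ae L (2 ^ q) d] with G hG
    refine Finset.sum_le_sum fun z hz => ?_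
    simp only [hdens]
    split_ifs with h
    · refine mul_le_mul' le_rfl ?_
      unfold msg
      rw [ofReal_measureReal]
      refine measure_mono fun X hX => ?_
      obtain ⟨h1, h2⟩ := level_incl hz ht' hgood hG h hX
      exact ⟨by rw [hR2]; exact h1, h2⟩
    · simp
  refine (lintegral_mono_ae hae).trans (key.trans ?_)
  have hth : 0 ≤ 1 - (q : ℝ)⁻¹ := by
    have : (q : ℝ)⁻¹ ≤ 1 := inv_le_one_of_one_le₀ (by exact_mod_cast (by omega : 1 ≤ q))
    linarith
  have hth1 : 1 - (q : ℝ)⁻¹ ≤ 1 := by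
    have : 0 ≤ (q : ℝ)⁻¹ := by positivity
    linarith
  rw [ENNReal.mul_rpow_of_nonneg _ _ hth]
  refine mul_le_mul' ?_ (ENNReal.rpow_le_rpow ?_ hth)
  · exact level_const hqd hd1 hR2 hth hth1
  · unfold refP
    rw [ofReal_measureReal]
    exact measure_mono fun p hp => hp.2

end P309
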