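import Vale.Agent.P309.Defs
import Vale.Agent.P309.GoodPart
import Vale.Agent.P309.Ent
import Vale.Agent.P309.EntSum
import Vale.Agent.P309.OpNorm
import Vale.Agent.P309.Level

/-!
# P309 : potential loss over one phase
-/

namespace P309

open MeasureTheory ProbabilityTheory
open scoped ENNReal RealInnerProductSpace

section Basic

variable {L N d : ℕ}

theorem int_T (z : Path L N) {a : Eu d → ℝ} (hai : Integrable a) :
    Integrable (fun p : Code L N d × Eu d => a (p.2 + shift p.1 z))
      ((codeM L N d).prod volume) := by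
  have h1 : Integrable (fun p : Code L N d × Eu d => a p.2) ((codeM L N d).prod volume) :=
    hai.comp_snd _
  exact (shift_mp z).integrable_comp_of_integrable h1

theorem integral_T (z : Path L N) {a : Eu d → ℝ} (ham : Measurable a) :
    ∫ p : Code L N d × Eu d, a (p.2 + shift p.1 z) ∂((codeM L N d).prod volume) = ∫ t, a t := by
  have h1 : ∫ p : Code L N d × Eu d, a (p.2 + shift p.1 z) ∂((codeM L N d).prod volume) =
      ∫ p : Code L N d × Eu d, a p.2 ∂((codeM L N d).prod volume) := by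
    have h2 := (shift_mp (d := d) z).map_eq
    conv_rhs => rw [← h2]
    rw [integral_map (shift_mp z).measurable.aemeasurable]
    exact (ham.comp measurable_snd).aestronglyMeasurable
  rw [h1, integral_fun_snd]
  simp

theorem int_sum {a : Eu d → ℝ} (hai : Integrable a) :
    Integrable (fun p : Code L N d × Eu d => ∑ z : Path L N, a (p.2 + shift p.1 z))
      ((codeM L N d).prod volume) :=
  integrable_finsetSum _ fun z _ => int_T z hai

theorem integral_sum {a : Eu d → ℝ} (hai : Integrable a) (ham : Measurable a) (hN : 0 < N) :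
    ((N : ℝ) ^ L)⁻¹ * ∫ p : Code L N d × Eu d, ∑ z : Path L N, a (p.2 + shift p.1 z)
      ∂((codeM L N d).prod volume) = ∫ t, a t := by
  rw [integral_finsetSum _ fun z _ => int_T z hai]
  simp only [integral_T _ ham]
  rw [Finset.sum_const, Finset.card_univ, Fintype.card_pi_const, Fintype.card_fin, nsmul_eq_mul]
  have : ((N : ℝ) ^ L) ≠ 0 := by positivity
  push_cast
  field_simp

theorem measurable_T (z : Path L N) {a : Eu d → ℝ} (ham : Measurable a) :
    Measurable (fun p : Code L N d × Eu d => a (p.2 + shift p.1 z)) := by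
  refine ham.comp (measurable_snd.add ?_)
  exact (continuous_shift z).measurable.comp measurable_fst

theorem measurable_ent {α : Type*} [MeasurableSpace α] {Z : Type*} [Fintype Z]
    {f : α → Z → ℝ} (hf : ∀ z, Measurable fun x => f x z) : Measurable fun x => ent (f x) := by
  unfold ent
  refine Measurable.sub ?_ ?_
  · exact Finset.measurable_fun_sum _ fun z _ => Real.continuous_negMulLog.measurable.comp (hf z)
  · exact Real.continuous_negMulLog.measurable.comp (Finset.measurable_fun_sum _ fun z _ => hf z)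

theorem int_ent {a : Eu d → ℝ} (ha0 : ∀ t, 0 ≤ a t) (ham : Measurable a) (hai : Integrable a) :
    Integrable (fun p : Code L N d × Eu d => ent (fun z : Path L N => a (p.2 + shift p.1 z)))
      ((codeM L N d).prod volume) := by
  refine Integrable.mono' ((int_sum (L := L) (N := N) hai).mul_const
    (Real.log (Fintype.card (Path L N)))) ?_ ?_
  · exact (measurable_ent fun z => measurable_T z ham).aestronglyMeasurable
  · refine Filter.Eventually.of_forall fun p => ?_
    have h0 := ent_nonneg (α := fun z : Path L N => a (p.2 + shift p.1 z)) fun z => ha0 _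
    rw [Real.norm_of_nonneg h0]
    refine (ent_le fun z => ha0 _).trans ?_
    refine mul_le_mul_of_nonneg_left ?_ (Finset.sum_nonneg fun z _ => ha0 _)
    rcases Nat.eq_zero_or_pos (Finset.univ.filter fun z : Path L N =>
      a (p.2 + shift p.1 z) ≠ 0).card with h | h
    · rw [h, Nat.cast_zero, Real.log_zero]; exact Real.log_natCast_nonneg _
    · apply Real.log_le_log (by exact_mod_cast h)
      exact_mod_cast Finset.card_le_univ _

/-- merging messages does not decrease the potential -/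
theorem merge {U : Type*} [Fintype U] {a : U → Eu d → ℝ}
    (ha0 : ∀ u t, 0 ≤ a u t) (ham : ∀ u, Measurable (a u)) (hai : ∀ u, Integrable (a u)) :
    ∑ u, Pot L N (a u) ≤ Pot L N (fun t => ∑ u, a u t) := by
  unfold Pot
  rw [← Finset.mul_sum]
  refine mul_le_mul_of_nonneg_left ?_ (by positivity)
  rw [← integral_finsetSum _ fun u _ => int_ent (ha0 u) (ham u) (hai u)]
  have h1 : Integrable (fun p : Code L N d × Eu d =>
      ∑ u, ent (fun z : Path L N => a u (p.2 + shift p.1 z))) ((codeM L N d).prod volume) :=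
    integrable_finsetSum _ fun u _ => int_ent (a := a u) (ha0 u) (ham u) (hai u)
  have h2 : Integrable (fun p : Code L N d × Eu d =>
      ent (fun z : Path L N => ∑ u, a u (p.2 + shift p.1 z))) ((codeM L N d).prod volume) :=
    int_ent (a := fun t => ∑ u, a u t) (fun t => Finset.sum_nonneg fun u _ => ha0 u t)
      (Finset.measurable_fun_sum _ fun u _ => ham u) (integrable_finsetSum _ fun u _ => hai u)
  refine integral_mono h1 h2 ?_
  intro p
  exact ent_sum (α := fun u z => a u (p.2 + shift p.1 z)) fun u z => ha0 _ _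

theorem int_mul {a f : Eu d → ℝ} (hai : Integrable a) (hfm : Measurable f)
    (hf0 : ∀ t, 0 ≤ f t) (hf1 : ∀ t, f t ≤ 1) : Integrable (fun t => a t * f t) := by
  refine hai.mul_bdd (c := 1) hfm.aestronglyMeasurable ?_
  exact Filter.Eventually.of_forall fun t => by
    rw [Real.norm_of_nonneg (hf0 t)]; exact hf1 t

theorem int_comb {α : Type*} [MeasurableSpace α] {M : Measure α} {e x y : α → ℝ}
    (he : Integrable e M) (hx : Integrable x M) (hy : Integrable y M) (c k : ℝ) :
    ∫ p, (e p + (x p * c + k * y p)) ∂M = ∫ p, e p ∂M + ((∫ p, x p ∂M) * c + k * ∫ p, y p ∂M) := by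
  have h1 : Integrable (fun p => x p * c + k * y p) M := (hx.mul_const c).add (hy.const_mul k)
  rw [integral_add he h1, integral_add (hx.mul_const c) (hy.const_mul k), integral_mul_const,
    integral_const_mul]

end Basic

theorem crude {q d L : ℕ}
    {a : Eu d → ℝ} (ha0 : ∀ t, 0 ≤ a t) (ham : Measurable a) (hai : Integrable a)
    {U : Type*} [Fintype U] {f : U → Eu d → ℝ} (hf0 : ∀ u t, 0 ≤ f u t)
    (hfm : ∀ u, Measurable (f u)) (hf1 : ∀ t, ∑ u, f u t = 1) :
    Pot L (2 ^ q) a ≤ ∑ u, Pot L (2 ^ q) (fun t => a t * f u t) +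
      (∫ t, a t) * (2 + Real.log (Fintype.card U)) := by
  have hfle : ∀ u t, f u t ≤ 1 := fun u t => by
    rw [← hf1 t]; exact Finset.single_le_sum (fun v _ => hf0 v t) (Finset.mem_univ u)
  have hN : 0 < 2 ^ q := by positivity
  have hm0 : 0 ≤ ∫ t, a t := integral_nonneg ha0
  have hUne : Nonempty U := by
    by_contra h
    rw [not_nonempty_iff] at h
    have := hf1 0
    simp at this
  have hafi : ∀ u, Integrable (fun t => a t * f u t) := fun u =>
    int_mul hai (hfm u) (hf0 u) (hfle u)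
  have hafm : ∀ u, Measurable (fun t => a t * f u t) := fun u => ham.mul (hfm u)
  have haf0 : ∀ u t, 0 ≤ a t * f u t := fun u t => mul_nonneg (ha0 t) (hf0 u t)
  -- general inequality with arbitrary `lam`
  have main : ∀ lam : U → ℝ, (∀ u, 0 < lam u) → Pot L (2 ^ q) a ≤
      ∑ u, Pot L (2 ^ q) (fun t => a t * f u t) +
      ∑ u, ((∫ t, a t * f u t) * (Real.log (lam u) - 1) + (lam u)⁻¹ * ∫ t, a t) := by
    intro lam hlam
    set M := (codeM L (2 ^ q) d).prod (volume : Measure (Eu d)) with hM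
    have hpt : ∀ p : Code L (2 ^ q) d × Eu d,
        ent (fun z : Path L (2 ^ q) => a (p.2 + shift p.1 z)) ≤
        ∑ u, (ent (fun z : Path L (2 ^ q) => a (p.2 + shift p.1 z) * f u (p.2 + shift p.1 z)) +
          ((∑ z : Path L (2 ^ q), a (p.2 + shift p.1 z) * f u (p.2 + shift p.1 z)) *
            (Real.log (lam u) - 1) +
          (lam u)⁻¹ * ∑ z : Path L (2 ^ q), a (p.2 + shift p.1 z))) := by
      intro p
      rw [ent_split (U := U) (α := fun z : Path L (2 ^ q) => a (p.2 + shift p.1 z))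
        (fun z => ha0 _) (f := fun u z => f u (p.2 + shift p.1 z)) (fun u z => hf0 u _)
        (fun z => hf1 _)]
      refine Finset.sum_le_sum fun u _ => ?_
      refine add_le_add le_rfl ?_
      exact loss_crude (fun z => ha0 _) (fun z => hf0 u _) (fun z => hfle u _) (hlam u)
    have hI1 : ∀ u, Integrable (fun p : Code L (2 ^ q) d × Eu d =>
        ent (fun z : Path L (2 ^ q) => a (p.2 + shift p.1 z) * f u (p.2 + shift p.1 z))) M :=
      fun u => int_ent (a := fun t => a t * f u t) (haf0 u) (hafm u) (hafi u)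
    have hI2 : ∀ u, Integrable (fun p : Code L (2 ^ q) d × Eu d =>
        (∑ z : Path L (2 ^ q), a (p.2 + shift p.1 z) * f u (p.2 + shift p.1 z)) *
            (Real.log (lam u) - 1)) M := fun u =>
      (int_sum (a := fun t => a t * f u t) (hafi u)).mul_const _
    have hI3 : ∀ u, Integrable (fun p : Code L (2 ^ q) d × Eu d =>
        (lam u)⁻¹ * ∑ z : Path L (2 ^ q), a (p.2 + shift p.1 z)) M := fun u =>
      (int_sum hai).const_mul _
    have hI : ∀ u, Integrable (fun p : Code L (2 ^ q) d × Eu d =>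
        (ent (fun z : Path L (2 ^ q) => a (p.2 + shift p.1 z) * f u (p.2 + shift p.1 z)) +
          ((∑ z : Path L (2 ^ q), a (p.2 + shift p.1 z) * f u (p.2 + shift p.1 z)) *
            (Real.log (lam u) - 1) +
          (lam u)⁻¹ * ∑ z : Path L (2 ^ q), a (p.2 + shift p.1 z)))) M := fun u =>
      (hI1 u).add ((hI2 u).add (hI3 u))
    have h1 := integral_mono (μ := M) (int_ent ha0 ham hai)
      (integrable_finsetSum _ fun u _ => hI u) hpt
    rw [integral_finsetSum _ fun u _ => hI u] at h1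
    have hc : (0 : ℝ) ≤ (((2 ^ q : ℕ) : ℝ) ^ L)⁻¹ := by positivity
    have h2 := mul_le_mul_of_nonneg_left h1 hc
    refine h2.trans (le_of_eq ?_)
    rw [Finset.mul_sum, ← Finset.sum_add_distrib]
    refine Finset.sum_congr rfl fun u _ => ?_
    have h3 := int_comb (hI1 u) (int_sum (L := L) (N := 2 ^ q) (hafi u))
      (int_sum (L := L) (N := 2 ^ q) hai) (Real.log (lam u) - 1) (lam u)⁻¹
    have h4 := integral_sum (L := L) (N := 2 ^ q) hai ham hN
    have h5 := integral_sum (L := L) (N := 2 ^ q) (hafi u) (hafm u) hN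
    rw [← h4, ← h5]
    unfold Pot
    rw [h3]
    ring
  rcases hm0.eq_or_lt with h0 | hpos
  · have h := main (fun _ => 1) (fun _ => one_pos)
    have h3 : ∀ u, ∫ t, a t * f u t = 0 := by
      intro u
      apply le_antisymm _ (integral_nonneg (haf0 u))
      rw [h0]
      exact integral_mono (hafi u) hai fun t => mul_le_of_le_one_right (ha0 t) (hfle u t)
    simp only [h3, ← h0] at h ⊢
    simpa using h
  · obtain ⟨lam, hlam, hs⟩ := sum_bad (U := U)
      (p := fun u => (∫ t, a t)⁻¹ * ∫ t, a t * f u t) (s := 1)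
      (fun u => mul_nonneg (inv_nonneg.mpr hm0) (integral_nonneg (haf0 u))) one_pos le_rfl
      (by
        rw [← Finset.mul_sum, ← integral_finsetSum _ fun u _ => hafi u]
        simp only [← Finset.mul_sum, hf1, mul_one]
        rw [inv_mul_cancel₀ hpos.ne'])
      (Q := Fintype.card U) (by exact Finset.card_le_univ _) Fintype.card_pos
      (by
        intro u
        rw [inv_mul_le_iff₀ hpos, mul_one]
        exact integral_mono (hafi u) hai fun t => mul_le_of_le_one_right (ha0 t) (hfle u t))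
    refine (main lam hlam).trans (add_le_add le_rfl ?_)
    calc ∑ u, ((∫ t, a t * f u t) * (Real.log (lam u) - 1) + (lam u)⁻¹ * ∫ t, a t)
        = (∫ t, a t) * ∑ u, ((∫ t, a t)⁻¹ * (∫ t, a t * f u t) * (Real.log (lam u) - 1) +
            (lam u)⁻¹) := by
          rw [Finset.mul_sum]
          refine Finset.sum_congr rfl fun u _ => ?_
          field_simp
      _ ≤ (∫ t, a t) * (2 + 1 * Real.log (Fintype.card U)) :=
          mul_le_mul_of_nonneg_left hs hm0
      _ = _ := by ring

section Msg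

variable {n d : ℕ}

theorem measurable_msg {H : Set ((Fin n → Eu d) × (Fin n → ℝ))} (hH : MeasurableSet H) :
    Measurable (msg H) := by
  have h1 : Measurable (fun p : Eu d × (Fin n → Eu d) => (p.2, lab p.2 (sg p.1))) :=
    measurable_joint.comp (measurable_snd.prodMk (measurable_sg.comp measurable_fst))
  exact (measurable_measure_prodMk_left (h1 hH)).ennreal_toReal

theorem msg_nonneg (H : Set ((Fin n → Eu d) × (Fin n → ℝ))) (t : Eu d) : 0 ≤ msg H t :=
  measureReal_nonneg

theorem msg_le_one (H : Set ((Fin n → Eu d) × (Fin n → ℝ))) (t : Eu d) : msg H t ≤ 1 :=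
  measureReal_le_one

theorem measurableSet_msg {H : Set ((Fin n → Eu d) × (Fin n → ℝ))} (hH : MeasurableSet H)
    (s : Eu d) : MeasurableSet {X : Fin n → Eu d | (X, lab X s) ∈ H} :=
  (measurable_id.prodMk (measurable_lab s)) hH

theorem msg_union {H K : Set ((Fin n → Eu d) × (Fin n → ℝ))} (hK : MeasurableSet K)
    (h : Disjoint H K) (t : Eu d) : msg (H ∪ K) t = msg H t + msg K t := by
  unfold msg
  rw [← measureReal_union _ (measurableSet_msg hK _)]
  · rfl
  · rw [Set.disjoint_left] at h ⊢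
    intro X hX hX'
    exact h hX hX'

theorem msg_sum {U : Type*} [Fintype U] {H : U → Set ((Fin n → Eu d) × (Fin n → ℝ))}
    (hH : ∀ u, MeasurableSet (H u)) (hdisj : Pairwise (Function.onFun Disjoint H)) (t : Eu d) :
    ∑ u, msg (H u) t = msg (⋃ u, H u) t := by
  unfold msg
  have h : {X : Fin n → Eu d | (X, lab X (sg t)) ∈ ⋃ u, H u} =
      ⋃ u, {X : Fin n → Eu d | (X, lab X (sg t)) ∈ H u} := by
    ext X; simp
  rw [h, measureReal_iUnion_fintype]
  · intro u v huv
    have := hdisj huv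
    simp only [Function.onFun] at this ⊢
    rw [Set.disjoint_left] at this ⊢
    intro X hX hX'
    exact this hX hX'
  · exact fun u => measurableSet_msg (hH u) _

theorem measurable_refP {H : Set ((Fin n → Eu d) × (Fin n → ℝ))} (hH : MeasurableSet H) (l : ℕ) :
    Measurable (fun t => refP l t H) := by
  have h1 : Measurable (fun p : Eu d × ((Fin n → Eu d) × (Fin n → ℝ)) =>
      (p.2.1, lab p.2.1 (sg p.1) + ((1 / 4 : ℝ) ^ (l + 1)) • p.2.2)) := by
    have h2 : Measurable (fun p : Eu d × ((Fin n → Eu d) × (Fin n → ℝ)) =>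
        lab p.2.1 (sg p.1)) :=
      measurable_snd.comp (measurable_joint.comp ((measurable_fst.comp measurable_snd).prodMk
        (measurable_sg.comp measurable_fst)))
    refine (measurable_fst.comp measurable_snd).prodMk (h2.add ?_)
    exact (measurable_snd.comp measurable_snd).const_smul (c := (1 / 4 : ℝ) ^ (l + 1))
  exact (measurable_measure_prodMk_left (h1 hH)).ennreal_toReal

theorem refP_nonneg (H : Set ((Fin n → Eu d) × (Fin n → ℝ))) (l : ℕ) (t : Eu d) :
    0 ≤ refP l t H := measureReal_nonneg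

theorem refP_le_one (H : Set ((Fin n → Eu d) × (Fin n → ℝ))) (l : ℕ) (t : Eu d) :
    refP l t H ≤ 1 := measureReal_le_one

theorem refP_sum_le {U : Type*} [Fintype U] {H : U → Set ((Fin n → Eu d) × (Fin n → ℝ))}
    (hH : ∀ u, MeasurableSet (H u)) (hdisj : Pairwise (Function.onFun Disjoint H)) (l : ℕ)
    (t : Eu d) : ∑ u, refP l t (H u) ≤ 1 := by
  unfold refP
  have h1 : Measurable (fun p : (Fin n → Eu d) × (Fin n → ℝ) =>
      (p.1, lab p.1 (sg t) + ((1 / 4 : ℝ) ^ (l + 1)) • p.2)) := by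
    refine measurable_fst.prodMk (((measurable_lab (sg t)).comp measurable_fst).add ?_)
    exact measurable_snd.const_smul (c := (1 / 4 : ℝ) ^ (l + 1))
  rw [← measureReal_iUnion_fintype]
  · exact measureReal_le_one
  · intro u v huv
    have := hdisj huv
    simp only [Function.onFun] at this ⊢
    rw [Set.disjoint_left] at this ⊢
    intro X hX hX'
    exact this hX hX'
  · exact fun u => h1 (hH u)

end Msg

theorem int_comb2 {α : Type*} [MeasurableSpace α] {M : Measure α} {e x y x' y' : α → ℝ}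
    (he : Integrable e M) (hx : Integrable x M) (hy : Integrable y M) (hx' : Integrable x' M)
    (hy' : Integrable y' M) (c k c' k' : ℝ) :
    ∫ p, (e p + ((x p * c + k * y p) + (x' p * c' + k' * y' p))) ∂M =
      ∫ p, e p ∂M + (((∫ p, x p ∂M) * c + k * ∫ p, y p ∂M) +
        ((∫ p, x' p ∂M) * c' + k' * ∫ p, y' p ∂M)) := by
  have h1 : Integrable (fun p => x p * c + k * y p) M := (hx.mul_const c).add (hy.const_mul k)
  have h2 : Integrable (fun p => x' p * c' + k' * y' p) M :=
    (hx'.mul_const c').add (hy'.const_mul k')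
  have h3 : Integrable (fun p => (x p * c + k * y p) + (x' p * c' + k' * y' p)) M := h1.add h2
  rw [integral_add he h3, integral_add h1 h2,
    integral_add (hx.mul_const c) (hy.const_mul k), integral_mul_const, integral_const_mul,
    integral_add (hx'.mul_const c') (hy'.const_mul k'), integral_mul_const, integral_const_mul]

theorem int_comb2_integrable {α : Type*} [MeasurableSpace α] {M : Measure α}
    {e x y x' y' : α → ℝ}
    (he : Integrable e M) (hx : Integrable x M) (hy : Integrable y M) (hx' : Integrable x' M)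
    (hy' : Integrable y' M) (c k c' k' : ℝ) :
    Integrable (fun p => e p + ((x p * c + k * y p) + (x' p * c' + k' * y' p))) M :=
  he.add (((hx.mul_const c).add (hy.const_mul k)).add
    ((hx'.mul_const c').add (hy'.const_mul k')))

/-- the quotient term of a good message -/
noncomputable def quo (L N : ℕ) {d : ℕ} (a f : Eu d → ℝ) (p : Code L N d × Eu d) : ℝ :=
  (∑ z : Path L N, a (p.2 + shift p.1 z)) *
    ((∑ z : Path L N, a (p.2 + shift p.1 z) * f (p.2 + shift p.1 z) ^ 2) /
      ∑ z : Path L N, a (p.2 + shift p.1 z) * f (p.2 + shift p.1 z))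

theorem int_quo {L N d : ℕ} {a f : Eu d → ℝ} (ha0 : ∀ t, 0 ≤ a t) (ham : Measurable a)
    (hai : Integrable a) (hf0 : ∀ t, 0 ≤ f t) (hfm : Measurable f) (hf1 : ∀ t, f t ≤ 1) :
    Integrable (quo L N a f) ((codeM L N d).prod volume) := by
  refine Integrable.mono' (int_sum (L := L) (N := N) hai) ?_ ?_
  · unfold quo
    refine Measurable.aestronglyMeasurable ?_
    refine (Finset.measurable_fun_sum _ fun z _ => measurable_T z ham).mul ?_
    refine Measurable.div ?_ ?_
    · exact Finset.measurable_fun_sum _ fun z _ =>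
        (measurable_T z ham).mul ((measurable_T z hfm).pow_const 2)
    · exact Finset.measurable_fun_sum _ fun z _ => (measurable_T z ham).mul (measurable_T z hfm)
  · refine Filter.Eventually.of_forall fun p => ?_
    have hA : 0 ≤ ∑ z : Path L N, a (p.2 + shift p.1 z) := Finset.sum_nonneg fun z _ => ha0 _
    have hB : 0 ≤ ∑ z : Path L N, a (p.2 + shift p.1 z) * f (p.2 + shift p.1 z) ^ 2 :=
      Finset.sum_nonneg fun z _ => mul_nonneg (ha0 _) (sq_nonneg _)
    have hC : 0 ≤ ∑ z : Path L N, a (p.2 + shift p.1 z) * f (p.2 + shift p.1 z) :=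
      Finset.sum_nonneg fun z _ => mul_nonneg (ha0 _) (hf0 _)
    have hBC : ∑ z : Path L N, a (p.2 + shift p.1 z) * f (p.2 + shift p.1 z) ^ 2 ≤
        ∑ z : Path L N, a (p.2 + shift p.1 z) * f (p.2 + shift p.1 z) := by
      refine Finset.sum_le_sum fun z _ => mul_le_mul_of_nonneg_left ?_ (ha0 _)
      have h1 := hf0 (p.2 + shift p.1 z)
      have h2 := hf1 (p.2 + shift p.1 z)
      nlinarith
    unfold quo
    rw [Real.norm_of_nonneg (mul_nonneg hA (div_nonneg hB hC))]
    refine mul_le_of_le_one_right hA ?_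
    exact div_le_one_of_le₀ hBC hC

theorem phase_pt {q d L : ℕ} {a : Eu d → ℝ} (ha0 : ∀ t, 0 ≤ a t)
    {U : Type*} [Fintype U] {f g : U → Eu d → ℝ} (hf0 : ∀ u t, 0 ≤ f u t)
    (hg0 : ∀ u t, 0 ≤ g u t) (hg1 : ∀ u t, g u t ≤ 1) (hsum : ∀ t, ∑ u, (f u t + g u t) = 1)
    {lf lg : U → ℝ} (hlf : ∀ u, 0 < lf u) (hlg : ∀ u, 0 < lg u) (p : Code L (2 ^ q) d × Eu d) :
    ent (fun z : Path L (2 ^ q) => a (p.2 + shift p.1 z)) ≤
      ∑ u, (ent (fun z : Path L (2 ^ q) => a (p.2 + shift p.1 z) *
          (f u (p.2 + shift p.1 z) + g u (p.2 + shift p.1 z))) +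
        (((∑ z : Path L (2 ^ q), a (p.2 + shift p.1 z) * f u (p.2 + shift p.1 z)) *
            (Real.log (lf u) - 1) + (lf u)⁻¹ * quo L (2 ^ q) a (f u) p) +
        ((∑ z : Path L (2 ^ q), a (p.2 + shift p.1 z) * g u (p.2 + shift p.1 z)) *
            (Real.log (lg u) - 1) +
          (lg u)⁻¹ * ∑ z : Path L (2 ^ q), a (p.2 + shift p.1 z)))) := by
  set T : Path L (2 ^ q) → Eu d := fun z => p.2 + shift p.1 z with hT
  have h1 := ent_split (U := U × Bool) (α := fun z : Path L (2 ^ q) => a (T z))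
    (fun z => ha0 _) (f := fun u z => if u.2 then f u.1 (T z) else g u.1 (T z))
    (fun u z => by split_ifs; exacts [hf0 _ _, hg0 _ _])
    (fun z => by
      rw [Fintype.sum_prod_type]
      simpa using hsum (T z))
  rw [Fintype.sum_prod_type] at h1
  simp only [Fintype.sum_bool, if_true, Bool.false_eq_true, if_false] at h1
  rw [h1]
  refine Finset.sum_le_sum fun u _ => ?_
  have h2 := loss_good (α := fun z : Path L (2 ^ q) => a (T z)) (fun z => ha0 _)
    (f := fun z => f u (T z)) (fun z => hf0 u _) (hlf u)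
  have h3 := loss_crude (α := fun z : Path L (2 ^ q) => a (T z)) (fun z => ha0 _)
    (f := fun z => g u (T z)) (fun z => hg0 u _) (fun z => hg1 u _) (hlg u)
  have h4 := ent_sum (U := Bool)
    (α := fun b z => if b then a (T z) * f u (T z) else a (T z) * g u (T z))
    (fun b z => by
      split_ifs
      exacts [mul_nonneg (ha0 _) (hf0 _ _), mul_nonneg (ha0 _) (hg0 _ _)])
  simp only [Fintype.sum_bool, if_true, Bool.false_eq_true, if_false] at h4
  have h5 : (fun z => a (T z) * (f u (T z) + g u (T z))) =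
      fun z => a (T z) * f u (T z) + a (T z) * g u (T z) := by
    funext z; ring
  rw [h5]
  unfold quo
  simp only [hT] at h2 h3 h4 ⊢
  linarith

theorem phase_int {q d L : ℕ} {a : Eu d → ℝ} (ha0 : ∀ t, 0 ≤ a t) (ham : Measurable a)
    (hai : Integrable a)
    {U : Type*} [Fintype U] {f g : U → Eu d → ℝ} (hf0 : ∀ u t, 0 ≤ f u t)
    (hfm : ∀ u, Measurable (f u)) (hgm : ∀ u, Measurable (g u))
    (hg0 : ∀ u t, 0 ≤ g u t) (hsum : ∀ t, ∑ u, (f u t + g u t) = 1)
    {lf lg : U → ℝ} (hlf : ∀ u, 0 < lf u) (hlg : ∀ u, 0 < lg u) :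
    Pot L (2 ^ q) a ≤ ∑ u, Pot L (2 ^ q) (fun t => a t * (f u t + g u t)) +
      ∑ u, (((∫ t, a t * f u t) * (Real.log (lf u) - 1) + (lf u)⁻¹ *
          ((((2 ^ q : ℕ) : ℝ) ^ L)⁻¹ *
            ∫ p, quo L (2 ^ q) a (f u) p ∂((codeM L (2 ^ q) d).prod volume))) +
        ((∫ t, a t * g u t) * (Real.log (lg u) - 1) + (lg u)⁻¹ * ∫ t, a t)) := by
  have hfg : ∀ u t, f u t + g u t ≤ 1 := fun u t => by
    rw [← hsum t]
    exact Finset.single_le_sum (f := fun u => f u t + g u t)
      (fun v _ => add_nonneg (hf0 v t) (hg0 v t)) (Finset.mem_univ u)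
  have hf1 : ∀ u t, f u t ≤ 1 := fun u t => by linarith [hfg u t, hg0 u t]
  have hg1 : ∀ u t, g u t ≤ 1 := fun u t => by linarith [hfg u t, hf0 u t]
  have hN : 0 < 2 ^ q := by positivity
  set M := (codeM L (2 ^ q) d).prod (volume : Measure (Eu d)) with hM
  have i1 : ∀ u, Integrable (fun p : Code L (2 ^ q) d × Eu d =>
      ent (fun z : Path L (2 ^ q) => a (p.2 + shift p.1 z) *
          (f u (p.2 + shift p.1 z) + g u (p.2 + shift p.1 z)))) M := fun u =>
    int_ent (a := fun t => a t * (f u t + g u t))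
      (fun t => mul_nonneg (ha0 t) (add_nonneg (hf0 u t) (hg0 u t)))
      (ham.mul ((hfm u).add (hgm u)))
      (int_mul hai ((hfm u).add (hgm u)) (fun t => add_nonneg (hf0 u t) (hg0 u t)) (hfg u))
  have i2 : ∀ u, Integrable (fun t => a t * f u t) := fun u =>
    int_mul hai (hfm u) (hf0 u) (hf1 u)
  have i3 : ∀ u, Integrable (fun t => a t * g u t) := fun u =>
    int_mul hai (hgm u) (hg0 u) (hg1 u)
  have i4 : ∀ u, Integrable (quo L (2 ^ q) a (f u)) M := fun u =>
    int_quo ha0 ham hai (hf0 u) (hfm u) (hf1 u)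
  have hI := fun u => int_comb2_integrable (i1 u) (int_sum (L := L) (N := 2 ^ q) (i2 u)) (i4 u)
    (int_sum (L := L) (N := 2 ^ q) (i3 u)) (int_sum (L := L) (N := 2 ^ q) hai)
    (Real.log (lf u) - 1) (lf u)⁻¹ (Real.log (lg u) - 1) (lg u)⁻¹
  have h1 := integral_mono (μ := M) (int_ent (L := L) (N := 2 ^ q) ha0 ham hai)
    (integrable_finsetSum Finset.univ fun u _ => hI u)
    (fun p => phase_pt ha0 hf0 hg0 hg1 hsum hlf hlg p)
  rw [integral_finsetSum _ fun u _ => hI u] at h1
  have hc : (0 : ℝ) ≤ (((2 ^ q : ℕ) : ℝ) ^ L)⁻¹ := by positivity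
  refine (mul_le_mul_of_nonneg_left h1 hc).trans (le_of_eq ?_)
  rw [Finset.mul_sum, ← Finset.sum_add_distrib]
  refine Finset.sum_congr rfl fun u _ => ?_
  have h3 := int_comb2 (i1 u) (int_sum (L := L) (N := 2 ^ q) (i2 u)) (i4 u)
    (int_sum (L := L) (N := 2 ^ q) (i3 u)) (int_sum (L := L) (N := 2 ^ q) hai)
    (Real.log (lf u) - 1) (lf u)⁻¹ (Real.log (lg u) - 1) (lg u)⁻¹
  have h4 := integral_sum (L := L) (N := 2 ^ q) hai ham hN
  have h5 := integral_sum (L := L) (N := 2 ^ q) (i2 u) (ham.mul (hfm u)) hN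
  have h6 := integral_sum (L := L) (N := 2 ^ q) (i3 u) (ham.mul (hgm u)) hN
  rw [← h4, ← h5, ← h6]
  unfold Pot
  rw [h3]
  ring

theorem int_quo_le {q d L : ℕ} {a f : Eu d → ℝ} (ha0 : ∀ t, 0 ≤ a t) (ham : Measurable a)
    (hai : Integrable a) (hf0 : ∀ t, 0 ≤ f t) (hfm : Measurable f) (hf1 : ∀ t, f t ≤ 1) :
    (((2 ^ q : ℕ) : ℝ) ^ L)⁻¹ * ∫ p, quo L (2 ^ q) a f p ∂((codeM L (2 ^ q) d).prod volume) ≤
      ∫ t, a t := by
  rw [← integral_sum (L := L) (N := 2 ^ q) hai ham (by positivity)]
  refine mul_le_mul_of_nonneg_left ?_ (by positivity)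
  refine integral_mono (int_quo ha0 ham hai hf0 hfm hf1) (int_sum hai) fun p => ?_
  have hA : 0 ≤ ∑ z : Path L (2 ^ q), a (p.2 + shift p.1 z) :=
    Finset.sum_nonneg fun z _ => ha0 _
  have hC : 0 ≤ ∑ z : Path L (2 ^ q), a (p.2 + shift p.1 z) * f (p.2 + shift p.1 z) :=
    Finset.sum_nonneg fun z _ => mul_nonneg (ha0 _) (hf0 _)
  have hBC : ∑ z : Path L (2 ^ q), a (p.2 + shift p.1 z) * f (p.2 + shift p.1 z) ^ 2 ≤
      ∑ z : Path L (2 ^ q), a (p.2 + shift p.1 z) * f (p.2 + shift p.1 z) := by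
    refine Finset.sum_le_sum fun z _ => mul_le_mul_of_nonneg_left ?_ (ha0 _)
    have h1 := hf0 (p.2 + shift p.1 z)
    have h2 := hf1 (p.2 + shift p.1 z)
    nlinarith
  exact mul_le_of_le_one_right hA (div_le_one_of_le₀ hBC hC)

open Classical in
theorem good_part {q d L : ℕ} (hq : 2 ≤ q) (hqd : 4 * q ≤ d) (hL : 1 ≤ L)
    {H : Set ((Fin q → Eu d) × (Fin q → ℝ))}
    (hH : MeasurableSet H) (hgood : ∀ p ∈ H, p.1 ∈ goodX q (Eu d))
    {a : Eu d → ℝ} (ha0 : ∀ t, 0 ≤ a t) (ham : Measurable a) (hai : Integrable a)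
    (hsupp : ∀ t, t ∉ ann d → a t = 0) (hpos : 0 < ∫ t, a t) :
    (((2 ^ q : ℕ) : ℝ) ^ L)⁻¹ * ∫ p : Code L (2 ^ q) d × Eu d,
        (∑ z : Path L (2 ^ q), a (p.2 + shift p.1 z)) *
        ((∑ z : Path L (2 ^ q), a (p.2 + shift p.1 z) * msg H (p.2 + shift p.1 z) ^ 2) /
          ∑ z : Path L (2 ^ q), a (p.2 + shift p.1 z) * msg H (p.2 + shift p.1 z))
        ∂((codeM L (2 ^ q) d).prod volume) ≤
      (∫ t, a t) * ((∫ t, a t)⁻¹ * (∫ t, a t * msg H t) +
        L * Real.exp (4000 * d) *
        ((∫ t, a t)⁻¹ * (∫ t, a t * ((L : ℝ)⁻¹ * ∑ l : Fin L, refP l t H))) ^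
          (1 - (q : ℝ)⁻¹)) :=
  good_part_of hq hL (fun z => shift_mp z) hH
    (fun z' l {_} ht' ω hω hsum => level_bound hq hqd z' l ht' hH hgood ω hω hsum)
    ha0 ham hai hsupp hpos

theorem phase {q d L : ℕ} (hq : 2 ≤ q) (hqd : 4 * q ≤ d) (hL : 1 ≤ L)
    {a : Eu d → ℝ} (ha0 : ∀ t, 0 ≤ a t) (ham : Measurable a) (hai : Integrable a)
    (hsupp : ∀ t, t ∉ ann d → a t = 0)
    {U : Type*} [Fintype U] {H : U → Set ((Fin q → Eu d) × (Fin q → ℝ))}
    (hH : ∀ u, MeasurableSet (H u)) (hdisj : Pairwise (Function.onFun Disjoint H))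
    (hcov : ⋃ u, H u = Set.univ) {Q : ℕ} (hQ1 : 1 ≤ Q)
    (hQ : ∀ s : Finset U, (∀ u ∈ s, (H u).Nonempty) → s.card ≤ Q) :
    Pot L (2 ^ q) a ≤ ∑ u, Pot L (2 ^ q) (fun t => a t * msg (H u) t) +
      (∫ t, a t) * (4010 * d + Real.log L + 2 / q * Real.log Q) := by
  set K : Set ((Fin q → Eu d) × (Fin q → ℝ)) := {p | p.1 ∈ goodX q (Eu d)} with hK
  have hKm : MeasurableSet K := measurable_fst (measurableSet_goodX q)
  set f : U → Eu d → ℝ := fun u => msg (H u ∩ K) with hf
  set g : U → Eu d → ℝ := fun u => msg (H u ∩ Kᶜ) with hg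
  have hfgm : ∀ u t, msg (H u) t = f u t + g u t := by
    intro u t
    rw [hf, hg, ← msg_union ((hH u).inter hKm.compl) (by
      rw [Set.disjoint_left]; rintro p ⟨_, h1⟩ ⟨_, h2⟩; exact h2 h1), Set.inter_union_compl]
  have hsum : ∀ t, ∑ u, (f u t + g u t) = 1 := by
    intro t
    simp only [← hfgm]
    rw [msg_sum hH hdisj, hcov]
    unfold msg
    simp
  have hf0 : ∀ u t, 0 ≤ f u t := fun u t => msg_nonneg _ _
  have hg0 : ∀ u t, 0 ≤ g u t := fun u t => msg_nonneg _ _
  have hf1 : ∀ u t, f u t ≤ 1 := fun u t => msg_le_one _ _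
  have hg1 : ∀ u t, g u t ≤ 1 := fun u t => msg_le_one _ _
  have hfm : ∀ u, Measurable (f u) := fun u => measurable_msg ((hH u).inter hKm)
  have hgm : ∀ u, Measurable (g u) := fun u => measurable_msg ((hH u).inter hKm.compl)
  have hm0 : 0 ≤ ∫ t, a t := integral_nonneg ha0
  simp only [hfgm]
  have i2 : ∀ u, Integrable (fun t => a t * f u t) := fun u =>
    int_mul hai (hfm u) (hf0 u) (hf1 u)
  have i3 : ∀ u, Integrable (fun t => a t * g u t) := fun u =>
    int_mul hai (hgm u) (hg0 u) (hg1 u)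
  have hL' : (1 : ℝ) ≤ L := by exact_mod_cast hL
  have hQ' : (1 : ℝ) ≤ Q := by exact_mod_cast hQ1
  have hlogL : 0 ≤ Real.log L := Real.log_nonneg hL'
  have hlogQ : 0 ≤ Real.log Q := Real.log_nonneg hQ'
  have hq0 : (0 : ℝ) < q := by exact_mod_cast (by omega : 0 < q)
  have hd8 : (8 : ℝ) ≤ d := by exact_mod_cast (by omega : 8 ≤ d)
  rcases hm0.eq_or_lt with h0 | hpos
  · have h := phase_int (L := L) (q := q) ha0 ham hai hf0 hfm hgm hg0 hsum (lf := fun _ => 1)
      (lg := fun _ => 1) (fun _ => one_pos) (fun _ => one_pos)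
    refine h.trans (add_le_add le_rfl ?_)
    rw [← h0, zero_mul]
    refine Finset.sum_nonpos fun u _ => ?_
    have h3 : ∫ t, a t * f u t = 0 := by
      apply le_antisymm _ (integral_nonneg fun t => mul_nonneg (ha0 t) (hf0 u t))
      rw [h0]
      exact integral_mono (i2 u) hai fun t => mul_le_of_le_one_right (ha0 t) (hf1 u t)
    have h4 : ∫ t, a t * g u t = 0 := by
      apply le_antisymm _ (integral_nonneg fun t => mul_nonneg (ha0 t) (hg0 u t))
      rw [h0]
      exact integral_mono (i3 u) hai fun t => mul_le_of_le_one_right (ha0 t) (hg1 u t)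
    have h5 := int_quo_le (L := L) (q := q) ha0 ham hai (hf0 u) (hfm u) (hf1 u)
    rw [← h0] at h5
    rw [h3, h4]
    simp only [inv_one, one_mul, zero_mul, mul_zero, zero_add, add_zero]
    exact h5
  · -- normalised masses
    set m := ∫ t, a t with hm
    set B : ℝ := L * Real.exp (4000 * d) with hB
    have hB1 : 1 ≤ B := by
      have : 1 ≤ Real.exp (4000 * d) := Real.one_le_exp (by positivity)
      rw [hB]; nlinarith
    set P : U → ℝ := fun u => m⁻¹ * ∫ t, a t * ((L : ℝ)⁻¹ * ∑ l : Fin L, refP l t (H u ∩ K))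
      with hP
    set avg : U → Eu d → ℝ := fun u t => (L : ℝ)⁻¹ * ∑ l : Fin L, refP l t (H u ∩ K) with havg
    have havgm : ∀ u, Measurable (avg u) := fun u =>
      (Finset.measurable_fun_sum _ fun l _ =>
        measurable_refP ((hH u).inter hKm) _).const_mul _
    have havg0 : ∀ u t, 0 ≤ avg u t := fun u t =>
      mul_nonneg (by positivity) (Finset.sum_nonneg fun l _ => refP_nonneg _ _ _)
    have hdisj' : Pairwise (Function.onFun Disjoint fun u => H u ∩ K) := by
      intro u v huv
      exact (hdisj huv).mono Set.inter_subset_left Set.inter_subset_left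
    have havgs : ∀ t, ∑ u, avg u t ≤ 1 := by
      intro t
      simp only [havg]
      rw [← Finset.mul_sum, Finset.sum_comm]
      have : ∑ l : Fin L, ∑ u, refP l t (H u ∩ K) ≤ ∑ l : Fin L, (1 : ℝ) :=
        Finset.sum_le_sum fun l _ =>
          refP_sum_le (fun u => (hH u).inter hKm) hdisj' _ _
      rw [Finset.sum_const, Finset.card_univ, Fintype.card_fin, nsmul_eq_mul, mul_one] at this
      calc (L : ℝ)⁻¹ * ∑ l : Fin L, ∑ u, refP l t (H u ∩ K) ≤ (L : ℝ)⁻¹ * L :=
            mul_le_mul_of_nonneg_left this (by positivity)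
        _ = 1 := inv_mul_cancel₀ (by positivity)
    have havg1 : ∀ u t, avg u t ≤ 1 := fun u t =>
      (Finset.single_le_sum (fun v _ => havg0 v t) (Finset.mem_univ u)).trans (havgs t)
    have i5 : ∀ u, Integrable (fun t => a t * avg u t) := fun u =>
      int_mul hai (havgm u) (havg0 u) (havg1 u)
    have hP0 : ∀ u, 0 ≤ P u := fun u =>
      mul_nonneg (inv_nonneg.mpr hm0) (integral_nonneg fun t => mul_nonneg (ha0 t) (havg0 u t))
    have hP1 : ∑ u, P u ≤ 1 := by
      simp only [hP]
      rw [← Finset.mul_sum, inv_mul_le_iff₀ hpos, mul_one, ← integral_finsetSum _ fun u _ => i5 u]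
      refine integral_mono (integrable_finsetSum _ fun u _ => i5 u) hai fun t => ?_
      simp only
      rw [← Finset.mul_sum]
      exact mul_le_of_le_one_right (ha0 t) (havgs t)
    -- good messages
    set pf : U → ℝ := fun u => m⁻¹ * ∫ t, a t * f u t with hpf
    set pg : U → ℝ := fun u => m⁻¹ * ∫ t, a t * g u t with hpg
    have hpf0 : ∀ u, 0 ≤ pf u := fun u =>
      mul_nonneg (inv_nonneg.mpr hm0) (integral_nonneg fun t => mul_nonneg (ha0 t) (hf0 u t))
    have hpg0 : ∀ u, 0 ≤ pg u := fun u =>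
      mul_nonneg (inv_nonneg.mpr hm0) (integral_nonneg fun t => mul_nonneg (ha0 t) (hg0 u t))
    have hpf1 : ∑ u, pf u ≤ 1 := by
      simp only [hpf]
      rw [← Finset.mul_sum, inv_mul_le_iff₀ hpos, mul_one, ← integral_finsetSum _ fun u _ => i2 u]
      refine integral_mono (integrable_finsetSum _ fun u _ => i2 u) hai fun t => ?_
      simp only
      rw [← Finset.mul_sum]
      refine mul_le_of_le_one_right (ha0 t) ?_
      rw [← hsum t]
      exact Finset.sum_le_sum fun u _ => le_add_of_nonneg_right (hg0 u t)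
    have hgs : ∀ t, ∑ u, g u t ≤ (q : ℝ)⁻¹ := by
      intro t
      have hdisj2 : Pairwise (Function.onFun Disjoint fun u => H u ∩ Kᶜ) := by
        intro u v huv
        exact (hdisj huv).mono Set.inter_subset_left Set.inter_subset_left
      simp only [hg]
      rw [msg_sum (fun u => (hH u).inter hKm.compl) hdisj2]
      have h1 : msg (⋃ u, H u ∩ Kᶜ) t ≤ (rows (Eu d) q).real (goodX q (Eu d))ᶜ := by
        unfold msg
        refine measureReal_mono ?_ (measure_ne_top _ _)
        intro X hX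
        simp only [Set.mem_ofPred_eq, Set.mem_iUnion] at hX
        obtain ⟨u, _, h2⟩ := hX
        exact h2
      refine h1.trans ?_
      have h2 := bad_prob (V := Eu d) (n := q) (by simpa using hqd) (by
        simp; omega)
      have h3 : (rows (Eu d) q).real (goodX q (Eu d))ᶜ ≤ Real.exp (-2 * d) := by
        rw [Measure.real]
        refine ENNReal.toReal_le_of_le_ofReal (Real.exp_pos _).le ?_
        simpa using h2
      refine h3.trans ?_
      rw [show (-2 * (d : ℝ)) = -(2 * d) by ring, Real.exp_neg]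
      apply inv_anti₀ hq0
      have h4 := Real.add_one_le_exp (2 * (d : ℝ))
      have h5 : (4 * q : ℝ) ≤ d := by exact_mod_cast hqd
      linarith
    have hpg1 : ∑ u, pg u ≤ (q : ℝ)⁻¹ := by
      simp only [hpg]
      rw [← Finset.mul_sum, inv_mul_le_iff₀ hpos, ← integral_finsetSum _ fun u _ => i3 u,
        ← integral_mul_const]
      refine integral_mono (integrable_finsetSum _ fun u _ => i3 u) (hai.mul_const _) fun t => ?_
      simp only
      rw [← Finset.mul_sum]
      exact mul_le_mul_of_nonneg_left (hgs t) (ha0 t)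
    have hcf : (Finset.univ.filter fun u => pf u ≠ 0).card ≤ Q := by
      apply hQ
      intro u hu
      rw [Finset.mem_filter] at hu
      by_contra hne
      rw [Set.not_nonempty_iff_eq_empty] at hne
      apply hu.2
      simp [hpf, hf, hne, msg]
    have hcg : (Finset.univ.filter fun u => pg u ≠ 0).card ≤ Q := by
      apply hQ
      intro u hu
      rw [Finset.mem_filter] at hu
      by_contra hne
      rw [Set.not_nonempty_iff_eq_empty] at hne
      apply hu.2
      simp [hpg, hg, hne, msg]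
    obtain ⟨lf, hlf, hsf⟩ := sum_good (p := pf) (P := P) hpf0 hP0 hpf1 hP1 (k := q) (by omega)
      hB1 hcf hQ1
    have hqinv : (q : ℝ)⁻¹ ≤ 1 := inv_le_one_of_one_le₀ (by exact_mod_cast (by omega : 1 ≤ q))
    obtain ⟨lg, hlg, hsg⟩ := sum_bad (p := pg) hpg0 (s := (q : ℝ)⁻¹) (by positivity) hqinv hpg1
      hcg hQ1 (fun u => ((Finset.single_le_sum (fun v _ => hpg0 v) (Finset.mem_univ u)).trans
        hpg1).trans hqinv)
    have h := phase_int (L := L) (q := q) ha0 ham hai hf0 hfm hgm hg0 hsum hlf hlg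
    refine h.trans (add_le_add le_rfl ?_)
    have hterm : ∀ u, (((∫ t, a t * f u t) * (Real.log (lf u) - 1) + (lf u)⁻¹ *
          ((((2 ^ q : ℕ) : ℝ) ^ L)⁻¹ *
            ∫ p, quo L (2 ^ q) a (f u) p ∂((codeM L (2 ^ q) d).prod volume))) +
        ((∫ t, a t * g u t) * (Real.log (lg u) - 1) + (lg u)⁻¹ * ∫ t, a t)) ≤
        m * (pf u * (Real.log (lf u) - 1) + (lf u)⁻¹ * (pf u + B * P u ^ (1 - (q : ℝ)⁻¹))) +
        m * (pg u * (Real.log (lg u) - 1) + (lg u)⁻¹) := by
      intro u
      have hgp := good_part hq hqd hL ((hH u).inter hKm) (fun p hp => hp.2) ha0 ham hai hsupp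
        hpos
      have h1 : (((2 ^ q : ℕ) : ℝ) ^ L)⁻¹ *
            ∫ p, quo L (2 ^ q) a (f u) p ∂((codeM L (2 ^ q) d).prod volume) ≤
          m * (pf u + B * P u ^ (1 - (q : ℝ)⁻¹)) := hgp
      have h2 : (lf u)⁻¹ * ((((2 ^ q : ℕ) : ℝ) ^ L)⁻¹ *
            ∫ p, quo L (2 ^ q) a (f u) p ∂((codeM L (2 ^ q) d).prod volume)) ≤
          (lf u)⁻¹ * (m * (pf u + B * P u ^ (1 - (q : ℝ)⁻¹))) :=
        mul_le_mul_of_nonneg_left h1 (inv_nonneg.mpr (hlf u).le)
      have h3 : ∫ t, a t * f u t = m * pf u := by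
        simp only [hpf]; rw [← mul_assoc, mul_inv_cancel₀ hpos.ne', one_mul]
      have h4 : ∫ t, a t * g u t = m * pg u := by
        simp only [hpg]; rw [← mul_assoc, mul_inv_cancel₀ hpos.ne', one_mul]
      rw [h3, h4]
      nlinarith [h2]
    refine (Finset.sum_le_sum fun u _ => hterm u).trans ?_
    rw [Finset.sum_add_distrib, ← Finset.mul_sum, ← Finset.mul_sum, ← mul_add]
    refine mul_le_mul_of_nonneg_left ?_ hm0
    refine (add_le_add hsf hsg).trans ?_
    have hlogB : Real.log (2 * B) = Real.log 2 + (Real.log L + 4000 * d) := by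
      rw [hB, Real.log_mul (by norm_num) (by positivity), Real.log_mul (by positivity)
        (Real.exp_pos _).ne', Real.log_exp]
    rw [hlogB]
    have hl2 : Real.log 2 ≤ 1 := by
      have := Real.log_two_lt_d9; linarith
    have : 2 / (q : ℝ) * Real.log Q = (q : ℝ)⁻¹ * Real.log Q + (q : ℝ)⁻¹ * Real.log Q := by
      rw [div_eq_mul_inv]; ring
    rw [this]
    nlinarith

end P309
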