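import Vale.Agent.P309.Defs
import Vale.Agent.P309.Ends
import Vale.Agent.P309.Phase
import Vale.Agent.P309.Run
import Vale.Agent.P309.Sphere

/-!
# P309 : the core inequality for deterministic learners
-/

namespace P309

open MeasureTheory ProbabilityTheory
open scoped ENNReal RealInnerProductSpace

section A0

variable {d : ℕ}

/-- uniform density on the annulus -/
noncomputable def a0 (d : ℕ) (t : Eu d) : ℝ :=
  (ann d).indicator (fun _ => (volume.real (ann d))⁻¹) t

theorem ann_lt_top : volume (ann d) < ∞ := by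
  refine (measure_mono (t := Metric.closedBall (0 : Eu d) 2) ?_).trans_lt
    measure_closedBall_lt_top
  intro t ht
  simpa using ht.2

theorem ann_pos (hd : 1 ≤ d) : 0 < volume.real (ann d) := by
  have h1 : Metric.ball ((3 / 2 : ℝ) • (EuclideanSpace.single (⟨0, hd⟩ : Fin d) (1 : ℝ))) (1 / 2) ⊆
      ann d := by
    intro t ht
    rw [Metric.mem_ball, dist_eq_norm] at ht
    have h2 : ‖(3 / 2 : ℝ) • (EuclideanSpace.single (⟨0, hd⟩ : Fin d) (1 : ℝ))‖ = 3 / 2 := by
      rw [norm_smul]; simp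
    have h3 := norm_sub_norm_le t ((3 / 2 : ℝ) • (EuclideanSpace.single (⟨0, hd⟩ : Fin d) (1 : ℝ)))
    have h4 := norm_sub_norm_le ((3 / 2 : ℝ) • (EuclideanSpace.single (⟨0, hd⟩ : Fin d) (1 : ℝ))) t
    rw [norm_sub_rev] at h4
    constructor <;> linarith
  have h2 : 0 < volume (ann d) :=
    (Metric.measure_ball_pos volume _ (by norm_num)).trans_le (measure_mono h1)
  exact ENNReal.toReal_pos h2.ne' ann_lt_top.ne

theorem a0_nonneg (t : Eu d) : 0 ≤ a0 d t := by
  unfold a0
  exact Set.indicator_nonneg (fun _ _ => by positivity) _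

theorem measurable_a0 : Measurable (a0 d) := by
  unfold a0
  exact measurable_const.indicator (measurableSet_ann d)

theorem integrable_a0 : Integrable (a0 d) := by
  unfold a0
  exact (integrable_indicator_iff (measurableSet_ann d)).mpr
    (integrableOn_const ann_lt_top.ne)

theorem integral_a0 (hd : 1 ≤ d) : ∫ t, a0 d t = 1 := by
  unfold a0
  rw [integral_indicator (measurableSet_ann d), setIntegral_const, smul_eq_mul,
    mul_inv_cancel₀ (ann_pos hd).ne']

theorem a0_supp (t : Eu d) (ht : t ∉ ann d) : a0 d t = 0 := by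
  unfold a0
  exact Set.indicator_of_notMem ht _

end A0

section Core

variable {d : ℕ} {S : Type*} [Fintype S] [DecidableEq S]

/-- pairs of rows and labels leading from `u` to `v` -/
def RS (st : ℕ → S → Eu d → ℝ → S) (n i : ℕ) (u v : S) :
    Set ((Fin n → Eu d) × (Fin n → ℝ)) := {p | run st n i p.1 p.2 u = v}

variable {st : ℕ → S → Eu d → ℝ → S}

omit [Fintype S] [DecidableEq S] in
theorem RS_disj (n i : ℕ) (u : S) : Pairwise (Function.onFun Disjoint (RS st n i u)) := by
  intro v w hvw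
  rw [Function.onFun, Set.disjoint_left]
  intro p h1 h2
  exact hvw (h1.symm.trans h2)

omit [Fintype S] [DecidableEq S] in
theorem RS_cov (n i : ℕ) (u : S) : ⋃ v, RS st n i u v = Set.univ := by
  ext p
  simp [RS]

omit [DecidableEq S] in
theorem msg_RS_sum (hst : ∀ i u v, MeasurableSet {p : Eu d × ℝ | st i u p.1 p.2 = v})
    (n i : ℕ) (u : S) (t : Eu d) : ∑ v, msg (RS st n i u v) t = 1 := by
  rw [msg_sum (H := RS st n i u) (fun v => measurableSet_run hst n i u v) (RS_disj n i u),
    RS_cov]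
  unfold msg
  simp

theorem pot_phases {q L Q : ℕ} (hq : 2 ≤ q) (hqd : 4 * q ≤ d) (hL : 1 ≤ L)
    (hst : ∀ i u v, MeasurableSet {p : Eu d × ℝ | st i u p.1 p.2 = v}) (v0 : S) (hQ1 : 1 ≤ Q)
    (hQ : ∀ (i : ℕ) (u : S) (s : Finset S),
      (∀ v ∈ s, ∃ p : (Fin q → Eu d) × (Fin q → ℝ), run st q i p.1 p.2 u = v) → s.card ≤ Q)
    (P : ℕ) :
    Pot L (2 ^ q) (a0 d) ≤ ∑ v, Pot L (2 ^ q) (fun t => a0 d t * msg (RS st (q * P) 0 v0 v) t) +
      P * (4010 * d + Real.log L + 2 / q * Real.log Q) := by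
  have hd : 1 ≤ d := by omega
  have hRSm : ∀ n i u v, MeasurableSet (RS st n i u v) := fun n i u v =>
    measurableSet_run hst n i u v
  have hai : ∀ (n i : ℕ) (u v : S), Integrable (fun t => a0 d t * msg (RS st n i u v) t) :=
    fun n i u v => int_mul integrable_a0 (measurable_msg (hRSm n i u v)) (msg_nonneg _)
      (msg_le_one _)
  induction P with
  | zero =>
    have h1 : ∀ v t, msg (RS st (q * 0) 0 v0 v) t = if v0 = v then 1 else 0 := by
      intro v t
      have h2 : ∀ X : Fin (q * 0) → Eu d, ((X, lab X (sg t)) ∈ RS st (q * 0) 0 v0 v) ↔ v0 = v :=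
        fun X => Iff.rfl
      unfold msg
      simp only [h2]
      split_ifs with h
      · simp [h]
      · simp [h]
    have h3 : Pot L (2 ^ q) (a0 d) =
        Pot L (2 ^ q) (fun t => a0 d t * msg (RS st (q * 0) 0 v0 v0) t) := by
      simp only [h1, if_true, mul_one]
    rw [h3, Nat.cast_zero, zero_mul, add_zero]
    refine Finset.single_le_sum
      (f := fun v => Pot L (2 ^ q) (fun t => a0 d t * msg (RS st (q * 0) 0 v0 v) t))
      (fun v _ => ?_) (Finset.mem_univ v0)
    unfold Pot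
    refine mul_nonneg (by positivity) (integral_nonneg fun p => ?_)
    exact ent_nonneg fun z => mul_nonneg (a0_nonneg _) (msg_nonneg _ _)
  | succ P ih =>
    refine ih.trans ?_
    set C := 4010 * d + Real.log L + 2 / q * Real.log Q with hC
    -- one phase
    have h1 : ∀ u, Pot L (2 ^ q) (fun t => a0 d t * msg (RS st (q * P) 0 v0 u) t) ≤
        ∑ v, Pot L (2 ^ q) (fun t => a0 d t * msg (RS st (q * P) 0 v0 u) t *
          msg (RS st q (0 + q * P) u v) t) +
          (∫ t, a0 d t * msg (RS st (q * P) 0 v0 u) t) * C := by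
      intro u
      refine phase hq hqd hL (fun t => mul_nonneg (a0_nonneg _) (msg_nonneg _ _))
        (measurable_a0.mul (measurable_msg (hRSm _ _ _ _))) (hai _ _ _ _)
        (fun t ht => by rw [a0_supp t ht, zero_mul]) (fun v => hRSm _ _ _ _)
        (RS_disj _ _ _) (RS_cov _ _ _) hQ1 ?_
      intro s hs
      exact hQ _ u s fun v hv => hs v hv
    have h2 : ∑ u, (∫ t, a0 d t * msg (RS st (q * P) 0 v0 u) t) = 1 := by
      rw [← integral_finsetSum _ fun u _ => hai _ _ _ _]
      simp only [← Finset.mul_sum, msg_RS_sum hst, mul_one]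
      exact integral_a0 hd
    have h3 : ∀ v t, msg (RS st (q * (P + 1)) 0 v0 v) t =
        ∑ u, msg (RS st (q * P) 0 v0 u) t * msg (RS st q (0 + q * P) u v) t := fun v t =>
      run_add hst (q * P) q 0 v0 v (sg t)
    have h4 : ∀ v, ∑ u, Pot L (2 ^ q) (fun t => a0 d t * msg (RS st (q * P) 0 v0 u) t *
          msg (RS st q (0 + q * P) u v) t) ≤
        Pot L (2 ^ q) (fun t => a0 d t * msg (RS st (q * (P + 1)) 0 v0 v) t) := by
      intro v
      have h5 := merge (L := L) (N := 2 ^ q) (a := fun u t => a0 d t * msg (RS st (q * P) 0 v0 u) t *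
          msg (RS st q (0 + q * P) u v) t)
        (fun u t => mul_nonneg (mul_nonneg (a0_nonneg _) (msg_nonneg _ _)) (msg_nonneg _ _))
        (fun u => (measurable_a0.mul (measurable_msg (hRSm _ _ _ _))).mul
          (measurable_msg (hRSm _ _ _ _)))
        (fun u => int_mul (hai _ _ _ _) (measurable_msg (hRSm _ _ _ _)) (msg_nonneg _)
          (msg_le_one _))
      refine h5.trans (le_of_eq ?_)
      congr 1
      funext t
      rw [h3, Finset.mul_sum]
      exact Finset.sum_congr rfl fun u _ => by ring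
    calc ∑ u, Pot L (2 ^ q) (fun t => a0 d t * msg (RS st (q * P) 0 v0 u) t) + P * C
        ≤ ∑ u, (∑ v, Pot L (2 ^ q) (fun t => a0 d t * msg (RS st (q * P) 0 v0 u) t *
          msg (RS st q (0 + q * P) u v) t) +
          (∫ t, a0 d t * msg (RS st (q * P) 0 v0 u) t) * C) + P * C :=
          add_le_add (Finset.sum_le_sum fun u _ => h1 u) le_rfl
      _ = ∑ v, ∑ u, Pot L (2 ^ q) (fun t => a0 d t * msg (RS st (q * P) 0 v0 u) t *
          msg (RS st q (0 + q * P) u v) t) + (P + 1) * C := by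
          rw [Finset.sum_add_distrib, ← Finset.sum_mul, h2, Finset.sum_comm]
          ring
      _ ≤ ∑ v, Pot L (2 ^ q) (fun t => a0 d t * msg (RS st (q * (P + 1)) 0 v0 v) t) +
          (P + 1) * C := add_le_add (Finset.sum_le_sum fun v _ => h4 v) le_rfl
      _ = _ := by push_cast; ring

theorem sg_ann {t : Eu d} (ht : t ∈ ann d) : ‖sg t‖ = 1 := by
  unfold sg
  have : 0 < ‖t‖ := lt_of_lt_of_le one_pos ht.1
  rw [norm_smul, norm_inv, norm_norm, inv_mul_cancel₀ this.ne']

theorem sg_sphere {t : Eu d} (ht : ‖t‖ = 1) : sg t = t := by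
  unfold sg
  rw [ht, inv_one, one_smul]

open Classical in
theorem core {q L Q P : ℕ} (hq : 2 ≤ q) (hqd : 4 * q ≤ d) (hL : 1 ≤ L)
    (hst : ∀ i u v, MeasurableSet {p : Eu d × ℝ | st i u p.1 p.2 = v}) (v0 : S) (hQ1 : 1 ≤ Q)
    (hQ : ∀ (i : ℕ) (u : S) (s : Finset S),
      (∀ v ∈ s, ∃ p : (Fin q → Eu d) × (Fin q → ℝ), run st q i p.1 p.2 u = v) → s.card ≤ Q)
    (out : S → Eu d) {ε : ℝ} (hε : ε ≤ 1 / 64 * (1 / 4) ^ L)
    (hsucc : ENNReal.ofReal (2 / 3) ≤ ∫⁻ s, rows (Eu d) (q * P)
      {X | ‖out (run st (q * P) 0 X (lab X s.1) v0) - s.1‖ ≤ ε} ∂(unif d)) :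
    2 / 3 * (L * (q * Real.log 2)) ≤
        d + 2 + P * (4010 * d + Real.log L + 2 / q * Real.log Q) ∧
      2 / 3 * (L * (q * Real.log 2)) ≤ d + 4 + Real.log (Fintype.card S) := by
  have hd : 1 ≤ d := by omega
  have hRSm : ∀ v, MeasurableSet (RS st (q * P) 0 v0 v) := fun v =>
    measurableSet_run hst _ _ _ v
  set g : S → Eu d → ℝ := fun v => msg (RS st (q * P) 0 v0 v) with hg
  have hg0 : ∀ v t, 0 ≤ g v t := fun v t => msg_nonneg _ _
  have hgl : ∀ v t, g v t ≤ 1 := fun v t => msg_le_one _ _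
  have hgm : ∀ v, Measurable (g v) := fun v => measurable_msg (hRSm v)
  have hg1 : ∀ t, ∑ v, g v t = 1 := fun t => msg_RS_sum hst _ _ _ t
  -- indicator of success
  set I : S → Eu d → ℝ := fun v s => if ‖out v - s‖ ≤ ε then 1 else 0 with hI
  have hIm : ∀ v, Measurable (I v) := by
    intro v
    refine Measurable.ite ?_ measurable_const measurable_const
    exact measurableSet_le (measurable_const.sub measurable_id).norm measurable_const
  have hI0 : ∀ v s, 0 ≤ I v s := fun v s => by
    simp only [hI]; split_ifs <;> norm_num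
  have hI1 : ∀ v s, I v s ≤ 1 := fun v s => by
    simp only [hI]; split_ifs <;> norm_num
  set φ : Eu d → ℝ≥0∞ := fun s => ∑ v, ENNReal.ofReal (g v s * I v s) with hφ
  have hφm : Measurable φ :=
    Finset.measurable_fun_sum _ fun v _ => ((hgm v).mul (hIm v)).ennreal_ofReal
  have hsph : ∀ s : Metric.sphere (0 : Eu d) 1, rows (Eu d) (q * P)
      {X | ‖out (run st (q * P) 0 X (lab X s.1) v0) - s.1‖ ≤ ε} ≤ φ s.1 := by
    intro s
    have hs1 : ‖s.1‖ = 1 := by simp
    have h1 : {X : Fin (q * P) → Eu d |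
        ‖out (run st (q * P) 0 X (lab X s.1) v0) - s.1‖ ≤ ε} ⊆
        ⋃ v, {X | (X, lab X (sg s.1)) ∈ RS st (q * P) 0 v0 v ∧ ‖out v - s.1‖ ≤ ε} := by
      intro X hX
      rw [Set.mem_iUnion]
      refine ⟨run st (q * P) 0 X (lab X s.1) v0, ?_, hX⟩
      rw [sg_sphere hs1]
      rfl
    refine (measure_mono h1).trans ((measure_iUnion_fintype_le _ _).trans ?_)
    refine Finset.sum_le_sum fun v _ => ?_
    by_cases h : ‖out v - s.1‖ ≤ ε
    · have h2 : I v s.1 = 1 := by simp only [hI]; rw [if_pos h]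
      rw [h2, mul_one]
      simp only [hg]
      unfold msg
      rw [ofReal_measureReal]
      exact measure_mono fun X hX => hX.1
    · have h3 : {X : Fin (q * P) → Eu d | (X, lab X (sg s.1)) ∈ RS st (q * P) 0 v0 v ∧
          ‖out v - s.1‖ ≤ ε} = ∅ := by
        ext X; simp [h]
      rw [h3]; simp
  have h4 : ENNReal.ofReal (2 / 3) * volume (ann d) ≤ ∫⁻ t in ann d, φ (sg t) := by
    rw [ann_sphere hd hφm, mul_comm]
    refine mul_le_mul' le_rfl (hsucc.trans (lintegral_mono fun s => hsph s))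
  have hgs : ∀ v (t : Eu d), t ∈ ann d → g v (sg t) = g v t := by
    intro v t ht
    simp only [hg]
    unfold msg
    rw [sg_sphere (sg_ann ht)]
  have hint : ∀ v, Integrable (fun t => g v t * I v (sg t)) (volume.restrict (ann d)) := by
    intro v
    have : IsFiniteMeasure ((volume : Measure (Eu d)).restrict (ann d)) :=
      ⟨by rw [Measure.restrict_apply_univ]; exact ann_lt_top⟩
    refine Integrable.of_bound
      ((hgm v).mul ((hIm v).comp measurable_sg)).aestronglyMeasurable 1 ?_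
    refine Filter.Eventually.of_forall fun t => ?_
    rw [Real.norm_of_nonneg (mul_nonneg (hg0 _ _) (hI0 _ _))]
    exact mul_le_one₀ (hgl _ _) (hI0 _ _) (hI1 _ _)
  have h5 : ∫⁻ t in ann d, φ (sg t) =
      ENNReal.ofReal (∑ v, ∫ t in ann d, g v t * I v (sg t)) := by
    rw [ENNReal.ofReal_sum_of_nonneg fun v _ => integral_nonneg fun t =>
      mul_nonneg (hg0 _ _) (hI0 _ _)]
    simp only [hφ]
    rw [lintegral_finsetSum]
    · refine Finset.sum_congr rfl fun v _ => ?_
      rw [ofReal_integral_eq_lintegral_ofReal (hint v) (Filter.Eventually.of_forall fun t =>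
        mul_nonneg (hg0 _ _) (hI0 _ _))]
      refine setLIntegral_congr_fun (measurableSet_ann d) fun t ht => ?_
      rw [hgs v t ht]
    · intro v _
      exact (((hgm v).comp measurable_sg).mul ((hIm v).comp measurable_sg)).ennreal_ofReal
  have hsucc' : 2 / 3 * volume.real (ann d) ≤
      ∑ v, ∫ t in ann d, g v t * (if ‖out v - sg t‖ ≤ ε then 1 else 0) := by
    have h6 : ENNReal.ofReal (2 / 3 * volume.real (ann d)) ≤
        ENNReal.ofReal (∑ v, ∫ t in ann d, g v t * I v (sg t)) := by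
      rw [← h5, ENNReal.ofReal_mul (by norm_num), ofReal_measureReal ann_lt_top.ne]
      exact h4
    refine (ENNReal.ofReal_le_ofReal_iff ?_).mp h6
    exact Finset.sum_nonneg fun v _ => integral_nonneg fun t => mul_nonneg (hg0 _ _) (hI0 _ _)
  have hfin := final_bound (L := L) (q := q) (by omega) hqd hg0 hgm hg1 out hε hsucc'
  have hini := init_bound (q := q) (d := d) (L := L) (by omega) hqd
  constructor
  · have hph := pot_phases hq hqd hL hst v0 hQ1 hQ P
    have h7 : ∑ v, Pot L (2 ^ q) (fun t => a0 d t * msg (RS st (q * P) 0 v0 v) t) ≤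
        2 + 1 / 3 * (L * (q * Real.log 2)) := hfin
    have h8 : L * (q * Real.log 2) - d ≤ Pot L (2 ^ q) (a0 d) := hini
    linarith
  · have hcr := crude (q := q) (L := L) (a := a0 d) a0_nonneg measurable_a0 integrable_a0
      (f := g) hg0 hgm hg1
    rw [integral_a0 hd, one_mul] at hcr
    have h7 : ∑ v, Pot L (2 ^ q) (fun t => a0 d t * g v t) ≤
        2 + 1 / 3 * (L * (q * Real.log 2)) := hfin
    have h8 : L * (q * Real.log 2) - d ≤ Pot L (2 ^ q) (a0 d) := hini
    linarith

end Core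

end P309
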