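import Vale.Agent.P309.Machine
import Vale.Agent.P309.Numbers
import Vale.Agent.P309.Core

/-!
# P309 : the memory-sample lower bound
-/

namespace P309

open MeasureTheory ProbabilityTheory
open scoped ENNReal RealInnerProductSpace

theorem norm_le_of_arccos {d : ℕ} {x y : Eu d} (hx : ‖x‖ = 1) (hy : ‖y‖ = 1) {ε : ℝ}
    (h : Real.arccos ⟪x, y⟫ ≤ ε) : ‖x - y‖ ≤ ε := by
  have h0 : 0 ≤ Real.arccos ⟪x, y⟫ := Real.arccos_nonneg _
  have hε : 0 ≤ ε := h0.trans h
  have h1 : |⟪x, y⟫| ≤ 1 := by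
    have := abs_real_inner_le_norm x y
    rwa [hx, hy, mul_one] at this
  rw [abs_le] at h1
  have h2 : Real.cos (Real.arccos ⟪x, y⟫) = ⟪x, y⟫ := Real.cos_arccos h1.1 h1.2
  have h3 := Real.one_sub_sq_div_two_le_cos (x := Real.arccos ⟪x, y⟫)
  rw [h2] at h3
  have h4 : ‖x - y‖ ^ 2 = 2 - 2 * ⟪x, y⟫ := by
    rw [norm_sub_sq_real, hx, hy]; ring
  have h5 : ‖x - y‖ ^ 2 ≤ ε ^ 2 := by
    rw [h4]
    nlinarith
  exact abs_le_of_sq_le_sq' h5 hε |>.2

open Classical in
theorem main_det {d M T L : ℕ} (hd : 1000 ≤ d) (hL : 1 ≤ L) {S Ω : Type*} [Fintype S]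
    [MeasurableSpace Ω] (hS : Fintype.card S ≤ 2 ^ M) (A : Learner d S Ω) (ω : Ω) {ε : ℝ}
    (hε : ε ≤ 1 / 64 * (1 / 4) ^ L)
    (hsucc : ENNReal.ofReal (2 / 3) ≤ ((unif d).prod (rows (Eu d) T))
      {p | Real.arccos ⟪(A.estimate T ω p.2 p.1.1 : Eu d), p.1.1⟫ ≤ ε}) :
    (1 / 1000000 : ℝ) * d ^ 3 * L ≤ (T + d) * (d ^ 2 + M) := by
  have hd0 : NeZero d := ⟨by omega⟩
  set q := d / 4 with hq
  have hq2 : 2 ≤ q := by omega
  have hqd : 4 * q ≤ d := by omega
  -- number of phases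
  set P := (T + q - 1) / q with hP
  have hq0 : 0 < q := by omega
  have hP1 : q * P < T + q := by
    have h1 : q * P ≤ T + q - 1 := by rw [hP]; exact Nat.mul_div_le _ _
    omega
  have hP2 : T ≤ q * P := by
    have h1 : T + q - 1 < q * (P + 1) := by
      rw [hP]; exact Nat.lt_mul_div_succ _ hq0
    rw [Nat.mul_add, Nat.mul_one] at h1
    omega
  obtain ⟨m, hm⟩ := Nat.exists_eq_add_of_le hP2
  have hinit : Nonempty S := ⟨A.init ω⟩
  have hcard : 1 ≤ Fintype.card S := Fintype.card_pos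
  set st := mach A ω T with hst
  -- the success hypothesis
  have hs1 : ((unif d).prod (rows (Eu d) T))
      {p | Real.arccos ⟪(A.estimate T ω p.2 p.1.1 : Eu d), p.1.1⟫ ≤ ε} =
      ∫⁻ s, rows (Eu d) T {X | Real.arccos ⟪(A.estimate T ω X s.1 : Eu d), s.1⟫ ≤ ε}
        ∂(unif d) := by
    rw [Measure.prod_apply]
    · rfl
    · have h1 : Measurable (fun p : Metric.sphere (0 : Eu d) 1 × (Fin T → Eu d) =>
          A.estimate T ω p.2 p.1.1) :=
        (A.measurable_estimate T).comp (measurable_const.prodMk measurable_id)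
      have h2 : Measurable (fun p : Metric.sphere (0 : Eu d) 1 × (Fin T → Eu d) =>
          ⟪(A.estimate T ω p.2 p.1.1 : Eu d), p.1.1⟫) :=
        (measurable_subtype_coe.comp h1).inner (measurable_subtype_coe.comp measurable_fst)
      exact measurableSet_le (Real.measurable_arccos.comp h2) measurable_const
  have hs2 : ∀ s : Metric.sphere (0 : Eu d) 1,
      rows (Eu d) T {X | Real.arccos ⟪(A.estimate T ω X s.1 : Eu d), s.1⟫ ≤ ε} ≤
      rows (Eu d) (q * P) {X | ‖machOut A ω T (run st (q * P) 0 X (lab X s.1)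
        (.inl (A.init ω))) - s.1‖ ≤ ε} := by
    intro s
    have h1 : {X : Fin T → Eu d | Real.arccos ⟪(A.estimate T ω X s.1 : Eu d), s.1⟫ ≤ ε} ⊆
        {X | run st T 0 X (lab X s.1) (.inl (A.init ω)) ∈
          {v | ‖machOut A ω T v - s.1‖ ≤ ε}} := by
      intro X hX
      have h2 : machOut A ω T (run st T 0 X (lab X s.1) (.inl (A.init ω))) =
          (A.estimate T ω X s.1).1 := machOut_run T 0 (by omega) X (lab X s.1) (A.init ω)
      show ‖machOut A ω T (run st T 0 X (lab X s.1) (.inl (A.init ω))) - s.1‖ ≤ ε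
      rw [h2]
      exact norm_le_of_arccos (by simp) (by simp) hX
    refine (measure_mono h1).trans ?_
    rw [hm]
    exact pad m _ _ _
  have hsucc2 : ENNReal.ofReal (2 / 3) ≤ ∫⁻ s, rows (Eu d) (q * P)
      {X | ‖machOut A ω T (run st (q * P) 0 X (lab X s.1) (.inl (A.init ω))) - s.1‖ ≤ ε}
      ∂(unif d) := by
    rw [hs1] at hsucc
    exact hsucc.trans (lintegral_mono hs2)
  obtain ⟨hA, hB⟩ := core (st := st) (Q := (q + 1) * 2 ^ M) hq2 hqd hL
    (fun i u v => measurable_mach i u v) (.inl (A.init ω)) (Nat.mul_pos (by omega) (by positivity))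
    (fun i u s hs => (reach_card q i u s hs).trans (Nat.mul_le_mul_left _ hS))
    (machOut A ω T) hε hsucc2
  refine numbers hd hq hP1 hL hA (hB.trans (add_le_add le_rfl ?_))
  apply Real.log_le_log (by exact_mod_cast Fintype.card_pos)
  have h5 : Fintype.card (MS S T) ≤ (T + 2) * 2 ^ M := by
    rw [Fintype.card_sum, Fintype.card_prod, Fintype.card_fin]
    nlinarith
  exact_mod_cast h5

/-- the general trade-off -/
theorem main {d M T : ℕ} (hd : 1000 ≤ d) {ε : ℝ} (hε0 : 0 < ε) (hε : ε ≤ Real.exp (-100))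
    {S Ω : Type*} [Fintype S] [MeasurableSpace Ω] (hS : Fintype.card S ≤ 2 ^ M)
    (P : Measure Ω) [IsProbabilityMeasure P] (A : Learner d S Ω) (hA : A.Succeeds P T ε) :
    (1 / 4000000 : ℝ) * d ^ 3 * Real.log (1 / ε) ≤ (T + d) * (d ^ 2 + M) := by
  have hd0 : NeZero d := ⟨by omega⟩
  have hunif : IsProbabilityMeasure (unif d) := inferInstance
  have hmeas : MeasurableSet {p : Ω × Metric.sphere (0 : Eu d) 1 × (Fin T → Eu d) |
      Real.arccos ⟪(A.estimate T p.1 p.2.2 p.2.1.1 : Eu d), p.2.1.1⟫ ≤ ε} := by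
    have h2 : Measurable (fun p : Ω × Metric.sphere (0 : Eu d) 1 × (Fin T → Eu d) =>
        ⟪(A.estimate T p.1 p.2.2 p.2.1.1 : Eu d), p.2.1.1⟫) :=
      (measurable_subtype_coe.comp (A.measurable_estimate T)).inner
        (measurable_subtype_coe.comp (measurable_fst.comp measurable_snd))
    exact measurableSet_le (Real.measurable_arccos.comp h2) measurable_const
  have h1 : ENNReal.ofReal (2 / 3) ≤ (P.prod ((unif d).prod (rows (Eu d) T)))
      {p | Real.arccos ⟪(A.estimate T p.1 p.2.2 p.2.1.1 : Eu d), p.2.1.1⟫ ≤ ε} := by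
    have h2 : (2 / 3 : ℝ) ≤ (P.prod ((unif d).prod (rows (Eu d) T))).real
      {p | Real.arccos ⟪(A.estimate T p.1 p.2.2 p.2.1.1 : Eu d), p.2.1.1⟫ ≤ ε} := hA
    exact ENNReal.ofReal_le_of_le_toReal h2
  rw [Measure.prod_apply hmeas] at h1
  obtain ⟨ω, hω⟩ := exists_lintegral_le (μ := P)
    (f := fun ω => ((unif d).prod (rows (Eu d) T))
      (Prod.mk ω ⁻¹' {p | Real.arccos ⟪(A.estimate T p.1 p.2.2 p.2.1.1 : Eu d), p.2.1.1⟫ ≤ ε}))
    (by
      refine ne_of_lt (lt_of_le_of_lt (lintegral_mono fun ω => prob_le_one) ?_)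
      simp)
  have h3 := h1.trans hω
  -- the number of levels
  set L := ⌊Real.log (1 / (64 * ε)) / Real.log 4⌋₊ with hL
  have hlog4 : 0 < Real.log 4 := Real.log_pos (by norm_num)
  have hlog4' : Real.log 4 = 2 * Real.log 2 := by
    rw [show (4 : ℝ) = 2 ^ 2 by norm_num, Real.log_pow]; norm_num
  have hl2 := Real.log_two_gt_d9
  have hl2' := Real.log_two_lt_d9
  have hlε : 100 ≤ Real.log (1 / ε) := by
    rw [one_div, Real.log_inv]
    have := Real.log_le_log hε0 hε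
    rw [Real.log_exp] at this
    linarith
  have hsplit : Real.log (1 / (64 * ε)) = Real.log (1 / ε) - 6 * Real.log 2 := by
    rw [one_div, one_div, Real.log_inv, Real.log_inv, Real.log_mul (by norm_num) hε0.ne',
      show (64 : ℝ) = 2 ^ 6 by norm_num, Real.log_pow]
    push_cast; ring
  have hpos : 0 ≤ Real.log (1 / (64 * ε)) / Real.log 4 := by
    apply div_nonneg _ hlog4.le
    rw [hsplit]; linarith
  have hLle : (L : ℝ) ≤ Real.log (1 / (64 * ε)) / Real.log 4 := Nat.floor_le hpos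
  have hLge : Real.log (1 / (64 * ε)) / Real.log 4 < L + 1 := Nat.lt_floor_add_one _
  have hLbig : (1 / 4 : ℝ) * Real.log (1 / ε) ≤ L := by
    rw [div_lt_iff₀ hlog4, hsplit, hlog4'] at hLge
    nlinarith
  have hL1 : 1 ≤ L := by
    have h4 : (1 : ℝ) ≤ L := by linarith
    exact_mod_cast h4
  have hεL : ε ≤ 1 / 64 * (1 / 4) ^ L := by
    have h4 : (L : ℝ) * Real.log 4 ≤ Real.log (1 / (64 * ε)) := by
      rwa [le_div_iff₀ hlog4] at hLle
    have h5 : (4 : ℝ) ^ L ≤ 1 / (64 * ε) := by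
      rw [← Real.log_le_log_iff (by positivity) (by positivity), Real.log_pow]
      exact h4
    have h6 : (1 / 4 : ℝ) ^ L = 1 / 4 ^ L := by rw [one_div_pow]
    rw [h6]
    rw [le_div_iff₀ (by positivity)] at h5
    rw [show (1 : ℝ) / 64 * (1 / 4 ^ L) = 1 / (64 * 4 ^ L) by field_simp, le_div_iff₀
      (by positivity)]
    linarith
  have hfin := main_det hd hL1 hS A ω hεL h3
  calc (1 / 4000000 : ℝ) * d ^ 3 * Real.log (1 / ε)
      = (1 / 1000000 : ℝ) * d ^ 3 * ((1 / 4) * Real.log (1 / ε)) := by ring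
    _ ≤ (1 / 1000000 : ℝ) * d ^ 3 * L := mul_le_mul_of_nonneg_left hLbig (by positivity)
    _ ≤ _ := hfin

/-- memory `M ≤ K d²` forces `Ω(d log (1/ε))` samples -/
theorem main_linear {K : ℝ} (hK : 0 < K) {d M T : ℕ} (hd : 1000 ≤ d) {ε : ℝ} (hε0 : 0 < ε)
    (hε : ε ≤ Real.exp (-(8000000 * (K + 1)))) (hM : M ≤ K * d ^ 2)
    {S Ω : Type*} [Fintype S] [MeasurableSpace Ω] (hS : Fintype.card S ≤ 2 ^ M)
    (P : Measure Ω) [IsProbabilityMeasure P] (A : Learner d S Ω) (hA : A.Succeeds P T ε) :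
    1 / (8000000 * (K + 1)) * (d * Real.log (1 / ε)) ≤ T := by
  have hdR : (1000 : ℝ) ≤ d := by exact_mod_cast hd
  have hd0 : (0 : ℝ) < d := by linarith
  have hε' : ε ≤ Real.exp (-100) := by
    refine hε.trans (Real.exp_le_exp.mpr ?_)
    linarith
  have h1 := main hd hε0 hε' hS P A hA
  have hlε : 8000000 * (K + 1) ≤ Real.log (1 / ε) := by
    rw [one_div, Real.log_inv]
    have := Real.log_le_log hε0 hε
    rw [Real.log_exp] at this
    linarith
  have h2 : ((T : ℝ) + d) * (d ^ 2 + M) ≤ (T + d) * ((K + 1) * d ^ 2) := by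
    apply mul_le_mul_of_nonneg_left _ (by positivity)
    linarith
  have h3 : (1 / 4000000 : ℝ) * (d * Real.log (1 / ε)) * d ^ 2 ≤ ((T + d) * (K + 1)) * d ^ 2 := by
    calc (1 / 4000000 : ℝ) * (d * Real.log (1 / ε)) * d ^ 2 =
        (1 / 4000000 : ℝ) * d ^ 3 * Real.log (1 / ε) := by ring
      _ ≤ (T + d) * ((K + 1) * d ^ 2) := h1.trans h2
      _ = _ := by ring
  have h4 := le_of_mul_le_mul_right h3 (by positivity)
  have h5 : (d : ℝ) * (8000000 * (K + 1)) ≤ d * Real.log (1 / ε) :=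
    mul_le_mul_of_nonneg_left hlε hd0.le
  rw [one_div, inv_mul_le_iff₀ (by positivity)]
  nlinarith

end P309
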