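import Vale.Agent.P309.Final

/-!
# P309 : too little memory
-/

namespace P309

open MeasureTheory ProbabilityTheory
open scoped ENNReal RealInnerProductSpace

/-- `d log (1/ε) / 100` bits are not enough, whatever the horizon, if the output is a function of
the final state only -/
theorem core_crude {d q L : ℕ} (hq : 1 ≤ q) (hqd : 4 * q ≤ d) {n : ℕ} {U : Type*} [Fintype U]
    (F : (Fin n → Eu d) × (Fin n → ℝ) → U) (hF : ∀ u, MeasurableSet {p | F p = u})
    (out : U → Eu d) {ε : ℝ} (hε : ε ≤ 1 / 64 * (1 / 4) ^ L)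
    (hsucc : ENNReal.ofReal (2 / 3) ≤ ∫⁻ s, rows (Eu d) n
      {X | ‖out (F (X, lab X s.1)) - s.1‖ ≤ ε} ∂(unif d)) :
    2 / 3 * (L * (q * Real.log 2)) ≤ d + 4 + Real.log (Fintype.card U) := by
  classical
  have hd : 1 ≤ d := by omega
  set HU : U → Set ((Fin n → Eu d) × (Fin n → ℝ)) := fun u => {p | F p = u} with hHU
  have hdisj : Pairwise (Function.onFun Disjoint HU) := by
    intro u v huv
    rw [Function.onFun, Set.disjoint_left]
    intro p h1 h2
    exact huv (h1.symm.trans h2)
  have hcov : ⋃ u, HU u = Set.univ := by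
    ext p; simp [hHU]
  set g : U → Eu d → ℝ := fun v => msg (HU v) with hg
  have hg0 : ∀ v t, 0 ≤ g v t := fun v t => msg_nonneg _ _
  have hgl : ∀ v t, g v t ≤ 1 := fun v t => msg_le_one _ _
  have hgm : ∀ v, Measurable (g v) := fun v => measurable_msg (hF v)
  have hg1 : ∀ t, ∑ v, g v t = 1 := by
    intro t
    simp only [hg]
    rw [msg_sum (H := HU) hF hdisj, hcov]
    unfold msg
    simp
  -- indicator of success
  set I : U → Eu d → ℝ := fun v s => if ‖out v - s‖ ≤ ε then 1 else 0 with hI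
  have hIm : ∀ v, Measurable (I v) := by
    intro v
    refine Measurable.ite ?_ measurable_const measurable_const
    exact measurableSet_le (measurable_const.sub measurable_id).norm measurable_const
  have hI0 : ∀ v s, 0 ≤ I v s := fun v s => by
    simp only [hI]; split_ifs <;> norm_num
  have hI1 : ∀ v s, I v s ≤ 1 := fun v s => by
    simp only [hI]; split_ifs <;> norm_num
  set φ : Eu d → ℝ≥0∞ := fun s => ∑ v, ENNReal.ofReal (g v s * I v s) with hφ
  have hφm : Measurable φ :=
    Finset.measurable_fun_sum _ fun v _ => ((hgm v).mul (hIm v)).ennreal_ofReal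
  have hsph : ∀ s : Metric.sphere (0 : Eu d) 1, rows (Eu d) n
      {X | ‖out (F (X, lab X s.1)) - s.1‖ ≤ ε} ≤ φ s.1 := by
    intro s
    have hs1 : ‖s.1‖ = 1 := by simp
    have h1 : {X : Fin n → Eu d |
        ‖out (F (X, lab X s.1)) - s.1‖ ≤ ε} ⊆
        ⋃ v, {X | (X, lab X (sg s.1)) ∈ HU v ∧ ‖out v - s.1‖ ≤ ε} := by
      intro X hX
      rw [Set.mem_iUnion]
      refine ⟨F (X, lab X s.1), ?_, hX⟩
      rw [sg_sphere hs1]
      rfl
    refine (measure_mono h1).trans ((measure_iUnion_fintype_le _ _).trans ?_)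
    refine Finset.sum_le_sum fun v _ => ?_
    by_cases h : ‖out v - s.1‖ ≤ ε
    · have h2 : I v s.1 = 1 := by simp only [hI]; rw [if_pos h]
      rw [h2, mul_one]
      simp only [hg]
      unfold msg
      rw [ofReal_measureReal]
      exact measure_mono fun X hX => hX.1
    · have h3 : {X : Fin n → Eu d | (X, lab X (sg s.1)) ∈ HU v ∧
          ‖out v - s.1‖ ≤ ε} = ∅ := by
        ext X; simp [h]
      rw [h3]; simp
  have h4 : ENNReal.ofReal (2 / 3) * volume (ann d) ≤ ∫⁻ t in ann d, φ (sg t) := by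
    rw [ann_sphere hd hφm, mul_comm]
    refine mul_le_mul' le_rfl (hsucc.trans (lintegral_mono fun s => hsph s))
  have hgs : ∀ v (t : Eu d), t ∈ ann d → g v (sg t) = g v t := by
    intro v t ht
    simp only [hg]
    unfold msg
    rw [sg_sphere (sg_ann ht)]
  have hint : ∀ v, Integrable (fun t => g v t * I v (sg t)) (volume.restrict (ann d)) := by
    intro v
    have : IsFiniteMeasure ((volume : Measure (Eu d)).restrict (ann d)) :=
      ⟨by rw [Measure.restrict_apply_univ]; exact ann_lt_top⟩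
    refine Integrable.of_bound
      ((hgm v).mul ((hIm v).comp measurable_sg)).aestronglyMeasurable 1 ?_
    refine Filter.Eventually.of_forall fun t => ?_
    rw [Real.norm_of_nonneg (mul_nonneg (hg0 _ _) (hI0 _ _))]
    exact mul_le_one₀ (hgl _ _) (hI0 _ _) (hI1 _ _)
  have h5 : ∫⁻ t in ann d, φ (sg t) =
      ENNReal.ofReal (∑ v, ∫ t in ann d, g v t * I v (sg t)) := by
    rw [ENNReal.ofReal_sum_of_nonneg fun v _ => integral_nonneg fun t =>
      mul_nonneg (hg0 _ _) (hI0 _ _)]
    simp only [hφ]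
    rw [lintegral_finsetSum]
    · refine Finset.sum_congr rfl fun v _ => ?_
      rw [ofReal_integral_eq_lintegral_ofReal (hint v) (Filter.Eventually.of_forall fun t =>
        mul_nonneg (hg0 _ _) (hI0 _ _))]
      refine setLIntegral_congr_fun (measurableSet_ann d) fun t ht => ?_
      rw [hgs v t ht]
    · intro v _
      exact (((hgm v).comp measurable_sg).mul ((hIm v).comp measurable_sg)).ennreal_ofReal
  have hsucc' : 2 / 3 * volume.real (ann d) ≤
      ∑ v, ∫ t in ann d, g v t * (if ‖out v - sg t‖ ≤ ε then 1 else 0) := by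
    have h6 : ENNReal.ofReal (2 / 3 * volume.real (ann d)) ≤
        ENNReal.ofReal (∑ v, ∫ t in ann d, g v t * I v (sg t)) := by
      rw [← h5, ENNReal.ofReal_mul (by norm_num), ofReal_measureReal ann_lt_top.ne]
      exact h4
    refine (ENNReal.ofReal_le_ofReal_iff ?_).mp h6
    exact Finset.sum_nonneg fun v _ => integral_nonneg fun t => mul_nonneg (hg0 _ _) (hI0 _ _)
  have hfin := final_bound (L := L) (q := q) hq hqd hg0 hgm hg1 out hε hsucc'
  have hini := init_bound (q := q) (d := d) (L := L) hq hqd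
  have hcr := crude (q := q) (L := L) (a := a0 d) a0_nonneg measurable_a0 integrable_a0
    (f := g) hg0 hgm hg1
  rw [integral_a0 hd, one_mul] at hcr
  have h7 : ∑ v, Pot L (2 ^ q) (fun t => a0 d t * g v t) ≤
      2 + 1 / 3 * (L * (q * Real.log 2)) := hfin
  have h8 : L * (q * Real.log 2) - d ≤ Pot L (2 ^ q) (a0 d) := hini
  linarith

/-- final state of the machine -/
def fin_state {S : Type*} {T : ℕ} : MS S T → S
  | .inl u => u
  | .inr p => p.2

theorem impossible {d M T : ℕ} (hd : 1000 ≤ d) {ε : ℝ} (hε0 : 0 < ε)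
    (hε : ε ≤ Real.exp (-1000)) (hM : (M : ℝ) ≤ 1 / 100 * (d * Real.log (1 / ε)))
    {S Ω : Type*} [Fintype S] [MeasurableSpace Ω] (hS : Fintype.card S ≤ 2 ^ M)
    (P : Measure Ω) [IsProbabilityMeasure P] (A : Learner d S Ω)
    (hout : ∀ i j ω u, A.out i ω u = A.out j ω u) : ¬ A.Succeeds P T ε := by
  classical
  intro hA
  have hd0 : NeZero d := ⟨by omega⟩
  have hunif : IsProbabilityMeasure (unif d) := inferInstance
  have hmeas : MeasurableSet {p : Ω × Metric.sphere (0 : Eu d) 1 × (Fin T → Eu d) |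
      Real.arccos ⟪(A.estimate T p.1 p.2.2 p.2.1.1 : Eu d), p.2.1.1⟫ ≤ ε} := by
    have h2 : Measurable (fun p : Ω × Metric.sphere (0 : Eu d) 1 × (Fin T → Eu d) =>
        ⟪(A.estimate T p.1 p.2.2 p.2.1.1 : Eu d), p.2.1.1⟫) :=
      (measurable_subtype_coe.comp (A.measurable_estimate T)).inner
        (measurable_subtype_coe.comp (measurable_fst.comp measurable_snd))
    exact measurableSet_le (Real.measurable_arccos.comp h2) measurable_const
  have h1 : ENNReal.ofReal (2 / 3) ≤ (P.prod ((unif d).prod (rows (Eu d) T)))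
      {p | Real.arccos ⟪(A.estimate T p.1 p.2.2 p.2.1.1 : Eu d), p.2.1.1⟫ ≤ ε} := by
    have h2 : (2 / 3 : ℝ) ≤ (P.prod ((unif d).prod (rows (Eu d) T))).real
      {p | Real.arccos ⟪(A.estimate T p.1 p.2.2 p.2.1.1 : Eu d), p.2.1.1⟫ ≤ ε} := hA
    exact ENNReal.ofReal_le_of_le_toReal h2
  rw [Measure.prod_apply hmeas] at h1
  obtain ⟨ω, hω⟩ := exists_lintegral_le (μ := P)
    (f := fun ω => ((unif d).prod (rows (Eu d) T))
      (Prod.mk ω ⁻¹' {p | Real.arccos ⟪(A.estimate T p.1 p.2.2 p.2.1.1 : Eu d), p.2.1.1⟫ ≤ ε}))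
    (by
      refine ne_of_lt (lt_of_le_of_lt (lintegral_mono fun ω => prob_le_one) ?_)
      simp)
  have h3 : ENNReal.ofReal (2 / 3) ≤ ((unif d).prod (rows (Eu d) T))
      {p | Real.arccos ⟪(A.estimate T ω p.2 p.1.1 : Eu d), p.1.1⟫ ≤ ε} := h1.trans hω
  rw [Measure.prod_apply (by
    have h1 : Measurable (fun p : Metric.sphere (0 : Eu d) 1 × (Fin T → Eu d) =>
        A.estimate T ω p.2 p.1.1) :=
      (A.measurable_estimate T).comp (measurable_const.prodMk measurable_id)
    have h2 : Measurable (fun p : Metric.sphere (0 : Eu d) 1 × (Fin T → Eu d) =>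
        ⟪(A.estimate T ω p.2 p.1.1 : Eu d), p.1.1⟫) :=
      (measurable_subtype_coe.comp h1).inner (measurable_subtype_coe.comp measurable_fst)
    exact measurableSet_le (Real.measurable_arccos.comp h2) measurable_const)] at h3
  -- the number of levels
  set L := ⌊Real.log (1 / (64 * ε)) / Real.log 4⌋₊ with hL
  have hlog4 : 0 < Real.log 4 := Real.log_pos (by norm_num)
  have hlog4' : Real.log 4 = 2 * Real.log 2 := by
    rw [show (4 : ℝ) = 2 ^ 2 by norm_num, Real.log_pow]; norm_num
  have hl2 := Real.log_two_gt_d9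
  have hl2' := Real.log_two_lt_d9
  have hlε : 1000 ≤ Real.log (1 / ε) := by
    rw [one_div, Real.log_inv]
    have := Real.log_le_log hε0 hε
    rw [Real.log_exp] at this
    linarith
  have hsplit : Real.log (1 / (64 * ε)) = Real.log (1 / ε) - 6 * Real.log 2 := by
    rw [one_div, one_div, Real.log_inv, Real.log_inv, Real.log_mul (by norm_num) hε0.ne',
      show (64 : ℝ) = 2 ^ 6 by norm_num, Real.log_pow]
    push_cast; ring
  have hpos : 0 ≤ Real.log (1 / (64 * ε)) / Real.log 4 := by
    apply div_nonneg _ hlog4.le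
    rw [hsplit]; linarith
  have hLle : (L : ℝ) ≤ Real.log (1 / (64 * ε)) / Real.log 4 := Nat.floor_le hpos
  have hLge : Real.log (1 / (64 * ε)) / Real.log 4 < L + 1 := Nat.lt_floor_add_one _
  have hLbig : (1 / 4 : ℝ) * Real.log (1 / ε) ≤ L := by
    rw [div_lt_iff₀ hlog4, hsplit, hlog4'] at hLge
    nlinarith
  have hεL : ε ≤ 1 / 64 * (1 / 4) ^ L := by
    have h4 : (L : ℝ) * Real.log 4 ≤ Real.log (1 / (64 * ε)) := by
      rwa [le_div_iff₀ hlog4] at hLle
    have h5 : (4 : ℝ) ^ L ≤ 1 / (64 * ε) := by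
      rw [← Real.log_le_log_iff (by positivity) (by positivity), Real.log_pow]
      exact h4
    have h6 : (1 / 4 : ℝ) ^ L = 1 / 4 ^ L := by rw [one_div_pow]
    rw [h6]
    rw [le_div_iff₀ (by positivity)] at h5
    rw [show (1 : ℝ) / 64 * (1 / 4 ^ L) = 1 / (64 * 4 ^ L) by field_simp, le_div_iff₀
      (by positivity)]
    linarith
  -- final states as messages
  set q := d / 4 with hq
  set F : (Fin T → Eu d) × (Fin T → ℝ) → S := fun p =>
    fin_state (run (mach A ω T) T 0 p.1 p.2 (.inl (A.init ω))) with hF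
  have hFm : ∀ u, MeasurableSet {p | F p = u} := by
    intro u
    have h5 : {p | F p = u} = ⋃ v ∈ (Finset.univ.filter fun v : MS S T => fin_state v = u),
        {p : (Fin T → Eu d) × (Fin T → ℝ) |
          run (mach A ω T) T 0 p.1 p.2 (.inl (A.init ω)) = v} := by
      ext p
      simp [hF]
    rw [h5]
    exact Finset.measurableSet_biUnion _ fun v _ =>
      measurableSet_run (fun i u v => measurable_mach i u v) T 0 _ v
  have hmo : ∀ v : MS S T, machOut A ω T v = (A.out T ω (fin_state v)).1 := by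
    intro v
    cases v with
    | inl u => rfl
    | inr p => simp only [machOut, fin_state]; rw [hout p.1 T ω p.2]
  have key := core_crude (q := q) (L := L) (by omega) (by omega) F hFm
    (fun u => (A.out T ω u).1) hεL (h3.trans (lintegral_mono fun s => measure_mono fun X hX => by
      show ‖(A.out T ω (fin_state (run (mach A ω T) T 0 X (lab X s.1) (.inl (A.init ω))))).1 -
        s.1‖ ≤ ε
      rw [← hmo, machOut_run T 0 (by omega) X (lab X s.1) (A.init ω)]
      exact norm_le_of_arccos (by simp) (by simp) hX))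
  have hdR : (1000 : ℝ) ≤ d := by exact_mod_cast hd
  have hq8 : d ≤ 8 * q := by omega
  have hq8R : (d : ℝ) ≤ 8 * q := by exact_mod_cast hq8
  have hinit : Nonempty S := ⟨A.init ω⟩
  have hlogS : Real.log (Fintype.card S) ≤ M := by
    have h5 : Real.log (Fintype.card S) ≤ Real.log ((2 : ℝ) ^ M) := by
      apply Real.log_le_log (by exact_mod_cast Fintype.card_pos)
      exact_mod_cast hS
    rw [Real.log_pow] at h5
    have h6 : (0 : ℝ) ≤ M := Nat.cast_nonneg M
    nlinarith
  have hL0 : (0 : ℝ) ≤ L := Nat.cast_nonneg L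
  have hlow : (57 / 1000 : ℝ) * (d * L) ≤ 2 / 3 * (L * (q * Real.log 2)) := by
    have h1 : (d : ℝ) * L ≤ 8 * (q * L) := by
      have := mul_le_mul_of_nonneg_right hq8R hL0
      linarith
    have h4 : (0 : ℝ) ≤ q * L := by positivity
    have h2 : (q : ℝ) * L * 0.6931471803 ≤ q * L * Real.log 2 :=
      mul_le_mul_of_nonneg_left hl2.le h4
    have h3 : (L : ℝ) * (q * Real.log 2) = q * L * Real.log 2 := by ring
    rw [h3]
    linarith
  have h9 : (57 / 4000 : ℝ) * (d * Real.log (1 / ε)) ≤ 57 / 1000 * (d * L) := by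
    have := mul_le_mul_of_nonneg_left hLbig (show (0 : ℝ) ≤ d by linarith)
    linarith
  have h10 : 1000 * (d : ℝ) ≤ d * Real.log (1 / ε) := by
    have := mul_le_mul_of_nonneg_left hlε (show (0 : ℝ) ≤ d by linarith)
    linarith
  linarith

end P309
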