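import Vale.Agent.P309.Defs
import Vale.Agent.P226.Density

namespace P309

open MeasureTheory ProbabilityTheory
open scoped ENNReal RealInnerProductSpace

namespace Kacz

variable {d : ℕ}

theorem meas_frac (b : Eu d) : Measurable (fun x : Eu d => ⟪x, b⟫ ^ 2 / ‖x‖ ^ 2) := by
  fun_prop

theorem frac_nonneg (x b : Eu d) : 0 ≤ ⟪x, b⟫ ^ 2 / ‖x‖ ^ 2 := by positivity

theorem frac_le (x b : Eu d) : ⟪x, b⟫ ^ 2 / ‖x‖ ^ 2 ≤ ‖b‖ ^ 2 := by
  rcases eq_or_ne x 0 with h | h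
  · simp [h]
  · have hx : 0 < ‖x‖ := norm_pos_iff.mpr h
    rw [div_le_iff₀ (by positivity)]
    have h1 := abs_real_inner_le_norm x b
    have h2 : ⟪x, b⟫ ^ 2 = |⟪x, b⟫| ^ 2 := (sq_abs _).symm
    rw [h2]
    calc |⟪x, b⟫| ^ 2 ≤ (‖x‖ * ‖b‖) ^ 2 := pow_le_pow_left₀ (abs_nonneg _) h1 2
      _ = ‖b‖ ^ 2 * ‖x‖ ^ 2 := by ring

theorem integrable_frac (b : Eu d) :
    Integrable (fun x : Eu d => ⟪x, b⟫ ^ 2 / ‖x‖ ^ 2) (stdGaussian (Eu d)) := by
  refine Integrable.of_bound (meas_frac b).aestronglyMeasurable (‖b‖ ^ 2) ?_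
  refine Filter.Eventually.of_forall fun x => ?_
  rw [Real.norm_of_nonneg (frac_nonneg x b)]
  exact frac_le x b

theorem frac_eq {b c : Eu d} (h : ‖b‖ = ‖c‖) :
    ∫ x, ⟪x, b⟫ ^ 2 / ‖x‖ ^ 2 ∂(stdGaussian (Eu d)) =
      ∫ x, ⟪x, c⟫ ^ 2 / ‖x‖ ^ 2 ∂(stdGaussian (Eu d)) := by
  set R := (ℝ ∙ (b - c))ᗮ.reflection with hR
  have h1 : R b = c := Submodule.reflection_sub h
  have h2 : R c = b := by rw [← h1, hR, Submodule.reflection_reflection]
  have h3 : (stdGaussian (Eu d)).map R = stdGaussian (Eu d) := stdGaussian_map R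
  conv_lhs => rw [← h3]
  rw [integral_map R.continuous.measurable.aemeasurable (meas_frac b).aestronglyMeasurable]
  refine integral_congr_ae (Filter.Eventually.of_forall fun x => ?_)
  show ⟪R x, b⟫ ^ 2 / ‖R x‖ ^ 2 = ⟪x, c⟫ ^ 2 / ‖x‖ ^ 2
  rw [LinearIsometryEquiv.norm_map]
  congr 2
  rw [← h2]
  exact R.inner_map_map x c

theorem gauss_zero (hd : 1 ≤ d) : stdGaussian (Eu d) {0} = 0 := by
  have : Nonempty (Fin d) := ⟨⟨0, hd⟩⟩
  rw [P226.stdGaussian_eq_withDensity]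
  exact withDensity_absolutelyContinuous _ _ (measure_singleton 0)

theorem frac_unit (hd : 1 ≤ d) {b : Eu d} (hb : ‖b‖ = 1) :
    ∫ x, ⟪x, b⟫ ^ 2 / ‖x‖ ^ 2 ∂(stdGaussian (Eu d)) = 1 / d := by
  have h1 : ∀ j : Fin d, ∫ x, ⟪x, EuclideanSpace.single j (1 : ℝ)⟫ ^ 2 / ‖x‖ ^ 2
      ∂(stdGaussian (Eu d)) = ∫ x, ⟪x, b⟫ ^ 2 / ‖x‖ ^ 2 ∂(stdGaussian (Eu d)) := fun j =>
    frac_eq (by rw [hb]; simp)
  have h2 : ∑ j : Fin d, ∫ x, ⟪x, EuclideanSpace.single j (1 : ℝ)⟫ ^ 2 / ‖x‖ ^ 2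
      ∂(stdGaussian (Eu d)) = 1 := by
    rw [← integral_finsetSum _ fun j _ => integrable_frac _]
    have h3 : ∫ x : Eu d, ∑ j : Fin d, ⟪x, EuclideanSpace.single j (1 : ℝ)⟫ ^ 2 / ‖x‖ ^ 2
        ∂(stdGaussian (Eu d)) = ∫ _x : Eu d, (1 : ℝ) ∂(stdGaussian (Eu d)) := by
      refine integral_congr_ae ?_
      have h4 : ∀ᵐ x ∂(stdGaussian (Eu d)), x ≠ 0 := by
        rw [ae_iff]
        simpa using gauss_zero hd
      filter_upwards [h4] with x hx
      rw [← Finset.sum_div]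
      have h5 : ∑ j : Fin d, ⟪x, EuclideanSpace.single j (1 : ℝ)⟫ ^ 2 = ‖x‖ ^ 2 := by
        rw [EuclideanSpace.real_norm_sq_eq]
        refine Finset.sum_congr rfl fun j _ => ?_
        rw [real_inner_comm, EuclideanSpace.inner_single_left]
        simp
      rw [h5]
      exact div_self (by positivity)
    rw [h3]
    simp
  simp only [h1] at h2
  rw [Finset.sum_const, Finset.card_univ, Fintype.card_fin, nsmul_eq_mul] at h2
  have hd0 : (d : ℝ) ≠ 0 := by exact_mod_cast (by omega : d ≠ 0)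
  field_simp
  linarith

theorem frac_val (hd : 1 ≤ d) (e : Eu d) :
    ∫ x, ⟪x, e⟫ ^ 2 / ‖x‖ ^ 2 ∂(stdGaussian (Eu d)) = ‖e‖ ^ 2 / d := by
  rcases eq_or_ne e 0 with h | h
  · simp [h]
  · have he : 0 < ‖e‖ := norm_pos_iff.mpr h
    have h1 : ∀ x : Eu d, ⟪x, e⟫ ^ 2 / ‖x‖ ^ 2 =
        ‖e‖ ^ 2 * (⟪x, ‖e‖⁻¹ • e⟫ ^ 2 / ‖x‖ ^ 2) := by
      intro x
      rw [inner_smul_right]
      field_simp
    simp only [h1]
    rw [integral_const_mul, frac_unit hd (by rw [norm_smul, norm_inv, norm_norm,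
      inv_mul_cancel₀ he.ne'])]
    ring

/-- the exact Kaczmarz error -/
noncomputable def err (e x : Eu d) : Eu d := e - (⟪x, e⟫ / ‖x‖ ^ 2) • x

theorem norm_err_sq (e x : Eu d) : ‖err e x‖ ^ 2 = ‖e‖ ^ 2 - ⟪x, e⟫ ^ 2 / ‖x‖ ^ 2 := by
  unfold err
  rcases eq_or_ne x 0 with h | h
  · simp [h]
  · have hx : 0 < ‖x‖ := norm_pos_iff.mpr h
    rw [norm_sub_sq_real, inner_smul_right, norm_smul, Real.norm_eq_abs, mul_pow, sq_abs,
      real_inner_comm x e]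
    field_simp
    ring

theorem norm_err_le (e x : Eu d) : ‖err e x‖ ≤ ‖e‖ := by
  have h1 := norm_err_sq e x
  have h2 := frac_nonneg x e
  exact le_of_sq_le_sq (by linarith) (norm_nonneg _)

theorem measurable_err (e : Eu d) : Measurable (err e) := by
  unfold err
  fun_prop

/-- one exact Kaczmarz step contracts the expected error by `1 - 1/(2d)` -/
theorem mean_err (hd : 1 ≤ d) (e : Eu d) :
    ∫ x, ‖err e x‖ ∂(stdGaussian (Eu d)) ≤ (1 - 1 / (2 * d)) * ‖e‖ := by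
  rcases eq_or_ne e 0 with h | h
  · have : ∀ x : Eu d, ‖err e x‖ = 0 := fun x =>
      le_antisymm (by simpa [h] using norm_err_le e x) (norm_nonneg _)
    simp only [this, integral_zero]
    rw [h, norm_zero, mul_zero]
  · have he : 0 < ‖e‖ := norm_pos_iff.mpr h
    have hdR : (1 : ℝ) ≤ d := by exact_mod_cast hd
    have hα : 0 < 1 - 1 / (2 * (d : ℝ)) := by
      have : 1 / (2 * (d : ℝ)) ≤ 1 / 2 := by
        apply one_div_le_one_div_of_le (by norm_num); linarith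
      linarith
    set c := (1 - 1 / (2 * (d : ℝ))) * ‖e‖ with hc
    have hc0 : 0 < c := mul_pos hα he
    have hI1 : Integrable (fun x => ‖err e x‖) (stdGaussian (Eu d)) := by
      refine Integrable.of_bound (measurable_err e).norm.aestronglyMeasurable ‖e‖ ?_
      exact Filter.Eventually.of_forall fun x => by rw [norm_norm]; exact norm_err_le e x
    have hI2 : Integrable (fun x : Eu d => ‖e‖ ^ 2 - ⟪x, e⟫ ^ 2 / ‖x‖ ^ 2)
        (stdGaussian (Eu d)) := (integrable_const _).sub (integrable_frac e)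
    have h1 : ∀ x, ‖err e x‖ ≤ (‖e‖ ^ 2 - ⟪x, e⟫ ^ 2 / ‖x‖ ^ 2) * (1 / (2 * c)) + c / 2 := by
      intro x
      rw [← norm_err_sq]
      have h2 := sq_nonneg (‖err e x‖ - c)
      have h3 : ‖err e x‖ ^ 2 * (1 / (2 * c)) + c / 2 - ‖err e x‖ =
          (‖err e x‖ - c) ^ 2 / (2 * c) := by
        field_simp
        ring
      have h4 : 0 ≤ (‖err e x‖ - c) ^ 2 / (2 * c) := by positivity
      linarith
    have h2 := integral_mono hI1 ((hI2.mul_const (1 / (2 * c))).add (integrable_const (c / 2))) h1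
    refine h2.trans ?_
    rw [integral_add' (hI2.mul_const _) (integrable_const _), integral_mul_const,
      integral_sub (integrable_const _) (integrable_frac e), frac_val hd]
    simp only [integral_const, probReal_univ, smul_eq_mul, one_mul]
    have h5 : ‖e‖ ^ 2 - ‖e‖ ^ 2 / d ≤ c ^ 2 := by
      rw [hc]
      have h6 : ((1 - 1 / (2 * (d : ℝ))) * ‖e‖) ^ 2 = ‖e‖ ^ 2 - ‖e‖ ^ 2 / d +
          ‖e‖ ^ 2 / (4 * d ^ 2) := by
        field_simp
        ring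
      rw [h6]
      have : 0 ≤ ‖e‖ ^ 2 / (4 * (d : ℝ) ^ 2) := by positivity
      linarith
    have h7 : (‖e‖ ^ 2 - ‖e‖ ^ 2 / d) * (1 / (2 * c)) ≤ c / 2 := by
      calc (‖e‖ ^ 2 - ‖e‖ ^ 2 / d) * (1 / (2 * c)) ≤ c ^ 2 * (1 / (2 * c)) :=
            mul_le_mul_of_nonneg_right h5 (by positivity)
        _ = c / 2 := by field_simp
    linarith

end Kacz

end P309
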