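import Vale.Agent.P309.Machine
import Vale.Agent.P309.Kacz
import Vale.Agent.P309.Grid
import Vale.Agent.P309.Sphere

/-!
# P309 : the matching upper bound (quantised Kaczmarz)
-/

namespace P309

open MeasureTheory ProbabilityTheory
open scoped ENNReal RealInnerProductSpace

namespace Up

variable {d : ℕ} {S : Type*} [Fintype S] [DecidableEq S]

/-- one step of the quantised Kaczmarz iteration, active for indices below `T0` -/
noncomputable def st (r : Eu d → S) (z : S → Eu d) (T0 : ℕ) (i : ℕ) (u : S) (x : Eu d) (y : ℝ) :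
    S :=
  if i < T0 then r (z u + ((y - ⟪x, z u⟫) / ‖x‖ ^ 2) • x) else u

variable {r : Eu d → S} {z : S → Eu d} {T0 : ℕ}

omit [Fintype S] [DecidableEq S] in
theorem measurable_st (hr : ∀ u, MeasurableSet {w | r w = u}) (i : ℕ) (u v : S) :
    MeasurableSet {p : Eu d × ℝ | st r z T0 i u p.1 p.2 = v} := by
  unfold st
  by_cases h : i < T0
  · simp only [if_pos h]
    have h1 : Measurable (fun p : Eu d × ℝ =>
        z u + ((p.2 - ⟪p.1, z u⟫) / ‖p.1‖ ^ 2) • p.1) := by fun_prop
    exact h1 (hr v)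
  · simp only [if_neg h]
    exact MeasurableSet.const _

/-- expected error after `n` more steps -/
noncomputable def V (r : Eu d → S) (z : S → Eu d) (T0 : ℕ) (s : Eu d) (n i : ℕ) (u : S) : ℝ :=
  ∑ v, (rows (Eu d) n).real {X | run (st r z T0) n i X (lab X s) u = v} * ‖z v - s‖

theorem V_zero (s : Eu d) (i : ℕ) (u : S) : V r z T0 s 0 i u = ‖z u - s‖ := by
  unfold V
  simp only [Run.law_zero]
  simp

theorem V_succ (hr : ∀ u, MeasurableSet {w | r w = u}) (s : Eu d) (n i : ℕ) (u : S) :
    V r z T0 s (n + 1) i u =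
      ∑ w, (stdGaussian (Eu d)).real {x | st r z T0 i u x ⟪x, s⟫ = w} *
        V r z T0 s n (i + 1) w := by
  unfold V
  simp only [Run.law_succ (fun i u v => measurable_st hr i u v), Finset.sum_mul, Finset.mul_sum]
  rw [Finset.sum_comm]
  exact Finset.sum_congr rfl fun w _ => Finset.sum_congr rfl fun v _ => by ring

omit [Fintype S] [DecidableEq S] in
/-- one active step moves the grid point close to the exact Kaczmarz update -/
theorem step_err {δ : ℝ} (hz : ∀ w, ‖w‖ ≤ 3 → ‖z (r w) - w‖ ≤ δ) {s : Eu d} (hs : ‖s‖ = 1)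
    {i : ℕ} (hi : i < T0) {u : S} (hu : ‖z u - s‖ ≤ 2) (x : Eu d) :
    ‖z (st r z T0 i u x ⟪x, s⟫) - s‖ ≤ ‖Kacz.err (s - z u) x‖ + δ := by
  set w := z u + ((⟪x, s⟫ - ⟪x, z u⟫) / ‖x‖ ^ 2) • x with hw
  have h1 : s - w = Kacz.err (s - z u) x := by
    unfold Kacz.err
    rw [hw, inner_sub_right]
    abel
  have h2 : ‖w‖ ≤ 3 := by
    have h3 : ‖s - w‖ ≤ 2 := by
      rw [h1]
      refine (Kacz.norm_err_le _ _).trans ?_
      rw [norm_sub_rev]; exact hu
    have h4 : ‖w‖ ≤ ‖s‖ + ‖s - w‖ := by
      calc ‖w‖ = ‖s - (s - w)‖ := by rw [sub_sub_cancel]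
        _ ≤ _ := norm_sub_le _ _
    linarith
  have h3 : st r z T0 i u x ⟪x, s⟫ = r w := by
    unfold st
    rw [if_pos hi]
  rw [h3]
  calc ‖z (r w) - s‖ = ‖(z (r w) - w) - (s - w)‖ := by congr 1; abel
    _ ≤ ‖z (r w) - w‖ + ‖s - w‖ := norm_sub_le _ _
    _ ≤ δ + ‖Kacz.err (s - z u) x‖ := by rw [← h1]; exact add_le_add (hz w h2) le_rfl
    _ = _ := by ring

omit [DecidableEq S] in
theorem sum_law {f : Eu d → S} (hf : ∀ w, MeasurableSet {x | f x = w}) (g : S → ℝ) :
    ∑ w, (stdGaussian (Eu d)).real {x | f x = w} * g w =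
      ∫ x, g (f x) ∂(stdGaussian (Eu d)) := by
  have h1 : ∀ x, g (f x) = ∑ w, {x | f x = w}.indicator (fun _ => g w) x := by
    intro x
    rw [Finset.sum_eq_single (f x)]
    · rw [Set.indicator_of_mem]; rfl
    · intro w _ hw
      exact Set.indicator_of_notMem (fun h => hw h.symm) _
    · intro h; exact absurd (Finset.mem_univ _) h
  simp only [h1]
  rw [integral_finsetSum]
  · refine Finset.sum_congr rfl fun w _ => ?_
    rw [integral_indicator_const _ (hf w), smul_eq_mul]
  · intro w _
    exact (integrable_const _).indicator (hf w)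

/-- contraction of the expected error -/
theorem V_le (hd : 1 ≤ d) (hr : ∀ u, MeasurableSet {w | r w = u}) {δ : ℝ} (hδ : 0 ≤ δ)
    (hz : ∀ w, ‖w‖ ≤ 3 → ‖z (r w) - w‖ ≤ δ) {s : Eu d} (hs : ‖s‖ = 1) (n : ℕ) :
    ∀ i u, T0 ≤ i + n → ‖z u - s‖ + (T0 - i : ℕ) * δ ≤ 2 →
      V r z T0 s n i u ≤ (1 - 1 / (2 * d)) ^ (T0 - i) * ‖z u - s‖ +
        2 * d * δ * (1 - (1 - 1 / (2 * d)) ^ (T0 - i)) := by
  have hdR : (1 : ℝ) ≤ d := by exact_mod_cast hd
  set α : ℝ := 1 - 1 / (2 * d) with hα
  have hα0 : 0 ≤ α := by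
    have : 1 / (2 * (d : ℝ)) ≤ 1 / 2 := one_div_le_one_div_of_le (by norm_num) (by linarith)
    rw [hα]; linarith
  induction n with
  | zero =>
    intro i u hi _
    have : T0 - i = 0 := by omega
    rw [V_zero, this]
    simp
  | succ n ih =>
    intro i u hi hu
    rw [V_succ hr]
    by_cases hiT : i < T0
    · obtain ⟨a, ha⟩ : ∃ a, T0 - i = a + 1 := ⟨T0 - i - 1, by omega⟩
      have ha' : T0 - (i + 1) = a := by omega
      rw [ha] at hu ⊢
      push_cast at hu
      have ha0 : (0 : ℝ) ≤ a := Nat.cast_nonneg a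
      have hu2 : ‖z u - s‖ ≤ 2 := by nlinarith
      have hstep := fun x => step_err (T0 := T0) hz hs hiT hu2 x
      have hm := fun w => (measurable_st (z := z) (T0 := T0) hr i u w)
      have hm' : ∀ w, MeasurableSet {x : Eu d | st r z T0 i u x ⟪x, s⟫ = w} := by
        intro w
        have h1 : Measurable (fun x : Eu d => (x, ⟪x, s⟫)) := by fun_prop
        exact h1 (hm w)
      have hterm : ∀ w, (stdGaussian (Eu d)).real {x | st r z T0 i u x ⟪x, s⟫ = w} *
          V r z T0 s n (i + 1) w ≤
          (stdGaussian (Eu d)).real {x | st r z T0 i u x ⟪x, s⟫ = w} *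
          (α ^ a * ‖z w - s‖ + 2 * d * δ * (1 - α ^ a)) := by
        intro w
        by_cases hne : ∃ x, st r z T0 i u x ⟪x, s⟫ = w
        · obtain ⟨x, hx⟩ := hne
          refine mul_le_mul_of_nonneg_left ?_ measureReal_nonneg
          have h1 := ih (i + 1) w (by omega) (by
            rw [ha', ← hx]
            have h2 := hstep x
            have h3 := Kacz.norm_err_le (s - z u) x
            rw [norm_sub_rev s (z u)] at h3
            linarith)
          rwa [ha'] at h1
        · have : {x | st r z T0 i u x ⟪x, s⟫ = w} = ∅ := by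
            ext x
            simp only [Set.mem_ofPred_eq, Set.mem_empty_iff_false, iff_false]
            exact fun h => hne ⟨x, h⟩
          rw [this]; simp
      refine (Finset.sum_le_sum fun w _ => hterm w).trans ?_
      have hmerr : Integrable (fun x => ‖Kacz.err (s - z u) x‖) (stdGaussian (Eu d)) := by
        refine Integrable.of_bound (Kacz.measurable_err _).norm.aestronglyMeasurable
          ‖s - z u‖ ?_
        exact Filter.Eventually.of_forall fun x => by
          rw [norm_norm]; exact Kacz.norm_err_le _ x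
      rw [sum_law hm' (fun w => α ^ a * ‖z w - s‖ + 2 * d * δ * (1 - α ^ a))]
      have h4 : ∫ x, (α ^ a * ‖z (st r z T0 i u x ⟪x, s⟫) - s‖ + 2 * d * δ * (1 - α ^ a))
          ∂(stdGaussian (Eu d)) ≤
          ∫ x, (α ^ a * (‖Kacz.err (s - z u) x‖ + δ) + 2 * d * δ * (1 - α ^ a))
          ∂(stdGaussian (Eu d)) := by
        refine integral_mono_of_nonneg ?_ ?_ ?_
        · refine Filter.Eventually.of_forall fun x => ?_
          have hαa : α ^ a ≤ 1 := pow_le_one₀ hα0 (by
            rw [hα]; have : 0 ≤ 1 / (2 * (d : ℝ)) := by positivity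
            linarith)
          have : 0 ≤ 1 - α ^ a := by linarith
          show 0 ≤ α ^ a * ‖z (st r z T0 i u x ⟪x, s⟫) - s‖ + 2 * d * δ * (1 - α ^ a)
          positivity
        · exact ((hmerr.add (integrable_const _)).const_mul _).add (integrable_const _)
        · refine Filter.Eventually.of_forall fun x => ?_
          have h5 := mul_le_mul_of_nonneg_left (hstep x) (pow_nonneg hα0 a)
          show α ^ a * ‖z (st r z T0 i u x ⟪x, s⟫) - s‖ + 2 * d * δ * (1 - α ^ a) ≤
            α ^ a * (‖Kacz.err (s - z u) x‖ + δ) + 2 * d * δ * (1 - α ^ a)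
          linarith
      refine h4.trans ?_
      have h6 : ∫ x, (α ^ a * (‖Kacz.err (s - z u) x‖ + δ) + 2 * d * δ * (1 - α ^ a))
          ∂(stdGaussian (Eu d)) = α ^ a * (∫ x, ‖Kacz.err (s - z u) x‖ ∂(stdGaussian (Eu d)) + δ) +
            2 * d * δ * (1 - α ^ a) := by
        have i1 : Integrable (fun x => ‖Kacz.err (s - z u) x‖ + δ) (stdGaussian (Eu d)) :=
          hmerr.add (integrable_const _)
        rw [integral_add (i1.const_mul _) (integrable_const _), integral_const_mul,
          integral_add hmerr (integrable_const _)]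
        simp
      rw [h6]
      have h7 := Kacz.mean_err hd (s - z u)
      rw [norm_sub_rev s (z u)] at h7
      have h8 : α ^ a * (∫ x, ‖Kacz.err (s - z u) x‖ ∂(stdGaussian (Eu d)) + δ) ≤
          α ^ a * (α * ‖z u - s‖ + δ) :=
        mul_le_mul_of_nonneg_left (by linarith) (pow_nonneg hα0 a)
      have h9 : α ^ a * (α * ‖z u - s‖ + δ) + 2 * d * δ * (1 - α ^ a) =
          α ^ (a + 1) * ‖z u - s‖ + 2 * d * δ * (1 - α ^ (a + 1)) := by
        have : 2 * (d : ℝ) * α = 2 * d - 1 := by rw [hα]; field_simp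
        rw [pow_succ]
        clear_value α
        linear_combination (δ * α ^ a) * this
      linarith
    · have h1 : T0 - i = 0 := by omega
      have h2 : ∀ w, (stdGaussian (Eu d)).real {x | st r z T0 i u x ⟪x, s⟫ = w} =
          if u = w then 1 else 0 := by
        intro w
        unfold st
        simp only [if_neg hiT]
        split_ifs with h
        · simp [h]
        · simp [h]
      simp only [h2, ite_mul, one_mul, zero_mul, Finset.sum_ite_eq, Finset.mem_univ, if_true]
      have h3 := ih (i + 1) u (by omega) (by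
        have : T0 - (i + 1) = 0 := by omega
        rw [this]; rw [h1] at hu; exact hu)
      have h4 : T0 - (i + 1) = 0 := by omega
      rw [h4] at h3
      rw [h1]
      exact h3

/-- direction of a vector, as a point of the sphere -/
noncomputable def dir (p0 : Metric.sphere (0 : Eu d) 1) (w : Eu d) : Metric.sphere (0 : Eu d) 1 :=
  open Classical in
  if h : w = 0 then p0 else ⟨‖w‖⁻¹ • w, by
    rw [mem_sphere_zero_iff_norm, norm_smul, norm_inv, norm_norm,
      inv_mul_cancel₀ (norm_ne_zero_iff.mpr h)]⟩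

omit [DecidableEq S] in
/-- the quantised Kaczmarz learner -/
noncomputable def learner (p0 : Metric.sphere (0 : Eu d) 1) (r : Eu d → S) (z : S → Eu d)
    (hr : ∀ u, MeasurableSet {w | r w = u}) (T0 : ℕ) : Learner d S Unit where
  init _ := r 0
  step i _ u x y := (st r z T0 i u x y, false)
  out _ _ u := dir p0 (z u)
  measurable_init u := MeasurableSet.const (r 0 = u)
  measurable_step i u w := by
    have h1 : Measurable (fun p : Unit × Eu d × ℝ => p.2) := measurable_snd
    have h2 : {p : Unit × Eu d × ℝ | (st r z T0 i u p.2.1 p.2.2, false) = w} =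
        {p : Unit × Eu d × ℝ | st r z T0 i u p.2.1 p.2.2 = w.1} ∩ {_p | false = w.2} := by
      ext p
      simp only [Set.mem_ofPred_eq, Set.mem_inter_iff, Prod.ext_iff]
    rw [h2]
    exact (h1 (measurable_st hr i u w.1)).inter (MeasurableSet.const _)
  measurable_out i u := measurable_const

omit [Fintype S] [DecidableEq S] in
theorem play_eq (p0 : Metric.sphere (0 : Eu d) 1) (hr : ∀ u, MeasurableSet {w | r w = u})
    (n i : ℕ) (X : Fin n → Eu d) (y : Fin n → ℝ) (u : S) :
    (learner p0 r z hr T0).play () n i X y u = dir p0 (z (run (st r z T0) n i X y u)) := by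
  induction n generalizing i u with
  | zero => rfl
  | succ n ih =>
    rw [Learner.play, run]
    simp only [learner, Bool.false_eq_true, if_false]
    exact ih (i + 1) _ _ _

theorem success_at (p0 : Metric.sphere (0 : Eu d) 1)
    (hr : ∀ u, MeasurableSet {w | r w = u}) {ε : ℝ} (hε0 : 0 < ε) (hε : ε ≤ 1 / 2) {s : Eu d}
    (hs : ‖s‖ = 1) {T : ℕ} (hV : V r z T0 s T 0 (r 0) ≤ ε / 6) :
    ENNReal.ofReal (2 / 3) ≤ rows (Eu d) T {X | Real.arccos
      ⟪((learner p0 r z hr T0).estimate T () X s : Eu d), s⟫ ≤ ε} := by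
  classical
  have hprob : IsProbabilityMeasure (rows (Eu d) T) := by unfold rows; infer_instance
  set law : S → ℝ := fun v =>
    (rows (Eu d) T).real {X | run (st r z T0) T 0 X (lab X s) (r 0) = v} with hlaw
  have hm : ∀ v, MeasurableSet {X : Fin T → Eu d |
      run (st r z T0) T 0 X (lab X s) (r 0) = v} := fun v =>
    Run.measurableSet_lab (fun i u v => measurable_st hr i u v) T 0 _ v s
  have hdisj : Pairwise (Function.onFun Disjoint fun v : S => {X : Fin T → Eu d |
      run (st r z T0) T 0 X (lab X s) (r 0) = v}) := by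
    intro v w hvw
    rw [Function.onFun, Set.disjoint_left]
    intro X h1 h2
    exact hvw (h1.symm.trans h2)
  have hsum : ∑ v, law v = 1 := by
    have h1 : ⋃ v, {X : Fin T → Eu d | run (st r z T0) T 0 X (lab X s) (r 0) = v} =
        Set.univ := by ext X; simp
    rw [hlaw, ← measureReal_iUnion_fintype hdisj hm, h1, probReal_univ]
  have hlaw0 : ∀ v, 0 ≤ law v := fun v => measureReal_nonneg
  -- Markov
  have hgood : 2 / 3 ≤ ∑ v, if ‖z v - s‖ ≤ ε / 2 then law v else 0 := by
    have h1 : ∀ v, law v - law v * ‖z v - s‖ * (2 / ε) ≤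
        if ‖z v - s‖ ≤ ε / 2 then law v else 0 := by
      intro v
      split_ifs with h
      · have : 0 ≤ law v * ‖z v - s‖ * (2 / ε) := by
          have := hlaw0 v
          positivity
        linarith
      · push Not at h
        have h2 : 1 ≤ ‖z v - s‖ * (2 / ε) := by
          rw [← mul_div_assoc, le_div_iff₀ hε0]; linarith
        have h3 := mul_le_mul_of_nonneg_left h2 (hlaw0 v)
        linarith
    have h2 := Finset.sum_le_sum fun v (_ : v ∈ Finset.univ) => h1 v
    rw [Finset.sum_sub_distrib, hsum, ← Finset.sum_mul] at h2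
    have h3 : (∑ v, law v * ‖z v - s‖) ≤ ε / 6 := hV
    have h4 : (∑ v, law v * ‖z v - s‖) * (2 / ε) ≤ ε / 6 * (2 / ε) :=
      mul_le_mul_of_nonneg_right h3 (by positivity)
    have h5 : ε / 6 * (2 / ε) = 1 / 3 := by field_simp; norm_num
    linarith
  have hincl : (⋃ v ∈ (Finset.univ.filter fun v => ‖z v - s‖ ≤ ε / 2),
      {X : Fin T → Eu d | run (st r z T0) T 0 X (lab X s) (r 0) = v}) ⊆
      {X | Real.arccos ⟪((learner p0 r z hr T0).estimate T () X s : Eu d), s⟫ ≤ ε} := by
    intro X hX
    simp only [Set.mem_iUnion, Finset.mem_filter, Finset.mem_univ, true_and, exists_prop,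
      Set.mem_ofPred_eq] at hX
    obtain ⟨v, hv, hX⟩ := hX
    have h1 : (learner p0 r z hr T0).estimate T () X s = dir p0 (z v) := by
      unfold Learner.estimate
      rw [play_eq]
      have : (learner p0 r z hr T0).init () = r 0 := rfl
      rw [this]
      have h2 : (fun t => ⟪X t, s⟫) = lab X s := rfl
      rw [h2, hX]
    show Real.arccos ⟪((learner p0 r z hr T0).estimate T () X s : Eu d), s⟫ ≤ ε
    rw [h1]
    have hzv : z v ≠ 0 := by
      intro h0
      rw [h0, zero_sub, norm_neg, hs] at hv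
      linarith
    unfold dir
    rw [dif_neg hzv]
    have h3 := angle_le hs (η := ε / 2) (by linarith) hv
    simpa using h3.trans (by linarith : 2 * (ε / 2) ≤ ε)
  refine le_trans ?_ (measure_mono hincl)
  rw [measure_biUnion_finset (fun v _ w _ hvw => hdisj hvw) fun v _ => hm v]
  have h6 : ENNReal.ofReal (2 / 3) ≤ ENNReal.ofReal
      (∑ v, if ‖z v - s‖ ≤ ε / 2 then law v else 0) := ENNReal.ofReal_le_ofReal hgood
  refine h6.trans (le_of_eq ?_)
  rw [← Finset.sum_filter, ENNReal.ofReal_sum_of_nonneg fun v _ => hlaw0 v]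
  refine Finset.sum_congr rfl fun v _ => ?_
  simp only [hlaw]
  rw [ofReal_measureReal]

end Up

/-- quantised Kaczmarz: `O(d log (d/ε))` bits and `O(d log (1/ε))` samples suffice -/
theorem upper {d : ℕ} (hd : 1 ≤ d) {ε : ℝ} (hε0 : 0 < ε) (hε : ε ≤ 1 / 2) {M T : ℕ}
    (hM : 100 * (d * Real.log (d / ε)) ≤ M) (hT : 100 * (d * Real.log (1 / ε)) ≤ T) :
    ∃ (S : Type) (_ : Fintype S) (A : Learner d S Unit),
      (∀ i j ω u, A.out i ω u = A.out j ω u) ∧ Fintype.card S ≤ 2 ^ M ∧
      A.Succeeds (Measure.dirac ()) T ε := by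
  classical
  have hdR : (1 : ℝ) ≤ d := by exact_mod_cast hd
  have hd0 : NeZero d := ⟨by omega⟩
  have hd00 : (0 : ℝ) < d := by linarith
  set δ := ε / (100 * d) with hδ
  have hδ0 : 0 < δ := by positivity
  have hδ1 : δ ≤ 1 / 200 := by
    rw [hδ, div_le_iff₀ (by positivity)]
    nlinarith
  obtain ⟨K, hK0, hK, r, z, hr, hz⟩ := Grid.grid (d := d) hd hδ0 (by linarith)
  set T0 := ⌈2 * d * Real.log (24 / ε)⌉₊ with hT0
  have hl2 := Real.log_two_gt_d9
  have hl2' := Real.log_two_lt_d9
  have hlε : Real.log 2 ≤ Real.log (1 / ε) := by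
    apply Real.log_le_log (by norm_num)
    rw [le_div_iff₀ hε0]; linarith
  have hl24 : Real.log 24 ≤ 5 * Real.log 2 := by
    have : Real.log 24 ≤ Real.log (2 ^ 5) := Real.log_le_log (by norm_num) (by norm_num)
    rw [Real.log_pow] at this
    exact_mod_cast this
  have hl24' : Real.log (24 / ε) = Real.log 24 + Real.log (1 / ε) := by
    rw [Real.log_div (by norm_num) hε0.ne', one_div, Real.log_inv]; ring
  have hlog24pos : 0 ≤ Real.log 24 := Real.log_nonneg (by norm_num)
  have hT0le : (T0 : ℝ) ≤ 2 * d * Real.log (24 / ε) + 1 :=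
    (Nat.ceil_lt_add_one (mul_nonneg (by positivity) (by rw [hl24']; linarith))).le
  have hT0ge : 2 * d * Real.log (24 / ε) ≤ T0 := Nat.le_ceil _
  have hdl : (d : ℝ) * Real.log 2 ≤ d * Real.log (1 / ε) :=
    mul_le_mul_of_nonneg_left hlε hd00.le
  have hdl2 : Real.log 2 ≤ d * Real.log 2 := by nlinarith
  have hT0T : T0 ≤ T := by
    have h1 : (T0 : ℝ) ≤ T := by
      refine hT0le.trans (le_trans ?_ hT)
      rw [hl24']
      have h2 : (d : ℝ) * Real.log 24 ≤ d * (5 * Real.log 2) :=
        mul_le_mul_of_nonneg_left hl24 hd00.le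
      linarith
    exact_mod_cast h1
  have hTδ : (T0 : ℝ) * δ ≤ 1 / 2 := by
    have h1 : Real.log (24 / ε) ≤ 24 / ε - 1 := Real.log_le_sub_one_of_pos (by positivity)
    have h2 : (T0 : ℝ) * δ ≤ (2 * d * (24 / ε - 1) + 1) * δ := by
      apply mul_le_mul_of_nonneg_right _ hδ0.le
      have := mul_le_mul_of_nonneg_left h1 (show (0 : ℝ) ≤ 2 * d by positivity)
      linarith
    have h3 : (2 * d * (24 / ε - 1) + 1) * δ = 48 / 100 - 2 * d * δ + δ := by
      rw [hδ]; field_simp; ring
    have h4 : δ ≤ 2 * d * δ := by nlinarith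
    linarith
  refine ⟨Fin d → Fin K, inferInstance, ?_⟩
  obtain ⟨p0⟩ : Nonempty (Metric.sphere (0 : Eu d) 1) :=
    ⟨⟨EuclideanSpace.single (⟨0, hd⟩ : Fin d) (1 : ℝ), by simp⟩⟩
  refine ⟨Up.learner p0 r z hr T0, fun _ _ _ _ => rfl, ?_, ?_⟩
  · -- memory
    rw [Fintype.card_pi_const, Fintype.card_fin]
    have h1 : ((K : ℝ)) ^ d ≤ (2 : ℝ) ^ M := by
      have hKp : (0 : ℝ) < K := by exact_mod_cast hK0
      rw [← Real.log_le_log_iff (by positivity) (by positivity), Real.log_pow, Real.log_pow]
      have h2 : Real.log K ≤ Real.log (7 * √d / δ) := Real.log_le_log hKp hK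
      have h3 : 7 * √(d : ℝ) / δ = 700 * (√d * (d / ε)) := by
        rw [hδ]; field_simp; ring
      have hs1 : 1 ≤ √(d : ℝ) := Real.one_le_sqrt.mpr hdR
      rw [h3, Real.log_mul (by norm_num) (by positivity), Real.log_mul (by positivity)
        (by positivity), Real.log_sqrt hd00.le] at h2
      have h4 : Real.log (d / ε) = Real.log d + Real.log (1 / ε) := by
        rw [Real.log_div hd00.ne' hε0.ne', one_div, Real.log_inv]; ring
      have h5 : 0 ≤ Real.log d := Real.log_nonneg hdR
      have h6 : Real.log 700 ≤ 10 * Real.log 2 := by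
        have : Real.log 700 ≤ Real.log (2 ^ 10) := Real.log_le_log (by norm_num) (by norm_num)
        rw [Real.log_pow] at this
        exact_mod_cast this
      have h7 : Real.log K ≤ 12 * Real.log (d / ε) := by linarith
      have h8 : (d : ℝ) * Real.log K ≤ d * (12 * Real.log (d / ε)) :=
        mul_le_mul_of_nonneg_left h7 hd00.le
      have h9 : 0 ≤ (d : ℝ) * Real.log (d / ε) := by
        apply mul_nonneg hd00.le; rw [h4]; linarith
      have h10 : 100 * (d * Real.log (d / ε)) * Real.log 2 ≤ M * Real.log 2 :=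
        mul_le_mul_of_nonneg_right hM (by linarith)
      nlinarith
    exact_mod_cast h1
  · -- success
    have hV : ∀ s : Eu d, ‖s‖ = 1 → Up.V r z T0 s T 0 (r 0) ≤ ε / 6 := by
      intro s hs
      have h0 : ‖z (r 0) - s‖ ≤ 1 + δ := by
        have h1 := hz 0 (by simp)
        calc ‖z (r 0) - s‖ ≤ ‖z (r 0)‖ + ‖s‖ := norm_sub_le _ _
          _ ≤ δ + 1 := by rw [hs]; simpa using h1
          _ = 1 + δ := by ring
      have h1 := Up.V_le (T0 := T0) hd hr hδ0.le hz hs T 0 (r 0) (by omega) (by
        rw [Nat.sub_zero]; linarith)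
      rw [Nat.sub_zero] at h1
      set α : ℝ := 1 - 1 / (2 * d) with hα
      have hα0 : 0 ≤ α := by
        have : 1 / (2 * (d : ℝ)) ≤ 1 / 2 := one_div_le_one_div_of_le (by norm_num) (by linarith)
        rw [hα]; linarith
      have hαexp : α ^ T0 ≤ ε / 24 := by
        have h2 : α ≤ Real.exp (-(1 / (2 * d))) := by
          have := Real.add_one_le_exp (-(1 / (2 * (d : ℝ))))
          rw [hα]; linarith
        calc α ^ T0 ≤ Real.exp (-(1 / (2 * d))) ^ T0 := pow_le_pow_left₀ hα0 h2 T0
          _ = Real.exp (-(T0 / (2 * d))) := by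
              rw [← Real.exp_nat_mul]; congr 1; ring
          _ ≤ Real.exp (-Real.log (24 / ε)) := by
              apply Real.exp_le_exp.mpr
              have : Real.log (24 / ε) ≤ T0 / (2 * d) := by
                rw [le_div_iff₀ (by positivity)]; linarith
              linarith
          _ = ε / 24 := by
              rw [Real.exp_neg, Real.exp_log (by positivity), inv_div]
      have hα1 : 0 ≤ α ^ T0 := pow_nonneg hα0 _
      have h3 : 2 * d * δ = ε / 50 := by rw [hδ]; field_simp; norm_num
      have h4 : α ^ T0 * ‖z (r 0) - s‖ ≤ ε / 24 * 2 :=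
        mul_le_mul hαexp (by linarith) (norm_nonneg _) (by positivity)
      have h5 : 2 * d * δ * (1 - α ^ T0) ≤ ε / 50 := by
        rw [h3]
        have : ε / 50 * (1 - α ^ T0) ≤ ε / 50 * 1 :=
          mul_le_mul_of_nonneg_left (by linarith) (by positivity)
        linarith
      linarith
    have hsucc : ∀ s : Metric.sphere (0 : Eu d) 1, ENNReal.ofReal (2 / 3) ≤
        rows (Eu d) T {X | Real.arccos
          ⟪((Up.learner p0 r z hr T0).estimate T () X s.1 : Eu d), s.1⟫ ≤ ε} := fun s =>
      Up.success_at p0 hr hε0 hε (by simp) (hV s.1 (by simp))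
    unfold Learner.Succeeds
    have hprob : IsProbabilityMeasure (rows (Eu d) T) := by unfold rows; infer_instance
    have hunif : IsProbabilityMeasure (unif d) := inferInstance
    set A := Up.learner p0 r z hr T0 with hA
    have hmeas : MeasurableSet {p : Unit × Metric.sphere (0 : Eu d) 1 × (Fin T → Eu d) |
        Real.arccos ⟪(A.estimate T p.1 p.2.2 p.2.1.1 : Eu d), p.2.1.1⟫ ≤ ε} := by
      have h2 : Measurable (fun p : Unit × Metric.sphere (0 : Eu d) 1 × (Fin T → Eu d) =>
          ⟪(A.estimate T p.1 p.2.2 p.2.1.1 : Eu d), p.2.1.1⟫) :=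
        (measurable_subtype_coe.comp (A.measurable_estimate T)).inner
          (measurable_subtype_coe.comp (measurable_fst.comp measurable_snd))
      exact measurableSet_le (Real.measurable_arccos.comp h2) measurable_const
    have key : ENNReal.ofReal (2 / 3) ≤
        ((Measure.dirac ()).prod ((unif d).prod (rows (Eu d) T)))
        {p | Real.arccos ⟪(A.estimate T p.1 p.2.2 p.2.1.1 : Eu d), p.2.1.1⟫ ≤ ε} := by
      rw [Measure.prod_apply hmeas, lintegral_dirac' _ (measurable_measure_prodMk_left hmeas),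
        Measure.prod_apply (measurable_prodMk_left hmeas)]
      calc ENNReal.ofReal (2 / 3) = ∫⁻ _s, ENNReal.ofReal (2 / 3) ∂(unif d) := by simp
        _ ≤ _ := lintegral_mono fun s => hsucc s
    exact (ENNReal.ofReal_le_iff_le_toReal (measure_ne_top _ _)).mp key

end P309
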